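import Vale.Agent.P224.Gap.Flat4
import Vale.Agent.P224.TwoSide.Main
import Vale.Agent.P224.TwoSide.Double
import Vale.Agent.P224.Numerics

/-!
# P224: from the core bound to the gap 6/5

The core bound is stated for injective immersions with a smooth unit normal. The general case
follows: an injective immersion has a smooth unit normal, a non-injective one has at least twice
the volume of the sphere.
-/

namespace Vale.Agent.P224.PM

open MeasureTheory Set Real Filter Module Vale.Agent.P224 Vale.Agent.P224.FV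
open scoped RealInnerProductSpace Topology ContDiff Manifold

set_option linter.unusedSectionVars false

section

variable {V W M : Type*} [NormedAddCommGroup V] [InnerProductSpace ℝ V] [FiniteDimensional ℝ V]
  [NormedAddCommGroup W] [InnerProductSpace ℝ W] [FiniteDimensional ℝ W]
  [TopologicalSpace M] [ChartedSpace V M]
  [MeasurableSpace V] [BorelSpace V] [MeasurableSpace M] [BorelSpace M]

/-- extraction of the constant -/
theorem six_fifths_of_sq {S A k : ℝ} (hA : 0 ≤ A) (hk : 0 < k)
    (h : 36 / 25 * (S * k) ^ 2 ≤ (A * k) ^ 2) : 6 / 5 * S ≤ A := by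
  have h1 : (6 / 5 * S * k) ^ 2 ≤ (A * k) ^ 2 := by
    have : (6 / 5 * S * k) ^ 2 = 36 / 25 * (S * k) ^ 2 := by ring
    rw [this]
    exact h
  have h2 : 6 / 5 * S * k ≤ A * k := by
    have := abs_le_of_sq_le_sq h1 (by positivity)
    exact (le_abs_self _).trans this
  exact le_of_mul_le_mul_right h2 hk

/-- the gap 6/5 from the core bound -/
theorem main_of_core [IsManifold 𝓘(ℝ, V) ∞ M] [CompactSpace M] [T2Space M] [ConnectedSpace M]
    (hm : 2 ≤ finrank ℝ V) (hW : finrank ℝ W = finrank ℝ V + 2) {F : M → W}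
    (hF : SphImm V F) (hmin : ∀ x n, IsUnitNormal V F x n → meanCurv V F x n = 0)
    (hne : ¬ ∃ a : W, a ≠ 0 ∧ ∀ x, ⟪F x, a⟫ = 0) {k : ℝ} (hk : 0 < k)
    (hcore : ∀ N : M → W, ContMDiff 𝓘(ℝ, V) 𝓘(ℝ, W) ∞ N → (∀ x, IsUnitNormal V F x (N x)) →
      Function.Injective F → (∃ x, normSqA V F x (N x) ≠ 0) →
      36 / 25 * (sphereVol (finrank ℝ V) * k) ^ 2 ≤ ((volM V F).real univ * k) ^ 2) :
    ENNReal.ofReal (6 / 5 * sphereVol (finrank ℝ V)) ≤ volM V F univ := by
  have hfin : IsFiniteMeasure (volM V F) := isFiniteMeasure_volM hF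
  have hs := sphereVol_pos' (finrank ℝ V)
  apply ENNReal.ofReal_le_of_le_toReal
  by_cases hinj : Function.Injective F
  · obtain ⟨N, hNs, hN⟩ := TwoSide.exists_normal hW hF hinj
    obtain ⟨x, hx⟩ := Gap.exists_normSqA_pos hW hF hNs hN hne
    exact six_fifths_of_sq measureReal_nonneg hk (hcore N hNs hN hinj ⟨x, hx.ne'⟩)
  · have h2 := TwoSide.two_le (by omega) hW hF hmin hinj
    refine le_trans ?_ h2
    gcongr
    norm_num

end

end Vale.Agent.P224.PM
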