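import Mathlib

/-!
# P224: real number part of the static inequality

Pure algebra: the last two steps of the proof of the static inequality.
-/

namespace Vale.Agent.P224.PM

private lemma sa_quart {ω : ℝ} (h0 : 0 ≤ ω) (h1 : ω ≤ 1) :
    (1 - ω ^ 2) * ω ^ 2 ≤ (1 - 11 / 25 * ω) * (9 / 20) := by
  nlinarith [sq_nonneg (ω ^ 2 - 1 / 2), sq_nonneg (ω - 7 / 10)]

private lemma sa_s (ω : ℝ) : 0 ≤ 3 / 25 - 288992 / 1000000 * ω + 2016784 / 10000000 * ω ^ 2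
      + 1936 / 10000 * ω ^ 4 := by
  nlinarith [sq_nonneg (ω ^ 2 - 23 / 100), sq_nonneg (ω - 1 / 2)]

private lemma sa_p {r ω T Q R p : ℝ} (hr : 0 < r) (hω : 0 < ω) (hT0 : 0 ≤ T)
    (hQ0 : 0 ≤ Q) (hR : R ^ 2 ≤ T * Q) (h5 : r * T ≤ 11 / 25 * ω * R)
    (hp : r ^ 2 * T = p * ω ^ 2) : p ≤ (11 / 25) ^ 2 * Q := by
  rcases hT0.eq_or_lt with hT | hT
  · rw [← hT] at hp
    have h0 : p * ω ^ 2 = 0 := by rw [← hp]; ring
    have hp' : p = 0 := by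
      rcases mul_eq_zero.1 h0 with h | h
      · exact h
      · exact absurd h (by positivity)
    rw [hp']; positivity
  · have h1 : (r * T) ^ 2 ≤ (11 / 25 * ω * R) ^ 2 := by
      apply pow_le_pow_left₀ (by positivity) h5
    have h2 : (11 / 25 * ω * R) ^ 2 ≤ (11 / 25) ^ 2 * ω ^ 2 * (T * Q) := by
      have h0 : (11 / 25 * ω * R) ^ 2 = (11 / 25) ^ 2 * ω ^ 2 * R ^ 2 := by ring
      rw [h0]
      exact mul_le_mul_of_nonneg_left hR (by positivity)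
    have h3 : (p * ω ^ 2) * T ≤ ((11 / 25) ^ 2 * ω ^ 2 * Q) * T := by
      rw [← hp]
      have h0 : r ^ 2 * T * T = (r * T) ^ 2 := by ring
      rw [h0]
      linarith
    have h4 : p * ω ^ 2 ≤ (11 / 25) ^ 2 * ω ^ 2 * Q := le_of_mul_le_mul_right h3 hT
    have h5 : p * ω ^ 2 ≤ ((11 / 25) ^ 2 * Q) * ω ^ 2 := by linarith
    exact le_of_mul_le_mul_right h5 (by positivity)

private lemma sa_rR {r ω T R p : ℝ} (hr : 0 < r) (hω : 0 < ω)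
    (h5 : r * T ≤ 11 / 25 * ω * R)
    (hp : r ^ 2 * T = p * ω ^ 2) : p * ω ≤ 11 / 25 * (r * R) := by
  have h1 : r * (r * T) ≤ r * (11 / 25 * ω * R) := mul_le_mul_of_nonneg_left h5 hr.le
  have h2 : (p * ω) * ω ≤ (11 / 25 * (r * R)) * ω := by
    have h0 : p * ω * ω = r * (r * T) := by
      have : p * ω * ω = p * ω ^ 2 := by ring
      rw [this, ← hp]; ring
    rw [h0]; linarith
  exact le_of_mul_le_mul_right h2 hω

private lemma sa_A {ω Q A p : ℝ} (hω : 0 < ω) 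
    (hQ0 : 0 ≤ Q) (hA : A ^ 2 ≤ p * ω ^ 2 * Q) (hpQ : p ≤ (11 / 25) ^ 2 * Q) :
    A ≤ 11 / 25 * ω * Q := by
  have h1 : p * (ω ^ 2 * Q) ≤ ((11 / 25) ^ 2 * Q) * (ω ^ 2 * Q) :=
    mul_le_mul_of_nonneg_right hpQ (by positivity)
  have hA1 : A ^ 2 ≤ (11 / 25 * ω * Q) ^ 2 := by
    have h0 : (11 / 25 * ω * Q) ^ 2 = ((11 / 25) ^ 2 * Q) * (ω ^ 2 * Q) := by ring
    rw [h0]
    linarith
  have h2 := abs_le_of_sq_le_sq hA1 (by positivity)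
  exact (le_abs_self A).trans h2

private lemma sa_P {ω Q p : ℝ} (hω : 0 < ω) (hω1 : ω ≤ 1)
    (hQ1 : (1 - 11 / 25 * ω) * Q ≤ 1 - ω ^ 2) (hpQ : p ≤ (11 / 25) ^ 2 * Q) :
    p * ω ^ 2 ≤ 9 / 100 := by
  have h1 : p * ω ^ 2 ≤ (11 / 25) ^ 2 * Q * ω ^ 2 :=
    mul_le_mul_of_nonneg_right hpQ (by positivity)
  have h2 : Q * ω ^ 2 ≤ 9 / 20 := by
    have h3 : (1 - 11 / 25 * ω) * (Q * ω ^ 2) ≤ (1 - ω ^ 2) * ω ^ 2 := by
      have := mul_le_mul_of_nonneg_right hQ1 (sq_nonneg ω)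
      linarith
    have h4 := sa_quart hω.le hω1
    have h5 : (1 - 11 / 25 * ω) * (Q * ω ^ 2) ≤ (1 - 11 / 25 * ω) * (9 / 20) := h3.trans h4
    exact le_of_mul_le_mul_left h5 (by linarith)
  linarith

private lemma sa_T {ω Q A p cc : ℝ} (hω : 0 < ω) (hp0 : 0 ≤ p)
    (hQ0 : 0 ≤ Q) (hQ2 : Q ≤ 2) (hA : A ^ 2 ≤ p * ω ^ 2 * Q) (hcc : ω ^ 2 ≤ cc)
    (hI : Q - A = 1 - cc) : 0 ≤ 11 / 25 * (1 - Q) + 25 / 11 * p := by
  -- ω² (p + k² (1 - Q)) ≥ 0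
  have h1 : (11 / 25) ^ 2 * A ≤ p + (11 / 25) ^ 2 * ω ^ 2 := by
    have h2 : ((11 / 25) ^ 2 * A) ^ 2 ≤ (p + (11 / 25) ^ 2 * ω ^ 2) ^ 2 := by
      have h3 : ((11 / 25) ^ 2 * A) ^ 2 ≤ (11 / 25) ^ 4 * (p * ω ^ 2 * Q) := by
        have h0 : ((11 / 25) ^ 2 * A) ^ 2 = (11 / 25) ^ 4 * A ^ 2 := by ring
        rw [h0]
        exact mul_le_mul_of_nonneg_left hA (by positivity)
      have h4 : (p * ω ^ 2) * Q ≤ (p * ω ^ 2) * 2 :=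
        mul_le_mul_of_nonneg_left hQ2 (by positivity)
      have h5 : 0 ≤ (p - (11 / 25) ^ 2 * ω ^ 2) ^ 2 := sq_nonneg _
      have h6 : 0 ≤ p * ω ^ 2 := by positivity
      nlinarith
    exact (le_abs_self _).trans (abs_le_of_sq_le_sq h2 (by positivity))
  have h2 : 0 ≤ p + (11 / 25) ^ 2 * (1 - Q) := by
    have : Q = 1 - cc + A := by linarith
    rw [this]
    linarith
  linarith

private lemma sa_lin {ω Q p : ℝ} (hω1 : ω ≤ 1) (hp0 : 0 ≤ p)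
    (hQ0 : 0 ≤ Q) (hpQ : p ≤ (11 / 25) ^ 2 * Q) :
    0 ≤ Q * (1 - 11 / 25 - 11 / 25 * ω) + p * (ω * (1 - 11 / 50)
      - 21 / 40 * (11 / 25) * ω ^ 2 - (1 - ω ^ 2) * (25 / 11 + ω ^ 2)) := by
  have hq : 0 ≤ Q * (1 - 11 / 25 - 11 / 25 * ω) := mul_nonneg hQ0 (by linarith)
  rcases le_total 0 (ω * (1 - 11 / 50)
    - 21 / 40 * (11 / 25) * ω ^ 2 - (1 - ω ^ 2) * (25 / 11 + ω ^ 2)) with h | h
  · have := mul_nonneg hp0 h
    linarith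
  · have h1 := mul_le_mul_of_nonpos_right hpQ h
    have h2 := mul_nonneg hQ0 (sa_s ω)
    have h3 : Q * (1 - 11 / 25 - 11 / 25 * ω) + (11 / 25) ^ 2 * Q * (ω * (1 - 11 / 50)
      - 21 / 40 * (11 / 25) * ω ^ 2 - (1 - ω ^ 2) * (25 / 11 + ω ^ 2))
      = Q * (3 / 25 - 288992 / 1000000 * ω + 2016784 / 10000000 * ω ^ 2
      + 1936 / 10000 * ω ^ 4) := by ring
    linarith

/-- The real number part of the static inequality. -/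
theorem static_alg {r ω T cc R Q A C B G Z : ℝ} (hr : 0 < r) (hω : 0 < ω) (hT0 : 0 ≤ T)
    (hQ0 : 0 ≤ Q) (hcc : ω ^ 2 ≤ cc) (hν : 0 ≤ 1 - cc - T) (hR : R ^ 2 ≤ T * Q)
    (hA : A ^ 2 ≤ r ^ 2 * T * Q) (hZ : Z ≤ r ^ 2 * T) (hB0 : 0 ≤ B)
    (hB : B ≤ (1 - cc - T) + 1 / 4 * Z * (1 + B)) (hG : G ≤ r ^ 2 * T * (1 - cc - T))
    (h4 : -(ω * Q) + r * R - r ^ 2 * T / (2 * ω) ≤ ω * C + A)
    (h5 : r * T ≤ 11 / 25 * ω * R) (hI : Q - A = 1 - cc) :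
    0 ≤ Q + 11 / 25 * ω * C - 11 / 25 * B - r ^ 2 * T ^ 2 - 11 / 25 * R ^ 2
      - (1 + 1 / (11 / 25 * ω ^ 2)) * G := by
  obtain ⟨p, hp⟩ : ∃ p : ℝ, r ^ 2 * T = p * ω ^ 2 := ⟨r ^ 2 * T / ω ^ 2, by field_simp⟩
  have hp0 : 0 ≤ p := by
    have h1 : 0 ≤ p * ω ^ 2 := by rw [← hp]; positivity
    exact nonneg_of_mul_nonneg_left h1 (by positivity)
  have hω1 : ω ≤ 1 := by
    have : ω ^ 2 ≤ 1 := by linarith
    nlinarith
  have hpQ := sa_p hr hω hT0 hQ0 hR h5 hp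
  have hrR := sa_rR hr hω h5 hp
  rw [hp] at hA hZ hG h4
  have hA2 := sa_A hω hQ0 hA hpQ
  have hQ1 : (1 - 11 / 25 * ω) * Q ≤ 1 - ω ^ 2 := by
    have : Q = 1 - cc + A := by linarith
    nlinarith
  have hQ2 : Q ≤ 2 := by
    have h0 : 0 ≤ Q * (1 - ω) := mul_nonneg hQ0 (by linarith)
    nlinarith [sq_nonneg ω]
  have hP := sa_P hω hω1 hQ1 hpQ
  have hν1 : 1 - cc - T ≤ 1 := by
    have := sq_nonneg ω
    linarith
  have hB1 : B ≤ 11 / 10 := by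
    have h1 : Z * (1 + B) ≤ (9 / 100) * (1 + B) :=
      mul_le_mul_of_nonneg_right (hZ.trans hP) (by linarith)
    linarith
  have hB2 : B ≤ (1 - cc - T) + 21 / 40 * (p * ω ^ 2) := by
    have h1 : Z * (1 + B) ≤ (p * ω ^ 2) * (1 + B) :=
      mul_le_mul_of_nonneg_right hZ (by linarith)
    have h2 : (p * ω ^ 2) * (1 + B) ≤ (p * ω ^ 2) * (21 / 10) :=
      mul_le_mul_of_nonneg_left (by linarith) (by positivity)
    linarith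
  have hG2 : (1 + 1 / (11 / 25 * ω ^ 2)) * G ≤ (p * ω ^ 2 + 25 / 11 * p) * (1 - cc - T) := by
    have h1 : (1 + 1 / (11 / 25 * ω ^ 2)) * G
        ≤ (1 + 1 / (11 / 25 * ω ^ 2)) * (p * ω ^ 2 * (1 - cc - T)) :=
      mul_le_mul_of_nonneg_left hG (by positivity)
    have h2 : (1 + 1 / (11 / 25 * ω ^ 2)) * (p * ω ^ 2) = p * ω ^ 2 + 25 / 11 * p := by
      field_simp
    have h3 : (1 + 1 / (11 / 25 * ω ^ 2)) * (p * ω ^ 2 * (1 - cc - T))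
      = (p * ω ^ 2 + 25 / 11 * p) * (1 - cc - T) := by
      rw [← h2]; ring
    rw [← h3]
    exact h1
  have hG3 : (p * ω ^ 2 + 25 / 11 * p) * (1 - cc - T)
      ≤ (p * ω ^ 2 + 25 / 11 * p) * (1 - ω ^ 2 - T) := by
    apply mul_le_mul_of_nonneg_left _ (by positivity)
    linarith
  have h4' : -(ω * Q) + r * R - p * ω / 2 ≤ ω * C + A := by
    have h0 : p * ω ^ 2 / (2 * ω) = p * ω / 2 := by
      field_simp
    rw [h0] at h4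
    exact h4
  have hT2 : r ^ 2 * T ^ 2 = p * ω ^ 2 * T := by rw [← hp]; ring
  have hTc := sa_T hω hp0 hQ0 hQ2 hA hcc hI
  have hTT : 0 ≤ T * (11 / 25 * (1 - Q) + 25 / 11 * p) := mul_nonneg hT0 hTc
  have hlin := sa_lin hω1 hp0 hQ0 hpQ
  rw [hT2]
  have e1 : (p * ω ^ 2 + 25 / 11 * p) * (1 - ω ^ 2 - T)
    = p * ((1 - ω ^ 2) * (25 / 11 + ω ^ 2)) - p * ω ^ 2 * T - T * (25 / 11 * p) := by ring
  have e2 : T * (11 / 25 * (1 - Q) + 25 / 11 * p)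
    = 11 / 25 * T - 11 / 25 * (T * Q) + T * (25 / 11 * p) := by ring
  have e3 : Q * (1 - 11 / 25 - 11 / 25 * ω) + p * (ω * (1 - 11 / 50)
      - 21 / 40 * (11 / 25) * ω ^ 2 - (1 - ω ^ 2) * (25 / 11 + ω ^ 2))
      = Q - 11 / 25 * Q - 11 / 25 * (ω * Q) + p * ω - 11 / 50 * (p * ω)
      - 21 / 40 * (11 / 25) * (p * ω ^ 2) - p * ((1 - ω ^ 2) * (25 / 11 + ω ^ 2)) := by ring
  rw [e1] at hG3
  rw [e2] at hTT
  rw [e3] at hlin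
  have e4 : 11 / 25 * ω * C = 11 / 25 * (ω * C) := by ring
  rw [e4]
  linarith

end Vale.Agent.P224.PM
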