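import Mathlib
import Vale.Agent.P224.PM.StaticAlg

/-!
P224, block PM: the static inequality, integral part (helper611).
-/

namespace Vale.Agent.P224.PM

open MeasureTheory
open scoped RealInnerProductSpace

private theorem st_quad {a b k0 k1 k2 : ℝ} (h0 : 0 ≤ k0) (h2 : 0 ≤ k2) (h : k1 ^ 2 ≤ k0 * k2) :
    0 ≤ a ^ 2 * k0 + 2 * (a * b * k1) + b ^ 2 * k2 := by
  have h1 : (2 * (a * b * k1)) ^ 2 ≤ (a ^ 2 * k0 + b ^ 2 * k2) ^ 2 := by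
    nlinarith [sq_nonneg (a ^ 2 * k0 - b ^ 2 * k2), mul_nonneg (sq_nonneg (a * b)) (sub_nonneg.2 h)]
  have h3 := abs_le_of_sq_le_sq' h1 (by positivity)
  linarith [h3.1]

private theorem st_pt {c h p k0 k1 k2 r ω : ℝ} (hω : 0 < ω) (h0 : 0 ≤ k0) (h2 : 0 ≤ k2)
    (hk : k1 ^ 2 ≤ k0 * k2) (hc0 : 0 ≤ 1 + c) (hc2 : 1 + c ≤ 2) :
    0 ≤ ω * (h ^ 2 * k2) + ω * (c * h ^ 2 * k2) - r * (p * h * k1)
        - r * (p * h * c * k1) + r ^ 2 / (2 * ω) * (p ^ 2 * k0) := by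
  have q := st_quad (a := - r * p / (2 * ω)) (b := h) h0 h2 hk
  have q2 : 0 ≤ ω * ((- r * p / (2 * ω)) ^ 2 * k0 +
      2 * (- r * p / (2 * ω) * h * k1) + h ^ 2 * k2) := mul_nonneg hω.le q
  have q3 : ω * ((- r * p / (2 * ω)) ^ 2 * k0 +
      2 * (- r * p / (2 * ω) * h * k1) + h ^ 2 * k2) =
      r ^ 2 / (4 * ω) * (p ^ 2 * k0) - r * (p * h * k1) + ω * (h ^ 2 * k2) := by
    field_simp
    ring
  rw [q3] at q2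
  have q4 := mul_nonneg hc0 q2
  have q5 : 0 ≤ (2 - (1 + c)) * (r ^ 2 / (4 * ω) * (p ^ 2 * k0)) :=
    mul_nonneg (by linarith) (by positivity)
  have q6 : r ^ 2 / (2 * ω) = 2 * (r ^ 2 / (4 * ω)) := by
    field_simp
    ring
  rw [q6]
  calc (0 : ℝ) ≤ _ := add_nonneg q4 q5
    _ = _ := by ring

section

variable {X : Type*} [TopologicalSpace X] [CompactSpace X] [MeasurableSpace X] [BorelSpace X]
  {μ : Measure X} [IsFiniteMeasure μ]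

private theorem st_int {f : X → ℝ} (hf : Continuous f) : Integrable f μ :=
  hf.integrable_of_hasCompactSupport (HasCompactSupport.of_compactSpace f)

private theorem st_form {k0 k1 k2 α β : X → ℝ} (ck0 : Continuous k0) (ck1 : Continuous k1)
    (ck2 : Continuous k2) (hk0 : ∀ x, 0 ≤ k0 x) (hk2 : ∀ x, 0 ≤ k2 x)
    (hk : ∀ x, k1 x ^ 2 ≤ k0 x * k2 x) (cα : Continuous α) (cβ : Continuous β) :
    0 ≤ ∫ x, α x ^ 2 * k0 x ∂μ + 2 * ∫ x, α x * β x * k1 x ∂μ + ∫ x, β x ^ 2 * k2 x ∂μ := by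
  have e : ∫ x, (α x ^ 2 * k0 x + 2 * (α x * β x * k1 x) + β x ^ 2 * k2 x) ∂μ =
      ∫ x, α x ^ 2 * k0 x ∂μ + 2 * ∫ x, α x * β x * k1 x ∂μ + ∫ x, β x ^ 2 * k2 x ∂μ := by
    rw [integral_add (st_int (by fun_prop)) (st_int (by fun_prop)),
      integral_add (st_int (by fun_prop)) (st_int (by fun_prop)), integral_const_mul]
  rw [← e]
  exact integral_nonneg (fun x => st_quad (hk0 x) (hk2 x) (hk x))

private theorem st_cs {k0 k1 k2 α β : X → ℝ} (ck0 : Continuous k0) (ck1 : Continuous k1)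
    (ck2 : Continuous k2) (hk0 : ∀ x, 0 ≤ k0 x) (hk2 : ∀ x, 0 ≤ k2 x)
    (hk : ∀ x, k1 x ^ 2 ≤ k0 x * k2 x) (cα : Continuous α) (cβ : Continuous β) :
    (∫ x, α x * β x * k1 x ∂μ) ^ 2 ≤
      (∫ x, α x ^ 2 * k0 x ∂μ) * ∫ x, β x ^ 2 * k2 x ∂μ := by
  have h : ∀ t : ℝ, 0 ≤ (∫ x, α x ^ 2 * k0 x ∂μ) * (t * t) +
      (2 * ∫ x, α x * β x * k1 x ∂μ) * t + ∫ x, β x ^ 2 * k2 x ∂μ := by
    intro t
    have h1 := st_form (μ := μ) ck0 ck1 ck2 hk0 hk2 hk (α := fun x => t * α x) (β := β)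
      (by fun_prop) cβ
    have e1 : ∫ x, (t * α x) ^ 2 * k0 x ∂μ = (∫ x, α x ^ 2 * k0 x ∂μ) * (t * t) := by
      rw [mul_comm, ← integral_const_mul]
      congr 1
      funext x
      ring
    have e2 : ∫ x, (t * α x) * β x * k1 x ∂μ = (∫ x, α x * β x * k1 x ∂μ) * t := by
      rw [mul_comm, ← integral_const_mul]
      congr 1
      funext x
      ring
    rw [e1, e2] at h1
    linarith
  have h2 := discrim_le_zero h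
  unfold discrim at h2
  nlinarith

private theorem st_h4 {k0 k1 k2 c π h : X → ℝ} {r ω : ℝ}
    (ck0 : Continuous k0) (ck1 : Continuous k1) (ck2 : Continuous k2) (cc : Continuous c)
    (cπ : Continuous π) (ch : Continuous h)
    (hk0 : ∀ x, 0 ≤ k0 x) (hk2 : ∀ x, 0 ≤ k2 x) (hk : ∀ x, k1 x ^ 2 ≤ k0 x * k2 x) (hω0 : 0 < ω)
    (hc0 : ∀ x, 0 ≤ 1 + c x) (hc2 : ∀ x, 1 + c x ≤ 2) :
    -(ω * ∫ x, h x ^ 2 * k2 x ∂μ) + r * (∫ x, π x * h x * k1 x ∂μ)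
      - r ^ 2 * (∫ x, π x ^ 2 * k0 x ∂μ) / (2 * ω) ≤
      ω * (∫ x, c x * h x ^ 2 * k2 x ∂μ) + (- r * ∫ x, π x * h x * c x * k1 x ∂μ) := by
  have e1 : ∫ x, (ω * (h x ^ 2 * k2 x) + ω * (c x * h x ^ 2 * k2 x) - r * (π x * h x * k1 x)
      - r * (π x * h x * c x * k1 x) + r ^ 2 / (2 * ω) * (π x ^ 2 * k0 x)) ∂μ =
      ω * ∫ x, h x ^ 2 * k2 x ∂μ + ω * ∫ x, c x * h x ^ 2 * k2 x ∂μ
      - r * ∫ x, π x * h x * k1 x ∂μ - r * ∫ x, π x * h x * c x * k1 x ∂μ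
      + r ^ 2 / (2 * ω) * ∫ x, π x ^ 2 * k0 x ∂μ := by
    rw [integral_add (st_int (by fun_prop)) (st_int (by fun_prop)),
      integral_sub (st_int (by fun_prop)) (st_int (by fun_prop)),
      integral_sub (st_int (by fun_prop)) (st_int (by fun_prop)),
      integral_add (st_int (by fun_prop)) (st_int (by fun_prop)),
      integral_const_mul, integral_const_mul, integral_const_mul, integral_const_mul,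
      integral_const_mul]
  have e2 : 0 ≤ ∫ x, (ω * (h x ^ 2 * k2 x) + ω * (c x * h x ^ 2 * k2 x) - r * (π x * h x * k1 x)
      - r * (π x * h x * c x * k1 x) + r ^ 2 / (2 * ω) * (π x ^ 2 * k0 x)) ∂μ :=
    integral_nonneg (fun x => st_pt hω0 (hk0 x) (hk2 x) (hk x) (hc0 x) (hc2 x))
  rw [e1] at e2
  have e3 : r ^ 2 / (2 * ω) * ∫ x, π x ^ 2 * k0 x ∂μ =
      r ^ 2 * (∫ x, π x ^ 2 * k0 x ∂μ) / (2 * ω) := by ring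
  rw [e3] at e2
  linarith

private theorem st_A {k0 k1 k2 c π h : X → ℝ} {r : ℝ}
    (ck0 : Continuous k0) (ck1 : Continuous k1) (ck2 : Continuous k2) (cc : Continuous c)
    (cπ : Continuous π) (ch : Continuous h)
    (hk0 : ∀ x, 0 ≤ k0 x) (hk2 : ∀ x, 0 ≤ k2 x) (hk : ∀ x, k1 x ^ 2 ≤ k0 x * k2 x)
    (hc1 : ∀ x, c x ^ 2 ≤ 1) :
    (- r * ∫ x, π x * h x * c x * k1 x ∂μ) ^ 2 ≤
      r ^ 2 * (∫ x, π x ^ 2 * k0 x ∂μ) * ∫ x, h x ^ 2 * k2 x ∂μ := by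
  have hQ0 : 0 ≤ ∫ x, h x ^ 2 * k2 x ∂μ :=
    integral_nonneg (fun x => mul_nonneg (sq_nonneg _) (hk2 x))
  have a1 := st_cs (μ := μ) ck0 ck1 ck2 hk0 hk2 hk (α := fun x => π x * c x) (β := h)
    (by fun_prop) ch
  have a2 : ∫ x, π x * c x * h x * k1 x ∂μ = ∫ x, π x * h x * c x * k1 x ∂μ := by
    congr 1
    funext x
    ring
  have a3 : ∫ x, (π x * c x) ^ 2 * k0 x ∂μ ≤ ∫ x, π x ^ 2 * k0 x ∂μ := by
    refine integral_mono (st_int (by fun_prop)) (st_int (by fun_prop)) (fun x => ?_)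
    show (π x * c x) ^ 2 * k0 x ≤ π x ^ 2 * k0 x
    refine mul_le_mul_of_nonneg_right ?_ (hk0 x)
    rw [mul_pow]
    nlinarith [sq_nonneg (π x), hc1 x]
  rw [a2] at a1
  have a4 := mul_le_mul_of_nonneg_right a3 hQ0
  calc (- r * ∫ x, π x * h x * c x * k1 x ∂μ) ^ 2
      = r ^ 2 * (∫ x, π x * h x * c x * k1 x ∂μ) ^ 2 := by ring
    _ ≤ r ^ 2 * ((∫ x, π x ^ 2 * k0 x ∂μ) * ∫ x, h x ^ 2 * k2 x ∂μ) :=
        mul_le_mul_of_nonneg_left (le_trans a1 a4) (sq_nonneg r)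
    _ = _ := by ring

private theorem st_cc {k0 c : X → ℝ} {ω : ℝ} (ck0 : Continuous k0) (cc : Continuous c)
    (hk0 : ∀ x, 0 ≤ k0 x) (h1 : ∫ x, k0 x ∂μ = 1) (hω : ∫ x, c x * k0 x ∂μ = ω) :
    ω ^ 2 ≤ ∫ x, c x ^ 2 * k0 x ∂μ := by
  have e1 : ∫ x, (c x ^ 2 * k0 x - 2 * ω * (c x * k0 x) + ω ^ 2 * k0 x) ∂μ =
      ∫ x, c x ^ 2 * k0 x ∂μ - 2 * ω * ω + ω ^ 2 * 1 := by
    rw [integral_add (st_int (by fun_prop)) (st_int (by fun_prop)),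
      integral_sub (st_int (by fun_prop)) (st_int (by fun_prop)), integral_const_mul,
      integral_const_mul, hω, h1]
  have e2 : 0 ≤ ∫ x, (c x ^ 2 * k0 x - 2 * ω * (c x * k0 x) + ω ^ 2 * k0 x) ∂μ := by
    refine integral_nonneg (fun x => ?_)
    show 0 ≤ c x ^ 2 * k0 x - 2 * ω * (c x * k0 x) + ω ^ 2 * k0 x
    nlinarith [mul_nonneg (sq_nonneg (c x - ω)) (hk0 x)]
  rw [e1] at e2
  nlinarith

variable {E : Type*} [NormedAddCommGroup E] [InnerProductSpace ℝ E]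
  {ι : Type*} [Fintype ι] (e : OrthonormalBasis ι ℝ E)

private theorem st_vec {u w : X → ℝ} {Y : X → E} (cu : Continuous u) (cw : Continuous w)
    (cY : Continuous Y) (a : E) :
    ⟪∑ j, (∫ x, u x * ⟪Y x, e j⟫ * w x ∂μ) • e j, a⟫ = ∫ x, u x * ⟪Y x, a⟫ * w x ∂μ := by
  have e1 : ∀ x, u x * ⟪Y x, a⟫ * w x = ∑ j, (u x * ⟪Y x, e j⟫ * w x) * ⟪e j, a⟫ := by
    intro x
    rw [← e.sum_inner_mul_inner (Y x) a, Finset.mul_sum, Finset.sum_mul]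
    exact Finset.sum_congr rfl (fun j _ => by ring)
  simp_rw [e1]
  rw [integral_finsetSum _ (fun j _ => st_int (by fun_prop)), sum_inner]
  refine Finset.sum_congr rfl (fun j _ => ?_)
  rw [real_inner_smul_left, integral_mul_const]

private theorem st_norm (v : ι → ℝ) : ‖∑ j, v j • e j‖ ^ 2 = ∑ j, v j ^ 2 := by
  rw [← real_inner_self_eq_norm_sq, sum_inner]
  refine Finset.sum_congr rfl (fun i _ => ?_)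
  rw [real_inner_smul_left, inner_sum]
  classical
  rw [Finset.sum_eq_single i]
  · rw [real_inner_smul_right, real_inner_self_eq_norm_sq, e.orthonormal.1 i]
    ring
  · intro j _ hj
    rw [real_inner_smul_right, e.orthonormal.2 (Ne.symm hj), mul_zero]
  · intro h
    exact absurd (Finset.mem_univ i) h

private theorem st_g {k0 k1 π : X → ℝ} {n Y : X → E} {r : ℝ} (ck0 : Continuous k0)
    (ck1 : Continuous k1) (cπ : Continuous π) (cn : Continuous n) (cY : Continuous Y)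
    (hk0 : ∀ x, 0 ≤ k0 x)
    (hg : ∀ a : E, ∫ x, ⟪Y x, a⟫ * k1 x ∂μ = - r * ∫ x, π x * ⟪n x, a⟫ * k0 x ∂μ) :
    ∑ j, (∫ x, ⟪Y x, e j⟫ * k1 x ∂μ) ^ 2 ≤ r ^ 2 * (∫ x, π x ^ 2 * k0 x ∂μ) *
      ∫ x, ‖n x‖ ^ 2 * k0 x ∂μ := by
  set g : E := ∑ j, (∫ x, ⟪Y x, e j⟫ * k1 x ∂μ) • e j with hgd
  have hT0 : 0 ≤ ∫ x, π x ^ 2 * k0 x ∂μ :=
    integral_nonneg (fun x => mul_nonneg (sq_nonneg _) (hk0 x))
  have hg1 : ∀ a, ⟪g, a⟫ = ∫ x, ⟪Y x, a⟫ * k1 x ∂μ := by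
    intro a
    have := st_vec (μ := μ) (u := fun _ => 1) e continuous_const ck1 cY a
    simpa only [one_mul] using this
  have hg2 : ‖g‖ ^ 2 = ∑ j, (∫ x, ⟪Y x, e j⟫ * k1 x ∂μ) ^ 2 := st_norm e _
  rw [← hg2]
  have e1 : ‖g‖ ^ 2 = - r * ∫ x, π x * ⟪n x, g⟫ * k0 x ∂μ := by
    rw [← real_inner_self_eq_norm_sq, hg1 g, hg g]
  have e2 := st_cs (μ := μ) ck0 ck0 ck0 hk0 hk0 (fun x => by rw [sq]) (α := π)
    (β := fun x => ⟪n x, g⟫) cπ (by fun_prop)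
  have e3 : ∫ x, ⟪n x, g⟫ ^ 2 * k0 x ∂μ ≤ ‖g‖ ^ 2 * ∫ x, ‖n x‖ ^ 2 * k0 x ∂μ := by
    rw [← integral_const_mul]
    refine integral_mono (st_int (by fun_prop)) (st_int (by fun_prop)) (fun x => ?_)
    show ⟪n x, g⟫ ^ 2 * k0 x ≤ ‖g‖ ^ 2 * (‖n x‖ ^ 2 * k0 x)
    rw [← mul_assoc]
    refine mul_le_mul_of_nonneg_right ?_ (hk0 x)
    have := abs_real_inner_le_norm (n x) g
    rw [← mul_pow, mul_comm ‖g‖]
    exact sq_le_sq' (by linarith [neg_abs_le ⟪n x, g⟫]) (le_trans (le_abs_self _) this)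
  have hN0 : 0 ≤ ∫ x, ‖n x‖ ^ 2 * k0 x ∂μ :=
    integral_nonneg (fun x => mul_nonneg (sq_nonneg _) (hk0 x))
  have e4 : (‖g‖ ^ 2) ^ 2 ≤ r ^ 2 * (∫ x, π x ^ 2 * k0 x ∂μ) *
      (‖g‖ ^ 2 * ∫ x, ‖n x‖ ^ 2 * k0 x ∂μ) := by
    calc (‖g‖ ^ 2) ^ 2 = r ^ 2 * (∫ x, π x * ⟪n x, g⟫ * k0 x ∂μ) ^ 2 := by rw [e1]; ring
      _ ≤ r ^ 2 * ((∫ x, π x ^ 2 * k0 x ∂μ) * ∫ x, ⟪n x, g⟫ ^ 2 * k0 x ∂μ) :=
          mul_le_mul_of_nonneg_left e2 (sq_nonneg r)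
      _ ≤ r ^ 2 * ((∫ x, π x ^ 2 * k0 x ∂μ) * (‖g‖ ^ 2 * ∫ x, ‖n x‖ ^ 2 * k0 x ∂μ)) :=
          mul_le_mul_of_nonneg_left (mul_le_mul_of_nonneg_left e3 hT0) (sq_nonneg r)
      _ = _ := by ring
  rcases (sq_nonneg ‖g‖).eq_or_lt with h0 | h0
  · rw [← h0]
    positivity
  · refine le_of_mul_le_mul_right ?_ h0
    calc ‖g‖ ^ 2 * ‖g‖ ^ 2 = (‖g‖ ^ 2) ^ 2 := by ring
      _ ≤ _ := e4
      _ = _ := by ring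

private theorem st_b {k0 k1 k2 π u : X → ℝ} {n Y : X → E} {r : ℝ} (ck0 : Continuous k0)
    (ck1 : Continuous k1) (ck2 : Continuous k2) (cπ : Continuous π) (cu : Continuous u)
    (cn : Continuous n) (cY : Continuous Y)
    (hk0 : ∀ x, 0 ≤ k0 x) (hk2 : ∀ x, 0 ≤ k2 x) (hk : ∀ x, k1 x ^ 2 ≤ k0 x * k2 x) (b : E)
    (hb : ⟪b, b⟫ = ∫ x, u x * ⟪Y x, b⟫ * k1 x ∂μ)
    (hh : ∫ x, ⟪Y x, b⟫ ^ 2 * k2 x ∂μ + r * ∫ x, π x * ⟪Y x, b⟫ * ⟪n x, b⟫ * k1 x ∂μ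
      + ∫ x, ⟪n x, b⟫ ^ 2 * k0 x ∂μ ≤ ‖b‖ ^ 2) :
    ‖b‖ ^ 2 ≤ ∫ x, u x ^ 2 * k0 x ∂μ + 1 / 4 * ∫ x, r ^ 2 * π x ^ 2 * u x ^ 2 * k0 x ∂μ
      + 1 / 4 * (‖b‖ ^ 2 * ∫ x, r ^ 2 * π x ^ 2 * ‖n x‖ ^ 2 * k0 x ∂μ) := by
  have h1 := st_form (μ := μ) ck0 ck1 ck2 hk0 hk2 hk
    (α := fun x => u x - r * π x * ⟪n x, b⟫ / 2) (β := fun x => - ⟪Y x, b⟫)
    (by fun_prop) (by fun_prop)
  have e2 : ∫ x, (u x - r * π x * ⟪n x, b⟫ / 2) * (- ⟪Y x, b⟫) * k1 x ∂μ =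
      - ∫ x, u x * ⟪Y x, b⟫ * k1 x ∂μ + r / 2 * ∫ x, π x * ⟪Y x, b⟫ * ⟪n x, b⟫ * k1 x ∂μ := by
    rw [← integral_neg, ← integral_const_mul,
      ← integral_add (st_int (by fun_prop)) (st_int (by fun_prop))]
    congr 1
    funext x
    ring
  have e3 : ∫ x, (- ⟪Y x, b⟫) ^ 2 * k2 x ∂μ = ∫ x, ⟪Y x, b⟫ ^ 2 * k2 x ∂μ := by
    congr 1
    funext x
    ring
  have e4 : ∫ x, (u x - r * π x * ⟪n x, b⟫ / 2) ^ 2 * k0 x ∂μ ≤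
      ∫ x, u x ^ 2 * k0 x ∂μ + 1 / 4 * ∫ x, r ^ 2 * π x ^ 2 * u x ^ 2 * k0 x ∂μ
      + 1 / 4 * (‖b‖ ^ 2 * ∫ x, r ^ 2 * π x ^ 2 * ‖n x‖ ^ 2 * k0 x ∂μ)
      + ∫ x, ⟪n x, b⟫ ^ 2 * k0 x ∂μ := by
    have e5 : ∫ x, (u x ^ 2 * k0 x + 1 / 4 * (r ^ 2 * π x ^ 2 * u x ^ 2 * k0 x)
        + 1 / 4 * (‖b‖ ^ 2 * (r ^ 2 * π x ^ 2 * ‖n x‖ ^ 2 * k0 x)) + ⟪n x, b⟫ ^ 2 * k0 x) ∂μ =
        ∫ x, u x ^ 2 * k0 x ∂μ + 1 / 4 * ∫ x, r ^ 2 * π x ^ 2 * u x ^ 2 * k0 x ∂μ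
        + 1 / 4 * (‖b‖ ^ 2 * ∫ x, r ^ 2 * π x ^ 2 * ‖n x‖ ^ 2 * k0 x ∂μ)
        + ∫ x, ⟪n x, b⟫ ^ 2 * k0 x ∂μ := by
      rw [integral_add (st_int (by fun_prop)) (st_int (by fun_prop)),
        integral_add (st_int (by fun_prop)) (st_int (by fun_prop)),
        integral_add (st_int (by fun_prop)) (st_int (by fun_prop)), integral_const_mul,
        integral_const_mul, integral_const_mul]
    rw [← e5]
    refine integral_mono (st_int (by fun_prop)) (st_int (by fun_prop)) (fun x => ?_)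
    show (u x - r * π x * ⟪n x, b⟫ / 2) ^ 2 * k0 x ≤ u x ^ 2 * k0 x
      + 1 / 4 * (r ^ 2 * π x ^ 2 * u x ^ 2 * k0 x)
      + 1 / 4 * (‖b‖ ^ 2 * (r ^ 2 * π x ^ 2 * ‖n x‖ ^ 2 * k0 x)) + ⟪n x, b⟫ ^ 2 * k0 x
    have hcs : ⟪n x, b⟫ ^ 2 ≤ ‖n x‖ ^ 2 * ‖b‖ ^ 2 := by
      have := abs_real_inner_le_norm (n x) b
      rw [← mul_pow]
      exact sq_le_sq' (by linarith [neg_abs_le ⟪n x, b⟫]) (le_trans (le_abs_self _) this)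
    have h5 : (u x - r * π x * ⟪n x, b⟫ / 2) ^ 2 ≤ u x ^ 2
      + 1 / 4 * (r ^ 2 * π x ^ 2 * u x ^ 2)
      + 1 / 4 * (‖b‖ ^ 2 * (r ^ 2 * π x ^ 2 * ‖n x‖ ^ 2)) + ⟪n x, b⟫ ^ 2 := by
      nlinarith [sq_nonneg (r * π x * u x / 2 + ⟪n x, b⟫),
        mul_nonneg (sq_nonneg (r * π x)) (sub_nonneg.2 hcs)]
    nlinarith [mul_le_mul_of_nonneg_right h5 (hk0 x)]
  rw [e2, e3, ← hb, real_inner_self_eq_norm_sq] at h1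
  linarith

end

/-- the static inequality -/
theorem static {X : Type*} [TopologicalSpace X] [CompactSpace X] [MeasurableSpace X] [BorelSpace X]
    {μ : Measure X} [IsFiniteMeasure μ]
    {E : Type*} [NormedAddCommGroup E] [InnerProductSpace ℝ E] [FiniteDimensional ℝ E]
    {ι : Type*} [Fintype ι] (e : OrthonormalBasis ι ℝ E)
    {k0 k1 k2 c π h : X → ℝ} {n Y : X → E} {r ω : ℝ}
    (ck0 : Continuous k0) (ck1 : Continuous k1) (ck2 : Continuous k2) (cc : Continuous c)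
    (cπ : Continuous π) (ch : Continuous h) (cn : Continuous n) (cY : Continuous Y)
    (hk0 : ∀ x, 0 ≤ k0 x) (hk2 : ∀ x, 0 ≤ k2 x) (hk : ∀ x, k1 x ^ 2 ≤ k0 x * k2 x) (hr : 0 < r)
    (h1 : ∫ x, k0 x ∂μ = 1) (hω : ∫ x, c x * k0 x ∂μ = ω) (hω0 : 0 < ω)
    (hn : ∀ x, ‖n x‖ ^ 2 = 1 - c x ^ 2 - π x ^ 2)
    (hI : ∫ x, h x ^ 2 * k2 x ∂μ + r * ∫ x, π x * h x * c x * k1 x ∂μ =
      1 - ∫ x, c x ^ 2 * k0 x ∂μ)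
    (hg : ∀ a : E, ∫ x, ⟪Y x, a⟫ * k1 x ∂μ = - r * ∫ x, π x * ⟪n x, a⟫ * k0 x ∂μ)
    (hh : ∀ a : E, ∫ x, ⟪Y x, a⟫ ^ 2 * k2 x ∂μ + r * ∫ x, π x * ⟪Y x, a⟫ * ⟪n x, a⟫ * k1 x ∂μ +
      ∫ x, ⟪n x, a⟫ ^ 2 * k0 x ∂μ ≤ ‖a‖ ^ 2)
    (hT : r * ∫ x, π x ^ 2 * k0 x ∂μ ≤ 11 / 25 * ω * ∫ x, π x * h x * k1 x ∂μ) :
    0 ≤ ∫ x, h x ^ 2 * k2 x ∂μ + 11 / 25 * ω * ∫ x, c x * h x ^ 2 * k2 x ∂μ
        - 11 / 25 * ∑ i, ∑ j, (∫ x, ⟪n x, e i⟫ * ⟪Y x, e j⟫ * k1 x ∂μ) ^ 2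
        - r ^ 2 * (∫ x, π x ^ 2 * k0 x ∂μ) ^ 2 - 11 / 25 * (∫ x, π x * h x * k1 x ∂μ) ^ 2
        - (1 + 1 / (11 / 25 * ω ^ 2)) * ∑ j, (∫ x, ⟪Y x, e j⟫ * k1 x ∂μ) ^ 2 := by
  have hc1 : ∀ x, c x ^ 2 ≤ 1 := fun x => by nlinarith [hn x, sq_nonneg ‖n x‖, sq_nonneg (π x)]
  have hc2 : ∀ x, 0 ≤ 1 + c x ∧ 1 + c x ≤ 2 := fun x => by
    constructor <;> nlinarith [hc1 x]
  have hn1 : ∀ x, ‖n x‖ ^ 2 ≤ 1 := fun x => by nlinarith [hn x, sq_nonneg (c x), sq_nonneg (π x)]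
  -- the numbers
  have hT0 : 0 ≤ ∫ x, π x ^ 2 * k0 x ∂μ :=
    integral_nonneg (fun x => mul_nonneg (sq_nonneg _) (hk0 x))
  have hQ0 : 0 ≤ ∫ x, h x ^ 2 * k2 x ∂μ :=
    integral_nonneg (fun x => mul_nonneg (sq_nonneg _) (hk2 x))
  have hcc := st_cc (μ := μ) ck0 cc hk0 h1 hω
  have hνe : ∫ x, ‖n x‖ ^ 2 * k0 x ∂μ =
      1 - ∫ x, c x ^ 2 * k0 x ∂μ - ∫ x, π x ^ 2 * k0 x ∂μ := by
    rw [← h1, ← integral_sub (st_int (by fun_prop)) (st_int (by fun_prop)),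
      ← integral_sub (st_int (by fun_prop)) (st_int (by fun_prop))]
    congr 1
    funext x
    rw [hn x]
    ring
  have hν : 0 ≤ 1 - ∫ x, c x ^ 2 * k0 x ∂μ - ∫ x, π x ^ 2 * k0 x ∂μ := by
    rw [← hνe]
    exact integral_nonneg (fun x => mul_nonneg (sq_nonneg _) (hk0 x))
  have hR : (∫ x, π x * h x * k1 x ∂μ) ^ 2 ≤
      (∫ x, π x ^ 2 * k0 x ∂μ) * ∫ x, h x ^ 2 * k2 x ∂μ :=
    st_cs ck0 ck1 ck2 hk0 hk2 hk cπ ch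
  have hA := st_A (μ := μ) (r := r) ck0 ck1 ck2 cc cπ ch hk0 hk2 hk hc1
  have hP : ∫ x, r ^ 2 * π x ^ 2 * ‖n x‖ ^ 2 * k0 x ∂μ ≤ r ^ 2 * ∫ x, π x ^ 2 * k0 x ∂μ := by
    rw [← integral_const_mul]
    refine integral_mono (st_int (by fun_prop)) (st_int (by fun_prop)) (fun x => ?_)
    show r ^ 2 * π x ^ 2 * ‖n x‖ ^ 2 * k0 x ≤ r ^ 2 * (π x ^ 2 * k0 x)
    rw [← mul_assoc]
    refine mul_le_mul_of_nonneg_right ?_ (hk0 x)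
    exact mul_le_of_le_one_right (by positivity) (hn1 x)
  -- the vectors
  set b : ι → E := fun i => ∑ j, (∫ x, ⟪n x, e i⟫ * ⟪Y x, e j⟫ * k1 x ∂μ) • e j with hb
  have hb1 : ∀ i a, ⟪b i, a⟫ = ∫ x, ⟪n x, e i⟫ * ⟪Y x, a⟫ * k1 x ∂μ := fun i a =>
    st_vec e (by fun_prop) ck1 cY a
  have hb2 : ∀ i, ‖b i‖ ^ 2 = ∑ j, (∫ x, ⟪n x, e i⟫ * ⟪Y x, e j⟫ * k1 x ∂μ) ^ 2 := fun i =>
    st_norm e _
  have hb3 : ∀ i, ‖b i‖ ^ 2 ≤ ∫ x, ⟪n x, e i⟫ ^ 2 * k0 x ∂μ +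
      1 / 4 * ∫ x, r ^ 2 * π x ^ 2 * ⟪n x, e i⟫ ^ 2 * k0 x ∂μ
      + 1 / 4 * (‖b i‖ ^ 2 * ∫ x, r ^ 2 * π x ^ 2 * ‖n x‖ ^ 2 * k0 x ∂μ) := fun i =>
    st_b ck0 ck1 ck2 cπ (by fun_prop) cn cY hk0 hk2 hk (b i) (hb1 i (b i)) (hh (b i))
  have hsum : ∀ x, ∑ i, ⟪n x, e i⟫ ^ 2 = ‖n x‖ ^ 2 := by
    intro x
    rw [← real_inner_self_eq_norm_sq, ← e.sum_inner_mul_inner (n x) (n x)]
    refine Finset.sum_congr rfl (fun i _ => ?_)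
    rw [real_inner_comm (n x) (e i)]
    ring
  have hs1 : ∑ i, ∫ x, ⟪n x, e i⟫ ^ 2 * k0 x ∂μ = ∫ x, ‖n x‖ ^ 2 * k0 x ∂μ := by
    rw [← integral_finsetSum _ (fun j _ => st_int (by fun_prop))]
    congr 1
    funext x
    rw [← hsum x, Finset.sum_mul]
  have hs2 : ∑ i, ∫ x, r ^ 2 * π x ^ 2 * ⟪n x, e i⟫ ^ 2 * k0 x ∂μ =
      ∫ x, r ^ 2 * π x ^ 2 * ‖n x‖ ^ 2 * k0 x ∂μ := by
    rw [← integral_finsetSum _ (fun j _ => st_int (by fun_prop))]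
    congr 1
    funext x
    rw [← hsum x, Finset.mul_sum, Finset.sum_mul]
  have hB0 : 0 ≤ ∑ i, ∑ j, (∫ x, ⟪n x, e i⟫ * ⟪Y x, e j⟫ * k1 x ∂μ) ^ 2 :=
    Finset.sum_nonneg (fun i _ => Finset.sum_nonneg (fun j _ => sq_nonneg _))
  have hB : ∑ i, ∑ j, (∫ x, ⟪n x, e i⟫ * ⟪Y x, e j⟫ * k1 x ∂μ) ^ 2 ≤
      (1 - ∫ x, c x ^ 2 * k0 x ∂μ - ∫ x, π x ^ 2 * k0 x ∂μ) +
      1 / 4 * (∫ x, r ^ 2 * π x ^ 2 * ‖n x‖ ^ 2 * k0 x ∂μ) *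
        (1 + ∑ i, ∑ j, (∫ x, ⟪n x, e i⟫ * ⟪Y x, e j⟫ * k1 x ∂μ) ^ 2) := by
    have e1 : ∑ i, ∑ j, (∫ x, ⟪n x, e i⟫ * ⟪Y x, e j⟫ * k1 x ∂μ) ^ 2 = ∑ i, ‖b i‖ ^ 2 :=
      Finset.sum_congr rfl (fun i _ => (hb2 i).symm)
    rw [e1, ← hνe]
    have e2 := Finset.sum_le_sum (fun i (_ : i ∈ (Finset.univ : Finset ι)) => hb3 i)
    rw [Finset.sum_add_distrib, Finset.sum_add_distrib, ← Finset.mul_sum, ← Finset.mul_sum,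
      ← Finset.sum_mul, hs1, hs2] at e2
    linarith
  have hG := st_g (μ := μ) e ck0 ck1 cπ cn cY hk0 hg
  rw [hνe] at hG
  have h4 := st_h4 (μ := μ) (r := r) ck0 ck1 ck2 cc cπ ch hk0 hk2 hk hω0
    (fun x => (hc2 x).1) (fun x => (hc2 x).2)
  exact static_alg hr hω0 hT0 hQ0 hcc hν hR hA hP hB0 hB hG h4 hT (by linarith)

end Vale.Agent.P224.PM
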