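import Vale.Agent.P224.PM.Idents
import Vale.Agent.P224.PM.Static

namespace Vale.Agent.P224.PM

open Matrix MeasureTheory Module Function Set Vale.Agent.P224 Vale.Agent.P224.FV
open scoped RealInnerProductSpace Topology ContDiff Manifold

set_option linter.unusedSectionVars false

section

variable {V W M : Type*} [NormedAddCommGroup V] [InnerProductSpace ℝ V] [FiniteDimensional ℝ V]
  [NormedAddCommGroup W] [InnerProductSpace ℝ W] [FiniteDimensional ℝ W]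
  [TopologicalSpace M] [ChartedSpace V M]
  [MeasurableSpace V] [BorelSpace V] [MeasurableSpace M] [BorelSpace M]
  [IsManifold 𝓘(ℝ, V) ∞ M] [CompactSpace M] [T2Space M]

/-- the static inequality at a point -/
theorem static_pt (hm : 0 < finrank ℝ V) (hW : finrank ℝ W = finrank ℝ V + 2) {F : M → W}
    (hF : SphImm V F) (hmin : ∀ x n, IsUnitNormal V F x n → meanCurv V F x n = 0)
    (hV : VolChart V F) [IsFiniteMeasure (volM V F)] {N : M → W}
    (hNs : ContMDiff 𝓘(ℝ, V) 𝓘(ℝ, W) ∞ N)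
    (hN : ∀ x, IsUnitNormal V F x (N x)) (p : M) {r : ℝ} (hr : 0 < r) {u0 w0 P2 R H Hc : ℝ}
    (hu : 0 < u0) (hw : w0 ≠ 0)
    (eu0 : U (volM V F) F (finrank ℝ V) (fun _ => 1) (r • F p) = u0)
    (ew0 : U (volM V F) F (finrank ℝ V) (fun x => ⟪N x, N p⟫) (r • F p) = w0)
    (eP : U (volM V F) F (finrank ℝ V) (fun x => ⟪N x, F p⟫ ^ 2) (r • F p) = P2)
    (eR : U (volM V F) F (finrank ℝ V + 1) (fun x => ⟪N x, F p⟫ * ⟪F x, N p⟫) (r • F p) = R)
    (eH : U (volM V F) F (finrank ℝ V + 2) (fun x => ⟪F x, N p⟫ ^ 2) (r • F p) = H)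
    (eHc : U (volM V F) F (finrank ℝ V + 2) (fun x => ⟪N x, N p⟫ * ⟪F x, N p⟫ ^ 2) (r • F p) = Hc)
    (hT : r * P2 * u0 ≤ 11 / 25 * (w0 * R)) :
    0 ≤ u0 * H + 11 / 25 * (w0 * Hc)
      - 11 / 25 * ∑ a, ∑ b, U (volM V F) F (finrank ℝ V + 1)
          (fun x => ⟪dl V F (stdOrthonormalBasis ℝ W b) F p, N x⟫
            * ⟪dl V F (stdOrthonormalBasis ℝ W a) F p, F x⟫) (r • F p) ^ 2
      - r ^ 2 * P2 ^ 2 - 11 / 25 * R ^ 2
      - (1 + u0 ^ 2 / (11 / 25 * w0 ^ 2)) * ∑ a, U (volM V F) F (finrank ℝ V + 1)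
          (fun x => ⟪dl V F (stdOrthonormalBasis ℝ W a) F p, F x⟫) (r • F p) ^ 2 := by
  set m := finrank ℝ V with hmdef
  set μ := volM V F with hμ
  have hcF : Continuous F := hF.smooth.continuous
  have hcN : Continuous N := hNs.continuous
  set e := stdOrthonormalBasis ℝ W with he
  -- sign
  obtain ⟨σ, hσ2, hσ⟩ : ∃ σ : ℝ, σ * σ = 1 ∧ 0 < σ * w0 := by
    rcases lt_or_gt_of_ne hw with h | h
    · exact ⟨-1, by norm_num, by linarith⟩
    · exact ⟨1, by norm_num, by linarith⟩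
  have hFp : ‖F p‖ = 1 := hF.unit p
  have hNp : ‖N p‖ = 1 := (hN p).1
  have hFN : ⟪F p, N p⟫ = 0 := (hN p).2.1
  have hNF : ⟪N p, F p⟫ = 0 := by rw [real_inner_comm]; exact hFN
  have hff : ⟪F p, F p⟫ = 1 := by rw [real_inner_self_eq_norm_sq, hFp]; norm_num
  have hnn : ⟪N p, N p⟫ = 1 := by rw [real_inner_self_eq_norm_sq, hNp]; norm_num
  -- the projection
  have hP : ∀ a : W, dl V F a F p = a - ⟪a, F p⟫ • F p - ⟪a, N p⟫ • N p := fun a =>
    dl_F hW hF hN a p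
  have hPF : ∀ a : W, ⟪dl V F a F p, F p⟫ = 0 := by
    intro a
    rw [hP, inner_sub_left, inner_sub_left, real_inner_smul_left, real_inner_smul_left, hff, hNF]
    ring
  have hPn : ∀ a : W, ‖dl V F a F p‖ ^ 2 = ‖a‖ ^ 2 - ⟪a, F p⟫ ^ 2 - ⟪a, N p⟫ ^ 2 := by
    intro a
    rw [← real_inner_self_eq_norm_sq, hP]
    simp only [inner_sub_left, inner_sub_right, real_inner_smul_left, real_inner_smul_right, hff,
      hnn, hFN, hNF, real_inner_self_eq_norm_sq a]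
    rw [real_inner_comm a (F p), real_inner_comm a (N p)]
    ring
  have hsym : ∀ a b : W, ⟪dl V F a F p, b⟫ = ⟪dl V F b F p, a⟫ := by
    intro a b
    rw [hP, hP]
    simp only [inner_sub_left, real_inner_smul_left]
    rw [real_inner_comm a b, real_inner_comm a (F p), real_inner_comm a (N p),
      real_inner_comm b (F p), real_inner_comm b (N p)]
    ring
  set n : M → W := fun x => dl V F (N x) F p with hn
  set Y : M → W := fun x => dl V F (F x) F p with hY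
  have cn : Continuous n := by
    simp only [hn, hP]; fun_prop
  have cY : Continuous Y := by
    simp only [hY, hP]; fun_prop
  have cK : ∀ j, Continuous fun x => K j ⟪F x, r • F p⟫ / u0 := fun j =>
    ((contDiff_K j).continuous.comp (hcF.inner continuous_const)).div_const _
  -- integrals against the normalised kernels
  have int_k : ∀ (j : ℕ) (w : M → ℝ), ∫ x, w x * (K j ⟪F x, r • F p⟫ / u0) ∂μ
      = U μ F j w (r • F p) / u0 := by
    intro j w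
    unfold U
    rw [← integral_div]
    exact integral_congr_ae (Filter.Eventually.of_forall fun x => by ring)
  have hD : ∀ a, ⟪a, F p⟫ = 0 → _ := fun a ha =>
    idD hW hF hmin hV hNs hN (y := F p) (a := a) ha r
  have hω1 : ∫ x, σ * ⟪N x, N p⟫ * (K m ⟪F x, r • F p⟫ / u0) ∂μ = σ * w0 / u0 := by
    rw [int_k m (fun x => σ * ⟪N x, N p⟫), U_mul, ew0]
  have key := static (μ := μ) e (k0 := fun x => K m ⟪F x, r • F p⟫ / u0)
    (k1 := fun x => K (m + 1) ⟪F x, r • F p⟫ / u0) (k2 := fun x => K (m + 2) ⟪F x, r • F p⟫ / u0)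
    (c := fun x => σ * ⟪N x, N p⟫) (π := fun x => ⟪N x, F p⟫) (h := fun x => σ * ⟪F x, N p⟫)
    (n := n) (Y := Y) (r := r)
    (cK m) (cK (m + 1)) (cK (m + 2)) (by fun_prop) (by fun_prop) (by fun_prop) cn cY
    (fun x => (div_pos (K_pos _ _) hu).le) (fun x => (div_pos (K_pos _ _) hu).le)
    (fun x => ?_) hr ?_ hω1 (div_pos hσ hu) ?_ ?_ ?_ ?_ ?_
  · -- conclusion
    have i1 : ∫ x, (σ * ⟪F x, N p⟫) ^ 2 * (K (m + 2) ⟪F x, r • F p⟫ / u0) ∂μ = H / u0 := by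
      rw [int_k, ← eH]
      congr 1
      exact U_congr (fun x => by rw [mul_pow, pow_two σ, hσ2, one_mul]) _ _
    have i2 : ∫ x, (σ * ⟪N x, N p⟫) * (σ * ⟪F x, N p⟫) ^ 2 * (K (m + 2) ⟪F x, r • F p⟫ / u0) ∂μ
        = σ * Hc / u0 := by
      rw [int_k, ← eHc, ← U_mul]
      congr 1
      exact U_congr (fun x => by rw [mul_pow, pow_two σ, hσ2]; ring) _ _
    have i3 : ∫ x, ⟪N x, F p⟫ ^ 2 * (K m ⟪F x, r • F p⟫ / u0) ∂μ = P2 / u0 := by
      rw [int_k, ← eP]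
    have i4 : ∫ x, ⟪N x, F p⟫ * (σ * ⟪F x, N p⟫) * (K (m + 1) ⟪F x, r • F p⟫ / u0) ∂μ
        = σ * R / u0 := by
      rw [int_k, ← eR, ← U_mul]
      congr 1
      exact U_congr (fun x => by ring) _ _
    have i5 : ∀ i j, ∫ x, ⟪n x, e i⟫ * ⟪Y x, e j⟫ * (K (m + 1) ⟪F x, r • F p⟫ / u0) ∂μ
        = U μ F (m + 1) (fun x => ⟪dl V F (e i) F p, N x⟫ * ⟪dl V F (e j) F p, F x⟫) (r • F p)
          / u0 := by
      intro i j
      rw [int_k (m + 1) (fun x => ⟪n x, e i⟫ * ⟪Y x, e j⟫)]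
      congr 1
      exact U_congr (fun x => by rw [hn, hY, hsym (N x), hsym (F x)]) _ _
    have i6 : ∀ j, ∫ x, ⟪Y x, e j⟫ * (K (m + 1) ⟪F x, r • F p⟫ / u0) ∂μ
        = U μ F (m + 1) (fun x => ⟪dl V F (e j) F p, F x⟫) (r • F p) / u0 := by
      intro j
      rw [int_k (m + 1) (fun x => ⟪Y x, e j⟫)]
      congr 1
      exact U_congr (fun x => by rw [hY, hsym (F x)]) _ _
    rw [i1, i2, i3, i4] at key
    simp only [i5, i6, div_pow] at key
    rw [Finset.sum_comm] at key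
    simp only [← Finset.sum_div] at key
    set X := ∑ a, ∑ b, U μ F (m + 1) (fun x => ⟪dl V F (e b) F p, N x⟫
      * ⟪dl V F (e a) F p, F x⟫) (r • F p) ^ 2 with hX
    set G := ∑ a, U μ F (m + 1) (fun x => ⟪dl V F (e a) F p, F x⟫) (r • F p) ^ 2 with hG
    have k2 := mul_nonneg (sq_nonneg u0) key
    refine k2.trans (le_of_eq ?_)
    have hu0 : u0 ≠ 0 := hu.ne'
    have hσn : σ ^ 2 = 1 := by rw [pow_two]; exact hσ2
    have e1 : σ * w0 / u0 * (σ * Hc / u0) = w0 * Hc / u0 ^ 2 := by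
      have : σ * w0 / u0 * (σ * Hc / u0) = σ ^ 2 * (w0 * Hc) / u0 ^ 2 := by ring
      rw [this, hσn, one_mul]
    have e2 : (σ * R / u0) ^ 2 = R ^ 2 / u0 ^ 2 := by
      have : (σ * R / u0) ^ 2 = σ ^ 2 * R ^ 2 / u0 ^ 2 := by ring
      rw [this, hσn, one_mul]
    have e3 : (σ * w0 / u0) ^ 2 = w0 ^ 2 / u0 ^ 2 := by
      have : (σ * w0 / u0) ^ 2 = σ ^ 2 * w0 ^ 2 / u0 ^ 2 := by ring
      rw [this, hσn, one_mul]
    simp only [mul_pow, hσn, one_mul, mul_assoc (11 / 25 : ℝ), e1]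
    field_simp
  · -- Cauchy-Schwarz for the kernels
    rw [div_pow, div_mul_div_comm, ← pow_two]
    exact div_le_div_of_nonneg_right (K_cs m _) (by positivity)
  · have := int_k m (fun _ => 1)
    simp only [one_mul] at this
    rw [this, eu0, div_self hu.ne']
  · intro x
    simp only [hn]
    rw [hPn, mul_pow, pow_two σ, hσ2, one_mul, (hN x).1, real_inner_comm]
    ring
  · -- hI
    have h1 := hD (N p) hNF
    rw [eH, hNp, eu0] at h1
    have i1 : ∫ x, (σ * ⟪F x, N p⟫) ^ 2 * (K (m + 2) ⟪F x, r • F p⟫ / u0) ∂μ = H / u0 := by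
      rw [int_k (m + 2) (fun x => (σ * ⟪F x, N p⟫) ^ 2), ← eH]
      congr 1
      exact U_congr (fun x => by rw [mul_pow, pow_two σ, hσ2, one_mul]) _ _
    have i2 : ∫ x, ⟪N x, F p⟫ * (σ * ⟪F x, N p⟫) * (σ * ⟪N x, N p⟫)
        * (K (m + 1) ⟪F x, r • F p⟫ / u0) ∂μ
        = U μ F (m + 1) (fun x => ⟪N x, F p⟫ * ⟪F x, N p⟫ * ⟪N x, N p⟫) (r • F p) / u0 := by
      rw [int_k (m + 1) (fun x => ⟪N x, F p⟫ * (σ * ⟪F x, N p⟫) * (σ * ⟪N x, N p⟫))]
      congr 1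
      refine U_congr (fun x => ?_) _ _
      linear_combination (⟪N x, F p⟫ * ⟪F x, N p⟫ * ⟪N x, N p⟫) * hσ2
    have i3 : ∫ x, (σ * ⟪N x, N p⟫) ^ 2 * (K m ⟪F x, r • F p⟫ / u0) ∂μ
        = U μ F m (fun x => ⟪N x, N p⟫ ^ 2) (r • F p) / u0 := by
      rw [int_k m (fun x => (σ * ⟪N x, N p⟫) ^ 2)]
      congr 1
      exact U_congr (fun x => by rw [mul_pow, pow_two σ, hσ2, one_mul]) _ _
    rw [i1, i2, i3]
    have hu0 : u0 ≠ 0 := hu.ne'
    field_simp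
    linarith
  · -- hg
    intro a
    have h1 := idC hm hW hF hmin hV hNs hN (y := F p) (a := dl V F a F p) (hPF a) r
    rw [int_k (m + 1) (fun x => ⟪Y x, a⟫), int_k m (fun x => ⟪N x, F p⟫ * ⟪n x, a⟫)]
    have i1 : U μ F (m + 1) (fun x => ⟪Y x, a⟫) (r • F p)
        = U μ F (m + 1) (fun x => ⟪F x, dl V F a F p⟫) (r • F p) :=
      U_congr (fun x => by rw [hY, hsym (F x), real_inner_comm]) _ _
    have i2 : U μ F m (fun x => ⟪N x, F p⟫ * ⟪n x, a⟫) (r • F p)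
        = U μ F m (fun x => ⟪N x, F p⟫ * ⟪N x, dl V F a F p⟫) (r • F p) :=
      U_congr (fun x => by rw [hn, hsym (N x), real_inner_comm (N x) (dl V F a F p)]) _ _
    rw [i1, i2, h1]
    ring
  · -- hh
    intro a
    have h1 := hD (dl V F a F p) (hPF a)
    rw [int_k (m + 2) (fun x => ⟪Y x, a⟫ ^ 2),
      int_k (m + 1) (fun x => ⟪N x, F p⟫ * ⟪Y x, a⟫ * ⟪n x, a⟫), int_k m (fun x => ⟪n x, a⟫ ^ 2)]
    have i1 : U μ F (m + 2) (fun x => ⟪Y x, a⟫ ^ 2) (r • F p)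
        = U μ F (m + 2) (fun x => ⟪F x, dl V F a F p⟫ ^ 2) (r • F p) :=
      U_congr (fun x => by rw [hY, hsym (F x), real_inner_comm]) _ _
    have i2 : U μ F m (fun x => ⟪n x, a⟫ ^ 2) (r • F p)
        = U μ F m (fun x => ⟪N x, dl V F a F p⟫ ^ 2) (r • F p) :=
      U_congr (fun x => by rw [hn, hsym (N x), real_inner_comm]) _ _
    have i3 : U μ F (m + 1) (fun x => ⟪N x, F p⟫ * ⟪Y x, a⟫ * ⟪n x, a⟫) (r • F p)
        = U μ F (m + 1) (fun x => ⟪N x, F p⟫ * ⟪F x, dl V F a F p⟫ * ⟪N x, dl V F a F p⟫)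
          (r • F p) :=
      U_congr (fun x => by
        rw [hn, hY, hsym (N x), hsym (F x), real_inner_comm (N x), real_inner_comm (F x)]) _ _
    rw [i1, i2, i3]
    have h2 : ‖dl V F a F p‖ ^ 2 * u0 ≤ ‖a‖ ^ 2 * u0 := by
      have : ‖dl V F a F p‖ ^ 2 ≤ ‖a‖ ^ 2 := by
        rw [hPn]; nlinarith [sq_nonneg ⟪a, F p⟫, sq_nonneg ⟪a, N p⟫]
      exact mul_le_mul_of_nonneg_right this hu.le
    rw [eu0] at h1
    have e3 : ∀ A B C : ℝ, A / u0 + r * (B / u0) + C / u0 = (A + r * B + C) / u0 := fun A B C => by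
      ring
    rw [e3, div_le_iff₀ hu]
    linarith
  · -- hT
    have i3 : ∫ x, ⟪N x, F p⟫ ^ 2 * (K m ⟪F x, r • F p⟫ / u0) ∂μ = P2 / u0 := by
      rw [int_k m (fun x => ⟪N x, F p⟫ ^ 2), ← eP]
    have i4 : ∫ x, ⟪N x, F p⟫ * (σ * ⟪F x, N p⟫) * (K (m + 1) ⟪F x, r • F p⟫ / u0) ∂μ
        = σ * R / u0 := by
      rw [int_k (m + 1) (fun x => ⟪N x, F p⟫ * (σ * ⟪F x, N p⟫)), ← eR, ← U_mul]
      congr 1
      exact U_congr (fun x => by ring) _ _
    rw [i3, i4]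
    have e1 : 11 / 25 * (σ * w0 / u0) * (σ * R / u0) = 11 / 25 * (w0 * R) / u0 ^ 2 := by
      have : 11 / 25 * (σ * w0 / u0) * (σ * R / u0) = (σ * σ) * (11 / 25 * (w0 * R)) / u0 ^ 2 := by
        ring
      rw [this, hσ2, one_mul]
    have e2 : r * (P2 / u0) = r * P2 * u0 / u0 ^ 2 := by
      have hu0 : u0 ≠ 0 := hu.ne'
      field_simp
    rw [e1, e2]
    exact div_le_div_of_nonneg_right hT (by positivity)

end

end Vale.Agent.P224.PM
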