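import Vale.Agent.P224.PM.Core
import Vale.Agent.P224.PM.StaticPt

namespace Vale.Agent.P224.PM

open Matrix MeasureTheory Module Function Set Vale.Agent.P224 Vale.Agent.P224.FV Vale.Agent.P224.Gap
open scoped RealInnerProductSpace Topology ContDiff Manifold

set_option linter.unusedSectionVars false

section

variable {V W M : Type*} [NormedAddCommGroup V] [InnerProductSpace ℝ V] [FiniteDimensional ℝ V]
  [NormedAddCommGroup W] [InnerProductSpace ℝ W] [FiniteDimensional ℝ W]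
  [TopologicalSpace M] [ChartedSpace V M]
  [MeasurableSpace V] [BorelSpace V] [MeasurableSpace M] [BorelSpace M]
  [IsManifold 𝓘(ℝ, V) ∞ M] [CompactSpace M] [T2Space M]

variable (V) in
/-- the Gaussian area at scale r, with weight w -/
noncomputable def gV (F : M → W) (w : M → ℝ) (z : M) (r : ℝ) : ℝ :=
  Real.exp (-r ^ 2 / 2) * U (volM V F) F (finrank ℝ V) w (r • F z)

variable (V) in
/-- the function of the maximum principle -/
noncomputable def gφ (F N : M → W) (z : M) (r : ℝ) : ℝ :=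
  gV V F (fun _ => 1) z r ^ 2 + 11 / 25 * gV V F (fun x => ⟪N x, N z⟫) z r ^ 2

/-- completion of the square -/
lemma completion {ι : Type*} [Fintype ι] (A X : ι → ι → ℝ) (w r : ℝ) :
    w * (- ((∑ a, ∑ b, A a b ^ 2) * w) + 2 * ∑ a, ∑ b, A a b * (r * X a b))
      ≤ r ^ 2 * ∑ a, ∑ b, X a b ^ 2 := by
  have e : r ^ 2 * ∑ a, ∑ b, X a b ^ 2
      - w * (- ((∑ a, ∑ b, A a b ^ 2) * w) + 2 * ∑ a, ∑ b, A a b * (r * X a b))
      = ∑ a, ∑ b, (A a b * w - r * X a b) ^ 2 := by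
    simp only [Finset.mul_sum, Finset.sum_mul, ← Finset.sum_neg_distrib, ← Finset.sum_add_distrib,
      ← Finset.sum_sub_distrib]
    refine Finset.sum_congr rfl fun a _ => Finset.sum_congr rfl fun b _ => ?_
    ring
  have : 0 ≤ ∑ a, ∑ b, (A a b * w - r * X a b) ^ 2 :=
    Finset.sum_nonneg fun a _ => Finset.sum_nonneg fun b _ => sq_nonneg _
  linarith

/-- only the tangential parts matter -/
lemma tang_sum (hW : finrank ℝ W = finrank ℝ V + 2) {F : M → W}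
    (hF : SphImm V F) [IsFiniteMeasure (volM V F)] {N : M → W}
    (hNs : ContMDiff 𝓘(ℝ, V) 𝓘(ℝ, W) ∞ N)
    (hN : ∀ x, IsUnitNormal V F x (N x)) (j : ℕ) (p : M) (a : W) {g : M → ℝ} (hg : Continuous g)
    (Y : W) :
    ∑ b, ⟪dl V F a N p, stdOrthonormalBasis ℝ W b⟫
        * U (volM V F) F j (fun x => ⟪N x, stdOrthonormalBasis ℝ W b⟫ * g x) Y
      = ∑ b, ⟪dl V F a N p, stdOrthonormalBasis ℝ W b⟫
        * U (volM V F) F j (fun x => ⟪dl V F (stdOrthonormalBasis ℝ W b) F p, N x⟫ * g x) Y := by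
  have hcF : Continuous F := hF.smooth.continuous
  have hcN : Continuous N := hNs.continuous
  have hP : ∀ a : W, dl V F a F p = a - ⟪a, F p⟫ • F p - ⟪a, N p⟫ • N p := fun a =>
    dl_F hW hF hN a p
  have cn : Continuous fun x => dl V F (N x) F p := by
    simp only [hP]; fun_prop
  have hy : dl V F (dl V F a N p) F p = dl V F a N p := by
    rw [hP, dl_N_symm hW hF hNs hN a (F p) p, dl_N_symm hW hF hNs hN a (N p) p, dl_pos hF,
      dl_normal hF hN]
    simp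
  have h1 := parseval_U (μ := volM V F) hcF hg hcN (dl V F a N p) j Y
  have h2 := parseval_U (μ := volM V F) hcF hg cn (dl V F a N p) j Y
  have e1 : ∀ b : W, U (volM V F) F j (fun x => ⟪N x, b⟫ * g x) Y
      = U (volM V F) F j (fun x => g x * ⟪N x, b⟫) Y := fun b =>
    U_congr (fun x => mul_comm _ _) _ _
  have e2 : ∀ b : W, U (volM V F) F j (fun x => ⟪dl V F b F p, N x⟫ * g x) Y
      = U (volM V F) F j (fun x => g x * ⟪dl V F (N x) F p, b⟫) Y := fun b =>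
    U_congr (fun x => by rw [dl_F_symm (N x) b p, real_inner_comm (N x), mul_comm]) _ _
  simp only [e1, e2]
  rw [h1, h2]
  refine U_congr (fun x => ?_) _ _
  rw [dl_F_symm, hy]

lemma num1 {E r ε k u0 u1 w0 w1 : ℝ} (hE : 0 < E)
    (r1 : 2 * (E * u0) * (E * (u1 - r * u0)) + 2 * k * ((E * w0) * (E * (w1 - r * w0)))
      - ε / r ^ 2 = 0) :
    2 * u0 * (u1 - r * u0) + 2 * k * (w0 * (w1 - r * w0)) = ε / r ^ 2 / E ^ 2 := by
  rw [eq_div_iff (by positivity)]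
  linear_combination r1

lemma num2 {E r ε k u0 u1 w0 w1 us ws : ℝ} (hE : 0 < E) (hr : 0 < r)
    (r2 : 0 ≤ 2 * (E * (u1 - r * u0)) ^ 2 + 2 * (E * u0) * (E * (us - 2 * r * u1 + (r ^ 2 - 1) * u0))
      + 2 * k * ((E * (w1 - r * w0)) ^ 2 + (E * w0) * (E * (ws - 2 * r * w1 + (r ^ 2 - 1) * w0)))
      + 2 * ε / r ^ 3) :
    0 ≤ 2 * (u1 - r * u0) ^ 2 + 2 * u0 * (us - 2 * r * u1 + (r ^ 2 - 1) * u0)
      + 2 * k * ((w1 - r * w0) ^ 2 + w0 * (ws - 2 * r * w1 + (r ^ 2 - 1) * w0))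
      + 2 * (ε / r ^ 2 / E ^ 2) / r := by
  have h0 : 0 ≤ E ^ 2 * (2 * (u1 - r * u0) ^ 2 + 2 * u0 * (us - 2 * r * u1 + (r ^ 2 - 1) * u0)
      + 2 * k * ((w1 - r * w0) ^ 2 + w0 * (ws - 2 * r * w1 + (r ^ 2 - 1) * w0))
      + 2 * (ε / r ^ 2 / E ^ 2) / r) := by
    refine r2.trans (le_of_eq ?_)
    have hE1 : E ≠ 0 := hE.ne'
    have hr1 : r ≠ 0 := hr.ne'
    have e1 : E ^ 2 * (2 * (ε / r ^ 2 / E ^ 2) / r) = 2 * ε / r ^ 3 := by
      field_simp
    rw [← e1]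
    ring
  exact nonneg_of_mul_nonneg_right h0 (by positivity)

lemma num3 {ι : Type*} [Fintype ι] {gv dw : ι → ℝ} {u0 w0 r k : ℝ} (hr : 0 < r) (hk : 0 < k)
    (hw : w0 ≠ 0) (t1 : ∀ a, u0 * (r * gv a) + k * (w0 * dw a) = 0) :
    k * ((∑ a, dw a ^ 2) / r ^ 2) = u0 ^ 2 / (k * w0 ^ 2) * ∑ a, gv a ^ 2 := by
  have h1 : k ^ 2 * w0 ^ 2 * ∑ a, dw a ^ 2 = u0 ^ 2 * r ^ 2 * ∑ a, gv a ^ 2 := by
    simp only [Finset.mul_sum]
    refine Finset.sum_congr rfl fun a _ => ?_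
    linear_combination (k * (w0 * dw a) - u0 * (r * gv a)) * t1 a
  have hr1 : r ≠ 0 := hr.ne'
  have hk1 : k ≠ 0 := hk.ne'
  have e1 : k * ((∑ a, dw a ^ 2) / r ^ 2)
      = (k ^ 2 * w0 ^ 2 * ∑ a, dw a ^ 2) / (k * w0 ^ 2 * r ^ 2) := by
    field_simp
  rw [e1, h1]
  field_simp

lemma num4 {r k η u0 u1 w0 w1 P2 R : ℝ} (hr : 0 < r) (hη : 0 < η) (hu0 : 0 < u0) (hP2 : 0 ≤ P2)
    (m1 : 2 * u0 * (u1 - r * u0) + 2 * k * (w0 * (w1 - r * w0)) = η)
    (m7 : u1 = r * u0 - r * P2) (m7' : w1 = r * w0 + R) :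
    r * P2 * u0 ≤ k * (w0 * R) ∧ w0 ≠ 0 := by
  have h : 2 * (k * (w0 * R)) - 2 * (r * P2 * u0) = η := by
    rw [← m1, m7, m7']; ring
  have h2 : 0 ≤ r * P2 * u0 := by positivity
  refine ⟨by linarith, fun h0 => ?_⟩
  rw [h0, zero_mul, mul_zero] at h
  linarith

lemma num5 {A B C D1 D2 E1 E2 : ℝ} (h1 : 0 < A + B + C + D1 - D2 - E1 + E2)
    (h2 : 0 ≤ D2 + E1 - E2 - A - B - (C + D1)) : False := by linarith

lemma contra_num {ι : Type*} [Fintype ι] {E r ε k u0 w0 u1 w1 us ws T2 Tc H Hc P2 R S m L1 L2 : ℝ}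
    {gv dw : ι → ℝ} {A X0 X : ι → ι → ℝ} (hr : 0 < r) (hE : 0 < E) (hε : 0 < ε) (hk : 0 < k)
    (hm : 2 ≤ m) (hu0 : 0 < u0) (hP2 : 0 ≤ P2)
    (r1 : 2 * (E * u0) * (E * (u1 - r * u0)) + 2 * k * ((E * w0) * (E * (w1 - r * w0)))
      - ε / r ^ 2 = 0)
    (r2 : 0 ≤ 2 * (E * (u1 - r * u0)) ^ 2 + 2 * (E * u0) * (E * (us - 2 * r * u1 + (r ^ 2 - 1) * u0))
      + 2 * k * ((E * (w1 - r * w0)) ^ 2 + (E * w0) * (E * (ws - 2 * r * w1 + (r ^ 2 - 1) * w0)))
      + 2 * ε / r ^ 3)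
    (m6 : T2 = r * u1 + (m + 1) * u0) (m6' : Tc = r * w1 + (m + 1) * w0)
    (m7 : u1 = r * u0 - r * P2) (m7' : w1 = r * w0 + R)
    (hS : ∑ a, ∑ b, A a b ^ 2 = S)
    (hAX : ∀ a, ∑ b, A a b * X0 a b = ∑ b, A a b * X a b)
    (t1 : ∀ a, u0 * (r * gv a) + k * (w0 * dw a) = 0)
    (t2 : 0 ≤ u0 * L1 + ∑ a, (r * gv a) ^ 2 + k * (w0 * L2 + ∑ a, dw a ^ 2))
    (hL1 : L1 = r ^ 2 * (T2 - us - H) - r * (m * u1))
    (hL2 : L2 = - (S * w0) + 2 * ∑ a, ∑ b, A a b * (r * X0 a b)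
      + (r ^ 2 * (Tc - ws - Hc) - r * (m * w1)))
    (hst : w0 ≠ 0 → r * P2 * u0 ≤ k * (w0 * R) → 0 ≤ u0 * H + k * (w0 * Hc)
      - k * ∑ a, ∑ b, X a b ^ 2 - r ^ 2 * P2 ^ 2 - k * R ^ 2
      - (1 + u0 ^ 2 / (k * w0 ^ 2)) * ∑ a, gv a ^ 2) : False := by
  have hη : 0 < ε / r ^ 2 / E ^ 2 := by positivity
  have m1 := num1 hE r1
  have m2 := num2 hE hr r2
  obtain ⟨hTm, hw0n⟩ := num4 hr hη hu0 hP2 m1 m7 m7'
  have hAX2 : ∑ a, ∑ b, A a b * (r * X0 a b) = ∑ a, ∑ b, A a b * (r * X a b) := by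
    refine Finset.sum_congr rfl fun a _ => ?_
    have h2 := congrArg (fun t => r * t) (hAX a)
    simp only [Finset.mul_sum] at h2
    refine Eq.trans ?_ (h2.trans ?_)
    · exact Finset.sum_congr rfl fun b _ => by ring
    · exact Finset.sum_congr rfl fun b _ => by ring
  have hcomp := completion A X w0 r
  rw [hS] at hcomp
  rw [hAX2] at hL2
  have hDG := num3 hr hk hw0n t1
  have hr1 : r ≠ 0 := hr.ne'
  have m4 : 0 ≤ u0 * (r ^ 2 * (T2 - us - H) - r * (m * u1)) + r ^ 2 * ∑ a, gv a ^ 2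
      + k * (w0 * ((- (S * w0) + 2 * ∑ a, ∑ b, A a b * (r * X a b))
        + (r ^ 2 * (Tc - ws - Hc) - r * (m * w1))) + r ^ 2 * ((∑ a, dw a ^ 2) / r ^ 2)) := by
    have e1 : ∑ a, (r * gv a) ^ 2 = r ^ 2 * ∑ a, gv a ^ 2 := by
      rw [Finset.mul_sum]
      exact Finset.sum_congr rfl fun a _ => by ring
    have e2 : r ^ 2 * ((∑ a, dw a ^ 2) / r ^ 2) = ∑ a, dw a ^ 2 := by
      field_simp
    rw [e2, ← e1, ← hL1, ← hL2]
    exact t2
  have hfin := final_alg (k := k) hr hk hη hm m1 m2 m4 hcomp m6 m6' m7 m7'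
  have hst' := hst hw0n hTm
  rw [hDG] at hfin
  rw [add_mul, one_mul] at hst'
  exact num5 hfin hst'

/-- no minimum in the interior -/
theorem contra (hm2 : 2 ≤ finrank ℝ V) (hW : finrank ℝ W = finrank ℝ V + 2) {F : M → W}
    (hF : SphImm V F) (hmin : ∀ x n, IsUnitNormal V F x n → meanCurv V F x n = 0)
    (hV : VolChart V F) [IsFiniteMeasure (volM V F)] {N : M → W}
    (hNs : ContMDiff 𝓘(ℝ, V) 𝓘(ℝ, W) ∞ N)
    (hN : ∀ x, IsUnitNormal V F x (N x)) (hpos : ∀ z r, 0 < r → 0 < gV V F (fun _ => 1) z r)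
    {ε : ℝ} (hε : 0 < ε) (p : M) {r : ℝ} (hr : 0 < r)
    (hmn : ∀ z' r', 0 < r' → gφ V F N p r + ε / r ≤ gφ V F N z' r' + ε / r') : False := by
  have hm : 0 < finrank ℝ V := by omega
  have hcF : Continuous F := hF.smooth.continuous
  have hcN : Continuous N := hNs.continuous
  have hFp : ‖F p‖ = 1 := hF.unit p
  have hE0 : 0 < Real.exp (-r ^ 2 / 2) := Real.exp_pos _
  have hu0pos : 0 < U (volM V F) F (finrank ℝ V) (fun _ => 1) (r • F p) :=
    (pos_iff_pos_of_mul_pos (hpos p r hr)).mp hE0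
  have one1 : ∀ (j : ℕ) (w : M → ℝ), U (volM V F) F j (fun x => 1 * w x) (r • F p)
      = U (volM V F) F j w (r • F p) := fun j w => U_congr (fun x => one_mul _) _ _
  have hP0 : 0 ≤ U (volM V F) F (finrank ℝ V) (fun x => ⟪N x, F p⟫ ^ 2) (r • F p) := by
    unfold U
    exact integral_nonneg fun x => mul_nonneg (sq_nonneg _) (K_pos _ _).le
  -- radial conditions
  have hrad := radial_min
    (A := fun t => Real.exp (-t ^ 2 / 2) * U (volM V F) F (finrank ℝ V) (fun _ => 1) (t • F p))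
    (A' := fun t => Real.exp (-t ^ 2 / 2)
        * (U (volM V F) F (finrank ℝ V + 1) (fun x => 1 * ⟪F x, F p⟫) (t • F p)
        - t * U (volM V F) F (finrank ℝ V) (fun _ => 1) (t • F p)))
    (B := fun t => Real.exp (-t ^ 2 / 2)
        * U (volM V F) F (finrank ℝ V) (fun x => ⟪N x, N p⟫) (t • F p))
    (B' := fun t => Real.exp (-t ^ 2 / 2)
        * (U (volM V F) F (finrank ℝ V + 1) (fun x => ⟪N x, N p⟫ * ⟪F x, F p⟫)
        (t • F p) - t * U (volM V F) F (finrank ℝ V) (fun x => ⟪N x, N p⟫) (t • F p)))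
    (k := 11 / 25) (ε := ε) hr
    (fun t => ray_deriv hcF continuous_const _ (F p) t)
    (ray_deriv2 hcF continuous_const _ (F p) r)
    (fun t => ray_deriv hcF (by fun_prop) _ (F p) t)
    (ray_deriv2 hcF (by fun_prop) _ (F p) r)
    (by
      filter_upwards [eventually_gt_nhds hr] with t ht
      exact hmn p t ht)
  -- tangential conditions
  have htan := tangential_min (V := V) hF
    (v := fun q => U (volM V F) F (finrank ℝ V) (fun _ => 1) (r • F q))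
    (w := fun q => U (volM V F) F (finrank ℝ V) (fun x => ⟪N x, N q⟫) (r • F q)) (k := 11 / 25)
    (p := p) (smooth_U hF _ continuous_const r) (smooth_W hF hNs _ r)
    (by
      refine Filter.Eventually.of_forall fun q => ?_
      have h := hmn q r hr
      unfold gφ gV at h
      have h2 : Real.exp (-r ^ 2 / 2) ^ 2 * (U (volM V F) F (finrank ℝ V) (fun _ => 1) (r • F p) ^ 2
          + 11 / 25 * U (volM V F) F (finrank ℝ V) (fun x => ⟪N x, N p⟫) (r • F p) ^ 2)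
          ≤ Real.exp (-r ^ 2 / 2) ^ 2 * (U (volM V F) F (finrank ℝ V) (fun _ => 1) (r • F q) ^ 2
          + 11 / 25 * U (volM V F) F (finrank ℝ V) (fun x => ⟪N x, N q⟫) (r • F q) ^ 2) := by
        simp only [mul_pow] at h
        linarith
      exact le_of_mul_le_mul_left h2 (by positivity))
  obtain ⟨r1, r2⟩ := hrad
  obtain ⟨t1, t2⟩ := htan
  simp only [one1] at r1 r2
  have dv : ∀ a, dl V F a (fun q => U (volM V F) F (finrank ℝ V) (fun _ => 1) (r • F q)) p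
      = r * U (volM V F) F (finrank ℝ V + 1) (fun x => ⟪dl V F a F p, F x⟫) (r • F p) := by
    intro a
    rw [dl_U V hF a _ continuous_const r p, one1]
    congr 1
    exact U_congr (fun x => real_inner_comm _ _) _ _
  have lv := lap_U (μ := volM V F) hW hF hmin hNs hN (finrank ℝ V) (w := fun _ => 1)
    continuous_const r p
  simp only [one1] at lv
  have lw := lap_W (μ := volM V F) hW hF hmin hNs hN (finrank ℝ V) r p
  have m6 := U_rec (μ := volM V F) hcF (w := fun _ => 1) continuous_const (finrank ℝ V) (F p) r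
  simp only [one1] at m6
  have m6' := U_rec (μ := volM V F) hcF (w := fun x => ⟪N x, N p⟫) (by fun_prop)
    (finrank ℝ V) (F p) r
  have m7 := idA hm hW hF hmin hV hNs hN hFp r
  have m7' := idB hm hW hF hmin hV hNs hN hFp (hN p).2.1 r
  refine contra_num (k := 11 / 25) (E := Real.exp (-r ^ 2 / 2)) (ε := ε) (m := (finrank ℝ V : ℝ))
    (A := fun a b => ⟪dl V F (stdOrthonormalBasis ℝ W a) N p, stdOrthonormalBasis ℝ W b⟫)
    (X := fun a b => U (volM V F) F (finrank ℝ V + 1)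
        (fun x => ⟪dl V F (stdOrthonormalBasis ℝ W b) F p, N x⟫
          * ⟪dl V F (stdOrthonormalBasis ℝ W a) F p, F x⟫) (r • F p))
    (gv := fun a => U (volM V F) F (finrank ℝ V + 1)
        (fun x => ⟪dl V F (stdOrthonormalBasis ℝ W a) F p, F x⟫) (r • F p))
    hr hE0 hε (by norm_num) (by exact_mod_cast hm2) hu0pos hP0 r1 r2 m6 m6' m7 m7'
    (trace_A hW hF hNs hN p).2 ?_ (fun a => ?_) (by simpa only [dv] using t2) lv lw ?_
  · intro a
    have h1 := tang_sum hW hF hNs hN (finrank ℝ V + 1) p (stdOrthonormalBasis ℝ W a)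
      (g := fun x => ⟪F x, dl V F (stdOrthonormalBasis ℝ W a) F p⟫) (by fun_prop) (r • F p)
    refine h1.trans (Finset.sum_congr rfl fun b _ => ?_)
    congr 1
    exact U_congr (fun x => by rw [real_inner_comm (F x)]) _ _
  · have := t1 (stdOrthonormalBasis ℝ W a)
    rw [dv] at this
    exact this
  · intro hw0n hTm
    exact static_pt hm hW hF hmin hV hNs hN p hr hu0pos hw0n rfl rfl rfl rfl rfl rfl hTm

end

end Vale.Agent.P224.PM
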