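import Vale.Agent.P224.FV.LapSmooth

/-! Second derivative test on the manifold, existence of a minimum. -/

namespace Vale.Agent.P224.PM

open Module Function Set Filter Vale.Agent.P224 Vale.Agent.P224.FV
open scoped RealInnerProductSpace Topology ContDiff Manifold

/-- one-variable second derivative test -/
lemma second_deriv_min {f f' : ℝ → ℝ} {f'' r : ℝ} (h1 : ∀ᶠ t in 𝓝 r, HasDerivAt f (f' t) t)
    (h2 : HasDerivAt f' f'' r) (hm : IsLocalMin f r) : f' r = 0 ∧ 0 ≤ f'' := by
  have hc : ContinuousAt f r := h1.self_of_nhds.continuousAt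
  have e0 : f' r = 0 := hm.hasDerivAt_eq_zero h1.self_of_nhds
  refine ⟨e0, ?_⟩
  have e1 : deriv f =ᶠ[𝓝 r] f' := h1.mono fun t ht => ht.deriv
  have e2 : deriv (deriv f) r = f'' := by rw [e1.deriv_eq, h2.deriv]
  by_contra hneg
  push Not at hneg
  rw [← e2] at hneg
  have hmax := isLocalMax_of_deriv_deriv_neg hneg hm.deriv_eq_zero hc
  have hconst : f =ᶠ[𝓝 r] fun _ => f r := by
    filter_upwards [hm, hmax] with y h1 h2
    exact le_antisymm h2 h1
  have h3 : deriv f =ᶠ[𝓝 r] deriv fun _ => f r := hconst.deriv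
  have h4 := h3.deriv_eq
  simp at h4
  linarith

theorem exists_min {M : Type*} [TopologicalSpace M] [CompactSpace M] {φ : M → ℝ → ℝ}
    (hc : Continuous fun q : M × ℝ => φ q.1 q.2) (h0 : ∀ z r, 0 ≤ φ z r) {B ε : ℝ} (hε : 0 < ε)
    (hs : ∃ z r, 0 < r ∧ φ z r + ε / r < B) (hinf : ∀ᶠ r in atTop, ∀ z, B ≤ φ z r) :
    ∃ z r, 0 < r ∧ ∀ z' r', 0 < r' → φ z r + ε / r ≤ φ z' r' + ε / r' := by
  obtain ⟨z0, r0, hr0, hlt⟩ := hs
  obtain ⟨R, hR⟩ := eventually_atTop.1 hinf
  have hB : 0 < B := by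
    have h1 := h0 z0 r0
    have h2 : 0 < ε / r0 := div_pos hε hr0
    linarith
  set r1 := min r0 (ε / B) with hr1
  have hr1p : 0 < r1 := lt_min hr0 (div_pos hε hB)
  set R' := max R r0 with hR'
  have hK : IsCompact ((univ : Set M) ×ˢ Icc r1 R') := isCompact_univ.prod isCompact_Icc
  have hne : ((univ : Set M) ×ˢ Icc r1 R').Nonempty :=
    ⟨(z0, r0), mem_univ _, min_le_left _ _, le_max_right _ _⟩
  have hcont : ContinuousOn (fun q : M × ℝ => φ q.1 q.2 + ε / q.2)
      ((univ : Set M) ×ˢ Icc r1 R') := by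
    refine hc.continuousOn.add (continuousOn_const.div continuous_snd.continuousOn ?_)
    rintro q ⟨-, hq⟩
    exact (lt_of_lt_of_le hr1p hq.1).ne'
  obtain ⟨⟨z, r⟩, ⟨-, hrm⟩, hmin⟩ := hK.exists_isMinOn hne hcont
  have hrp : 0 < r := lt_of_lt_of_le hr1p hrm.1
  have hle : φ z r + ε / r < B := by
    have h1 : φ z r + ε / r ≤ φ z0 r0 + ε / r0 :=
      hmin (show (z0, r0) ∈ (univ : Set M) ×ˢ Icc r1 R' from
        ⟨mem_univ _, min_le_left _ _, le_max_right _ _⟩)
    linarith
  refine ⟨z, r, hrp, fun z' r' hr' => ?_⟩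
  rcases lt_or_ge r' r1 with h1 | h1
  · have h2 : B ≤ ε / r' := by
      rw [le_div_iff₀ hr']
      have h3 : r' ≤ ε / B := h1.le.trans (min_le_right _ _)
      rw [le_div_iff₀ hB] at h3
      linarith
    have h4 := h0 z' r'
    linarith
  · rcases le_or_gt r' R' with h2 | h2
    · exact hmin (show (z', r') ∈ (univ : Set M) ×ˢ Icc r1 R' from ⟨mem_univ _, h1, h2⟩)
    · have h3 := hR r' ((le_max_left _ _).trans h2.le) z'
      have h4 : 0 < ε / r' := div_pos hε hr'
      linarith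

theorem dl_min {V W M : Type*} [NormedAddCommGroup V] [InnerProductSpace ℝ V]
    [FiniteDimensional ℝ V] [NormedAddCommGroup W] [InnerProductSpace ℝ W]
    [FiniteDimensional ℝ W] [TopologicalSpace M] [ChartedSpace V M] [IsManifold 𝓘(ℝ, V) ∞ M]
    {F : M → W} (hF : SphImm V F) {g : M → ℝ} (hg : ContMDiff 𝓘(ℝ, V) 𝓘(ℝ, ℝ) ∞ g) {p : M}
    (hp : IsLocalMin g p) (a : W) :
    dl V F a g p = 0 ∧ 0 ≤ dl V F a (dl V F a g) p := by
  have hI := immV_rep hF p
  have hps : p ∈ (chartAt V p).source := mem_chart_source _ p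
  have hpT : chartAt V p p ∈ (chartAt V p).target := (chartAt V p).map_source hps
  have hopen : IsOpen (chartAt V p).target := (chartAt V p).open_target
  set ψ : V → ℝ := rep (V := V) g p with hψ
  set u0 : V := chartAt V p p with hu0
  set Xf : V → V := vW (rep (V := V) F p) a with hXf
  -- local minimum
  have hmin : IsLocalMin ψ u0 := by
    have h1 : IsLocalMin g ((chartAt V p).symm u0) := by
      rw [hu0, (chartAt V p).left_inv hps]
      exact hp
    have h2 : Tendsto (chartAt V p).symm (𝓝 u0) (𝓝 ((chartAt V p).symm u0)) :=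
      (chartAt V p).continuousAt_symm hpT
    exact IsMinFilter.comp_tendsto h1 h2
  have hf0 : fderiv ℝ ψ u0 = 0 := hmin.fderiv_eq_zero
  have hdiff : ∀ u ∈ (chartAt V p).target, DifferentiableAt ℝ ψ u := fun u hu =>
    rep_differentiableAt hg p hu
  refine ⟨?_, ?_⟩
  · show fderiv ℝ ψ u0 (Xf u0) = 0
    rw [hf0]
    rfl
  · have hsm : ContDiffAt ℝ (1 + 1) (rep (V := V) F p) u0 :=
      (hI.smooth.contDiffAt (hI.isOpen.mem_nhds hpT)).of_le
        (by rw [one_add_one_eq_two]; norm_cast)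
    have hX : DifferentiableAt ℝ Xf u0 := by
      have h1 : ContDiffAt ℝ 1 Xf u0 := by
        rw [hXf]
        unfold vW
        exact ContDiffAt.sum fun i _ =>
          (contDiffAt_lW (n := 1) hsm (lG_det_pos (hI.inj _ hpT)).ne' a i).smul contDiffAt_const
      exact h1.differentiableAt (by norm_num)
    have hψ2 : DifferentiableAt ℝ (fderiv ℝ ψ) u0 := by
      have h1 : ContDiffAt ℝ 2 ψ u0 :=
        ((rep_contDiffOn hg p).contDiffAt (hopen.mem_nhds hpT)).of_le (by norm_cast)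
      exact (h1.fderiv_right (m := 1) (by norm_num)).differentiableAt (by norm_num)
    have hrep : rep (V := V) (dl V F a g) p =ᶠ[𝓝 u0] fun u => fderiv ℝ ψ u (Xf u) := by
      filter_upwards [hopen.mem_nhds hpT] with u hu
      have hsrc : (chartAt V p).symm u ∈ (chartAt V p).source := (chartAt V p).map_target hu
      have hri : chartAt V p ((chartAt V p).symm u) = u := (chartAt V p).right_inv hu
      show dl V F a g ((chartAt V p).symm u) = _
      rw [dl_eq hF a hsrc (by rw [hri]; exact hdiff u hu), hri]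
    have hval : dl V F a (dl V F a g) p = fderiv ℝ (fderiv ℝ ψ) u0 (Xf u0) (Xf u0) := by
      show fderiv ℝ (rep (V := V) (dl V F a g) p) u0 (Xf u0) = _
      rw [hrep.fderiv_eq, (hψ2.hasFDerivAt.clm_apply hX.hasFDerivAt).fderiv]
      simp [hf0]
    rw [hval]
    -- the line
    have hline : ∀ t : ℝ, HasDerivAt (fun t : ℝ => u0 + t • Xf u0) (Xf u0) t := by
      intro t
      have h1 := ((hasDerivAt_id t).smul_const (Xf u0)).const_add u0
      simpa using h1
    have hl0 : u0 + (0 : ℝ) • Xf u0 = u0 := by rw [zero_smul, add_zero]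
    have htend : Tendsto (fun t : ℝ => u0 + t • Xf u0) (𝓝 0) (𝓝 u0) := by
      have := (hline 0).continuousAt.tendsto
      rwa [hl0] at this
    refine (second_deriv_min (f := fun t : ℝ => ψ (u0 + t • Xf u0))
      (f' := fun t : ℝ => fderiv ℝ ψ (u0 + t • Xf u0) (Xf u0)) (r := 0) ?_ ?_ ?_).2
    · have h1 : ∀ᶠ t : ℝ in 𝓝 0, u0 + t • Xf u0 ∈ (chartAt V p).target :=
        htend (hopen.mem_nhds hpT)
      filter_upwards [h1] with t ht
      exact (hdiff _ ht).hasFDerivAt.comp_hasDerivAt t (hline t)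
    · have h1 : HasFDerivAt (fderiv ℝ ψ) (fderiv ℝ (fderiv ℝ ψ) u0) (u0 + (0 : ℝ) • Xf u0) := by
        rw [hl0]
        exact hψ2.hasFDerivAt
      have h2 := h1.comp_hasDerivAt (0 : ℝ) (hline 0)
      have h3 := h2.clm_apply (hasDerivAt_const (0 : ℝ) (Xf u0))
      simpa using h3
    · have h1 : IsMinFilter ψ (𝓝 u0) (u0 + (0 : ℝ) • Xf u0) := by
        rw [hl0]
        exact hmin
      exact IsMinFilter.comp_tendsto (g := fun t : ℝ => u0 + t • Xf u0) h1 htend

end Vale.Agent.P224.PM
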