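import Vale.Agent.P224.PM.LapUW
import Vale.Agent.P224.PM.MinPt

namespace Vale.Agent.P224.PM

open Matrix MeasureTheory Module Function Set Vale.Agent.P224 Vale.Agent.P224.FV Vale.Agent.P224.Gap
open scoped RealInnerProductSpace Topology ContDiff Manifold

set_option linter.unusedSectionVars false

section

variable {V W M : Type*} [NormedAddCommGroup V] [InnerProductSpace ℝ V] [FiniteDimensional ℝ V]
  [NormedAddCommGroup W] [InnerProductSpace ℝ W] [FiniteDimensional ℝ W]
  [TopologicalSpace M] [ChartedSpace V M] [MeasurableSpace M] [BorelSpace M]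
  [IsManifold 𝓘(ℝ, V) ∞ M] [CompactSpace M]

/-- derivative along a ray with the Gaussian factor -/
lemma ray_deriv {μ : Measure M} [IsFiniteMeasure μ] {F : M → W} (hF : Continuous F) {w : M → ℝ}
    (hw : Continuous w) (j : ℕ) (y : W) (r : ℝ) :
    HasDerivAt (fun r : ℝ => Real.exp (-r ^ 2 / 2) * U μ F j w (r • y))
      (Real.exp (-r ^ 2 / 2) * (U μ F (j + 1) (fun x => w x * ⟪F x, y⟫) (r • y)
        - r * U μ F j w (r • y))) r := by
  have h1 : HasDerivAt (fun r : ℝ => Real.exp (-r ^ 2 / 2)) (Real.exp (-r ^ 2 / 2) * (-r)) r := by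
    have h0 : HasDerivAt (fun r : ℝ => -r ^ 2 / 2) (-r) r := by
      refine ((hasDerivAt_pow 2 r).neg.div_const 2).congr_deriv ?_
      norm_num
      ring
    exact h0.exp
  refine (h1.mul (hasDerivAt_U_ray (μ := μ) hF hw j y r)).congr_deriv ?_
  ring

/-- second derivative along a ray -/
lemma ray_deriv2 {μ : Measure M} [IsFiniteMeasure μ] {F : M → W} (hF : Continuous F) {w : M → ℝ}
    (hw : Continuous w) (j : ℕ) (y : W) (r : ℝ) :
    HasDerivAt (fun r : ℝ => Real.exp (-r ^ 2 / 2) * (U μ F (j + 1) (fun x => w x * ⟪F x, y⟫) (r • y)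
        - r * U μ F j w (r • y)))
      (Real.exp (-r ^ 2 / 2) * (U μ F (j + 2) (fun x => w x * ⟪F x, y⟫ ^ 2) (r • y)
        - 2 * r * U μ F (j + 1) (fun x => w x * ⟪F x, y⟫) (r • y)
        + (r ^ 2 - 1) * U μ F j w (r • y))) r := by
  have hw1 : Continuous fun x => w x * ⟪F x, y⟫ := by fun_prop
  have h1 := ray_deriv (μ := μ) hF hw1 (j + 1) y r
  have h2 := (hasDerivAt_id r).mul (ray_deriv (μ := μ) hF hw j y r)
  have h3 := h1.sub h2
  have e : U μ F (j + 1 + 1) (fun x => w x * ⟪F x, y⟫ * ⟪F x, y⟫) (r • y)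
      = U μ F (j + 2) (fun x => w x * ⟪F x, y⟫ ^ 2) (r • y) := U_congr (fun x => by ring) _ _
  rw [e] at h3
  refine (h3.congr_deriv ?_).congr_of_eventuallyEq ?_
  · simp only [id]
    ring
  · refine Filter.Eventually.of_forall fun r => ?_
    simp only [Pi.sub_apply, Pi.mul_apply, id]
    ring

/-- the conditions at a minimum in the radial direction -/
lemma radial_min {A A' B B' : ℝ → ℝ} {A'' B'' k ε r : ℝ} (hr : 0 < r)
    (hA : ∀ t, HasDerivAt A (A' t) t) (hA' : HasDerivAt A' A'' r)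
    (hB : ∀ t, HasDerivAt B (B' t) t) (hB' : HasDerivAt B' B'' r)
    (hm : IsLocalMin (fun t => A t ^ 2 + k * B t ^ 2 + ε / t) r) :
    2 * A r * A' r + 2 * k * (B r * B' r) - ε / r ^ 2 = 0 ∧
      0 ≤ 2 * A' r ^ 2 + 2 * A r * A'' + 2 * k * (B' r ^ 2 + B r * B'') + 2 * ε / r ^ 3 := by
  have hinv : ∀ t : ℝ, t ≠ 0 → HasDerivAt (fun t => ε / t) (- ε / t ^ 2) t := by
    intro t ht
    have := (hasDerivAt_const t ε).div (hasDerivAt_id t) ht
    refine this.congr_deriv ?_
    simp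
  have hinv2 : HasDerivAt (fun t : ℝ => - ε / t ^ 2) (2 * ε / r ^ 3) r := by
    have := (hasDerivAt_const r (-ε)).div (hasDerivAt_pow 2 r) (pow_ne_zero 2 hr.ne')
    refine this.congr_deriv ?_
    have hr0 : r ≠ 0 := hr.ne'
    field_simp
    norm_num
    ring
  have h := second_deriv_min (f := fun t => A t ^ 2 + k * B t ^ 2 + ε / t)
    (f' := fun t => 2 * A t * A' t + 2 * k * (B t * B' t) + - ε / t ^ 2)
    (f'' := 2 * A' r ^ 2 + 2 * A r * A'' + 2 * k * (B' r ^ 2 + B r * B'') + 2 * ε / r ^ 3)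
    (r := r) ?_ ?_ hm
  · refine ⟨?_, h.2⟩
    rw [← h.1]
    ring
  · filter_upwards [eventually_ne_nhds hr.ne'] with t ht
    have h1 := (((hA t).pow 2).add (((hB t).pow 2).const_mul k)).add (hinv t ht)
    refine (h1.congr_deriv ?_).congr_of_eventuallyEq ?_
    · norm_num
      ring
    · exact Filter.Eventually.of_forall fun t => by simp
  · have h1 := (((hA r).const_mul 2).mul hA').add (((hB r).mul hB').const_mul (2 * k))
    have h2 := h1.add hinv2
    refine (h2.congr_deriv ?_).congr_of_eventuallyEq ?_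
    · ring
    · exact Filter.Eventually.of_forall fun t => by simp

/-- the conditions at a minimum on the hypersurface -/
lemma tangential_min {F : M → W} (hF : SphImm V F) {v w : M → ℝ}
    (hv : ContMDiff 𝓘(ℝ, V) 𝓘(ℝ, ℝ) ∞ v) (hw : ContMDiff 𝓘(ℝ, V) 𝓘(ℝ, ℝ) ∞ w) {k : ℝ} {p : M}
    (hm : IsLocalMin (fun q => v q ^ 2 + k * w q ^ 2) p) :
    (∀ a, v p * dl V F a v p + k * (w p * dl V F a w p) = 0) ∧
      0 ≤ v p * Lap V F v p + ∑ i, dl V F (stdOrthonormalBasis ℝ W i) v p ^ 2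
        + k * (w p * Lap V F w p + ∑ i, dl V F (stdOrthonormalBasis ℝ W i) w p ^ 2) := by
  set v' : SmAlg V M := ⟨v, hv⟩ with hv'
  set w' : SmAlg V M := ⟨w, hw⟩ with hw'
  have hg : (fun q => v q ^ 2 + k * w q ^ 2) = (v' * v' + k • (w' * w')).1 := by
    funext q
    have : (v' * v' + k • (w' * w')).1 q = v q * v q + k * (w q * w q) := rfl
    rw [this]
    ring
  rw [hg] at hm
  have h := dl_min hF (v' * v' + k • (w' * w')).2 hm
  have e1 : ∀ a, DM hF a (v' * v' + k • (w' * w'))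
      = 2 * (v' * DM hF a v' + k • (w' * DM hF a w')) := by
    intro a
    rw [map_add, Derivation.map_smul, Derivation.leibniz, Derivation.leibniz]
    simp only [smul_eq_mul, mul_add, mul_smul_comm, two_mul, smul_add]
  have e2 : ∀ a, DM hF a (DM hF a (v' * v' + k • (w' * w')))
      = 2 * (DM hF a v' * DM hF a v' + v' * DM hF a (DM hF a v')
        + k • (DM hF a w' * DM hF a w' + w' * DM hF a (DM hF a w'))) := by
    intro a
    rw [e1, two_mul, map_add, map_add, Derivation.map_smul, Derivation.leibniz, Derivation.leibniz]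
    simp only [smul_eq_mul, two_mul, smul_add]
    ring
  constructor
  · intro a
    have h1 := (h a).1
    have h2 : dl V F a (v' * v' + k • (w' * w')).1 p
        = (DM hF a (v' * v' + k • (w' * w'))).1 p := rfl
    rw [h2, e1] at h1
    have h3 : (2 * (v' * DM hF a v' + k • (w' * DM hF a w'))).1 p
        = 2 * (v p * dl V F a v p + k * (w p * dl V F a w p)) := rfl
    rw [h3] at h1
    linarith
  · have h4 : ∀ a, 0 ≤ dl V F a v p ^ 2 + v p * dl V F a (dl V F a v) p
        + k * (dl V F a w p ^ 2 + w p * dl V F a (dl V F a w) p) := by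
      intro a
      have h1 := (h a).2
      have h2 : dl V F a (dl V F a (v' * v' + k • (w' * w')).1) p
          = (DM hF a (DM hF a (v' * v' + k • (w' * w')))).1 p := rfl
      rw [h2, e2] at h1
      have h3 : (2 * (DM hF a v' * DM hF a v' + v' * DM hF a (DM hF a v')
          + k • (DM hF a w' * DM hF a w' + w' * DM hF a (DM hF a w')))).1 p
          = 2 * (dl V F a v p * dl V F a v p + v p * dl V F a (dl V F a v) p
        + k * (dl V F a w p * dl V F a w p + w p * dl V F a (dl V F a w) p)) := rfl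
      rw [h3] at h1
      linarith
    have h5 := Finset.sum_nonneg fun i (_ : i ∈ Finset.univ) => h4 (stdOrthonormalBasis ℝ W i)
    have h6 : ∑ i, (dl V F (stdOrthonormalBasis ℝ W i) v p ^ 2
          + v p * dl V F (stdOrthonormalBasis ℝ W i) (dl V F (stdOrthonormalBasis ℝ W i) v) p
        + k * (dl V F (stdOrthonormalBasis ℝ W i) w p ^ 2
          + w p * dl V F (stdOrthonormalBasis ℝ W i) (dl V F (stdOrthonormalBasis ℝ W i) w) p))
        = v p * Lap V F v p + ∑ i, dl V F (stdOrthonormalBasis ℝ W i) v p ^ 2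
        + k * (w p * Lap V F w p + ∑ i, dl V F (stdOrthonormalBasis ℝ W i) w p ^ 2) := by
      unfold Lap
      simp only [Finset.sum_add_distrib, ← Finset.mul_sum]
      ring
    rw [h6] at h5
    exact h5

/-- final algebra -/
lemma final_alg {k r η u0 w0 u1 w1 us ws T2 Tc H Hc P2 R G D X Q m : ℝ} (hr : 0 < r) (hk : 0 < k)
    (hη : 0 < η) (hm : 2 ≤ m)
    (m1 : 2 * u0 * (u1 - r * u0) + 2 * k * (w0 * (w1 - r * w0)) = η)
    (m2 : 0 ≤ 2 * (u1 - r * u0) ^ 2 + 2 * u0 * (us - 2 * r * u1 + (r ^ 2 - 1) * u0)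
      + 2 * k * ((w1 - r * w0) ^ 2 + w0 * (ws - 2 * r * w1 + (r ^ 2 - 1) * w0)) + 2 * η / r)
    (m4 : 0 ≤ u0 * (r ^ 2 * (T2 - us - H) - r * (m * u1)) + r ^ 2 * G
      + k * (w0 * (Q + (r ^ 2 * (Tc - ws - Hc) - r * (m * w1))) + r ^ 2 * D))
    (m5 : w0 * Q ≤ r ^ 2 * X)
    (m6 : T2 = r * u1 + (m + 1) * u0) (m6' : Tc = r * w1 + (m + 1) * w0)
    (m7 : u1 = r * u0 - r * P2) (m7' : w1 = r * w0 + R) :
    0 < r ^ 2 * P2 ^ 2 + k * R ^ 2 + G + k * D - u0 * H - k * (w0 * Hc) + k * X := by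
  have h4 : 0 ≤ u0 * ((T2 - us - H) - m * u1 / r) + G
      + k * (w0 * ((Tc - ws - Hc) - m * w1 / r) + X + D) := by
    have h5 : 0 ≤ r ^ 2 * (u0 * ((T2 - us - H) - m * u1 / r) + G
      + k * (w0 * ((Tc - ws - Hc) - m * w1 / r) + X + D)) := by
      have e : r ^ 2 * (u0 * ((T2 - us - H) - m * u1 / r) + G
        + k * (w0 * ((Tc - ws - Hc) - m * w1 / r) + X + D))
        = u0 * (r ^ 2 * (T2 - us - H) - r * (m * u1)) + r ^ 2 * G
          + k * (w0 * (r ^ 2 * (Tc - ws - Hc) - r * (m * w1)) + r ^ 2 * X + r ^ 2 * D) := by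
        field_simp
      rw [e]
      nlinarith
    exact nonneg_of_mul_nonneg_right h5 (by positivity)
  have h2 : 0 ≤ (u1 - r * u0) ^ 2 + u0 * (us - 2 * r * u1 + (r ^ 2 - 1) * u0)
      + k * ((w1 - r * w0) ^ 2 + w0 * (ws - 2 * r * w1 + (r ^ 2 - 1) * w0)) + η / r := by
    have e : 2 * η / r = 2 * (η / r) := by ring
    rw [e] at m2
    linarith
  have h3 : (m / r + r) * (u0 * (u1 - r * u0) + k * (w0 * (w1 - r * w0))) = (m / r + r) * (η / 2) := by
    congr 1
    linarith
  have h6 : η / r < (m / r + r) * (η / 2) := by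
    have e : (m / r + r) * (η / 2) - η / r = η * ((m - 2) / r + r) / 2 := by ring
    have : 0 < η * ((m - 2) / r + r) / 2 := by
      have : 0 ≤ (m - 2) / r := div_nonneg (by linarith) hr.le
      positivity
    linarith
  have e7 : (r ^ 2 * P2 ^ 2 + k * R ^ 2 + G + k * D - u0 * H - k * (w0 * Hc) + k * X)
      = (u1 - r * u0) ^ 2 + u0 * (us - 2 * r * u1 + (r ^ 2 - 1) * u0)
      + k * ((w1 - r * w0) ^ 2 + w0 * (ws - 2 * r * w1 + (r ^ 2 - 1) * w0))
      + (u0 * ((T2 - us - H) - m * u1 / r) + G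
      + k * (w0 * ((Tc - ws - Hc) - m * w1 / r) + X + D))
      + (m / r + r) * (u0 * (u1 - r * u0) + k * (w0 * (w1 - r * w0))) := by
    rw [m6, m6', m7, m7']
    field_simp
    ring
  rw [e7]
  linarith

end

end Vale.Agent.P224.PM
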