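import Mathlib
import Vale.Agent.P224.Defs

/-! # P224, PM: moments of the shifted Gaussian on the half line (helper10) -/

namespace Vale.Agent.P224.PM

open MeasureTheory Set Real Filter
open scoped Topology ContDiff

/-- moments of the shifted Gaussian on the half line -/
noncomputable def K (j : ℕ) (τ : ℝ) : ℝ :=
  ∫ R in Ioi (0 : ℝ), R ^ j * Real.exp (-R ^ 2 / 2 + R * τ)

lemma integrable_pow_gauss (j : ℕ) {b : ℝ} (hb : 0 < b) :
    Integrable fun R : ℝ => R ^ j * Real.exp (-b * R ^ 2) := by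
  have h := integrable_rpow_mul_exp_neg_mul_sq hb (s := (j : ℝ)) (by
    have : (0 : ℝ) ≤ j := Nat.cast_nonneg j
    linarith)
  refine h.congr (Eventually.of_forall fun R => ?_)
  simp only [Real.rpow_natCast]

lemma kcont (j : ℕ) (τ : ℝ) : Continuous fun R : ℝ => R ^ j * Real.exp (-R ^ 2 / 2 + R * τ) := by
  fun_prop

lemma integrableOn_K (j : ℕ) (τ : ℝ) :
    IntegrableOn (fun R : ℝ => R ^ j * Real.exp (-R ^ 2 / 2 + R * τ)) (Ioi 0) := by
  have h := ((integrable_pow_gauss j (b := 1 / 4) (by norm_num)).const_mul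
    (Real.exp (τ ^ 2))).integrableOn (s := Ioi (0 : ℝ))
  refine h.mono' (kcont j τ).aestronglyMeasurable.restrict ?_
  refine (ae_restrict_iff' measurableSet_Ioi).2 (Eventually.of_forall fun R hR => ?_)
  have hR0 : (0 : ℝ) < R := hR
  rw [Real.norm_eq_abs, abs_of_nonneg (by positivity)]
  have h1 : Real.exp (-R ^ 2 / 2 + R * τ) ≤ Real.exp (τ ^ 2) * Real.exp (-(1 / 4) * R ^ 2) := by
    rw [← Real.exp_add]
    refine Real.exp_le_exp.2 ?_
    nlinarith [sq_nonneg (R / 2 - τ)]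
  calc R ^ j * Real.exp (-R ^ 2 / 2 + R * τ)
      ≤ R ^ j * (Real.exp (τ ^ 2) * Real.exp (-(1 / 4) * R ^ 2)) :=
        mul_le_mul_of_nonneg_left h1 (by positivity)
    _ = _ := by ring

lemma K_pos (j : ℕ) (τ : ℝ) : 0 < K j τ := by
  unfold K
  rw [setIntegral_pos_iff_support_of_nonneg_ae _ (integrableOn_K j τ)]
  · have h : (Function.support fun R : ℝ => R ^ j * Real.exp (-R ^ 2 / 2 + R * τ)) ∩ Ioi 0 =
        Ioi 0 := by
      refine inter_eq_right.2 fun R hR => ?_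
      have hR0 : (0 : ℝ) < R := hR
      rw [Function.mem_support]
      positivity
    rw [h, Real.volume_Ioi]
    exact ENNReal.zero_lt_top
  · refine (ae_restrict_iff' measurableSet_Ioi).2 (Eventually.of_forall fun R hR => ?_)
    have hR0 : (0 : ℝ) < R := hR
    show (0 : ℝ) ≤ R ^ j * Real.exp (-R ^ 2 / 2 + R * τ)
    positivity

lemma hasDerivAt_K (j : ℕ) (τ : ℝ) : HasDerivAt (K j) (K (j + 1) τ) τ := by
  have h := hasDerivAt_integral_of_dominated_loc_of_deriv_le (μ := volume.restrict (Ioi (0 : ℝ)))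
    (F := fun (t : ℝ) (R : ℝ) => R ^ j * Real.exp (-R ^ 2 / 2 + R * t))
    (F' := fun (t : ℝ) (R : ℝ) => R ^ (j + 1) * Real.exp (-R ^ 2 / 2 + R * t))
    (x₀ := τ) (s := Metric.ball τ 1)
    (bound := fun R => R ^ (j + 1) * Real.exp (-R ^ 2 / 2 + R * (|τ| + 1)))
    (Metric.ball_mem_nhds τ one_pos)
    (Eventually.of_forall fun t => (kcont j t).aestronglyMeasurable.restrict)
    (integrableOn_K j τ) (kcont (j + 1) τ).aestronglyMeasurable.restrict
    ((ae_restrict_iff' measurableSet_Ioi).2 (Eventually.of_forall fun R hR t ht => ?_))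
    (integrableOn_K (j + 1) (|τ| + 1))
    (Eventually.of_forall fun R t _ => ?_)
  · exact h.2
  · have hR0 : (0 : ℝ) < R := hR
    rw [Real.norm_eq_abs, abs_of_nonneg (by positivity)]
    refine mul_le_mul_of_nonneg_left (Real.exp_le_exp.2 ?_) (by positivity)
    have h1 : t ≤ |τ| + 1 := by
      have h2 : |t - τ| < 1 := by
        rw [← Real.dist_eq]
        exact ht
      have h3 := (abs_lt.1 h2).2
      have h4 := le_abs_self τ
      linarith
    have h2 := mul_le_mul_of_nonneg_left h1 hR0.le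
    linarith
  · have h1 : HasDerivAt (fun t : ℝ => -R ^ 2 / 2 + R * t) R t := by
      have := ((hasDerivAt_id t).const_mul R).const_add (-R ^ 2 / 2)
      simpa using this
    have h2 := (h1.exp).const_mul (R ^ j)
    refine h2.congr_deriv ?_
    ring

/-- `R^j exp(-R²/2 + Rτ) → 0` -/
lemma tendsto_ker (j : ℕ) (τ : ℝ) :
    Tendsto (fun R : ℝ => R ^ j * Real.exp (-R ^ 2 / 2 + R * τ)) atTop (𝓝 0) := by
  have h1 := (Real.tendsto_pow_mul_exp_neg_atTop_nhds_zero j).const_mul (Real.exp ((τ + 1) ^ 2 / 2))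
  rw [mul_zero] at h1
  refine squeeze_zero' ((eventually_ge_atTop 0).mono fun R hR => ?_)
    ((eventually_ge_atTop 0).mono fun R hR => ?_) h1
  · positivity
  · have h2 : Real.exp (-R ^ 2 / 2 + R * τ) ≤ Real.exp ((τ + 1) ^ 2 / 2) * Real.exp (-R) := by
      rw [← Real.exp_add]
      refine Real.exp_le_exp.2 ?_
      nlinarith [sq_nonneg (R - (τ + 1))]
    calc R ^ j * Real.exp (-R ^ 2 / 2 + R * τ)
        ≤ R ^ j * (Real.exp ((τ + 1) ^ 2 / 2) * Real.exp (-R)) :=
          mul_le_mul_of_nonneg_left h2 (by positivity)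
      _ = _ := by ring

lemma hasDerivAt_ker (τ R : ℝ) : HasDerivAt (fun R : ℝ => Real.exp (-R ^ 2 / 2 + R * τ))
    ((τ - R) * Real.exp (-R ^ 2 / 2 + R * τ)) R := by
  have h1 : HasDerivAt (fun R : ℝ => -R ^ 2 / 2 + R * τ) (τ - R) R := by
    have h2 := ((hasDerivAt_pow 2 R).neg.div_const 2).add ((hasDerivAt_id R).mul_const τ)
    refine h2.congr_deriv ?_
    norm_num
    ring
  refine h1.exp.congr_deriv ?_
  ring

lemma K_one (τ : ℝ) : K 1 τ = 1 + τ * K 0 τ := by
  have hs : IntegrableOn (fun R => τ * (R ^ 0 * Real.exp (-R ^ 2 / 2 + R * τ)) -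
      R ^ 1 * Real.exp (-R ^ 2 / 2 + R * τ)) (Ioi (0 : ℝ)) :=
    ((integrableOn_K 0 τ).const_mul τ).sub (integrableOn_K 1 τ)
  have h1 := integral_Ioi_of_hasDerivAt_of_tendsto (a := (0 : ℝ)) (m := 0)
    (f := fun R : ℝ => R ^ 0 * Real.exp (-R ^ 2 / 2 + R * τ))
    (f' := fun R => τ * (R ^ 0 * Real.exp (-R ^ 2 / 2 + R * τ)) -
      R ^ 1 * Real.exp (-R ^ 2 / 2 + R * τ))
    (kcont 0 τ).continuousWithinAt
    (fun R _ => by
      have := hasDerivAt_ker τ R
      simp only [pow_zero, one_mul, pow_one]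
      refine this.congr_deriv ?_
      ring)
    hs (tendsto_ker 0 τ)
  rw [integral_sub ((integrableOn_K 0 τ).const_mul τ) (integrableOn_K 1 τ), integral_const_mul] at h1
  change τ * K 0 τ - K 1 τ = _ at h1
  simp at h1
  linarith

lemma K_rec (j : ℕ) (τ : ℝ) : K (j + 2) τ = τ * K (j + 1) τ + ((j : ℝ) + 1) * K j τ := by
  have hi : IntegrableOn (fun R => (τ * (R ^ (j + 1) * Real.exp (-R ^ 2 / 2 + R * τ)) +
      ((j : ℝ) + 1) * (R ^ j * Real.exp (-R ^ 2 / 2 + R * τ)))) (Ioi (0 : ℝ)) :=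
    ((integrableOn_K (j + 1) τ).const_mul τ).add ((integrableOn_K j τ).const_mul ((j : ℝ) + 1))
  have hs : IntegrableOn (fun R => (τ * (R ^ (j + 1) * Real.exp (-R ^ 2 / 2 + R * τ)) +
      ((j : ℝ) + 1) * (R ^ j * Real.exp (-R ^ 2 / 2 + R * τ))) -
      R ^ (j + 2) * Real.exp (-R ^ 2 / 2 + R * τ)) (Ioi (0 : ℝ)) :=
    hi.sub (integrableOn_K (j + 2) τ)
  have h1 := integral_Ioi_of_hasDerivAt_of_tendsto (a := (0 : ℝ)) (m := 0)
    (f := fun R : ℝ => R ^ (j + 1) * Real.exp (-R ^ 2 / 2 + R * τ))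
    (f' := fun R => (τ * (R ^ (j + 1) * Real.exp (-R ^ 2 / 2 + R * τ)) +
      ((j : ℝ) + 1) * (R ^ j * Real.exp (-R ^ 2 / 2 + R * τ))) -
      R ^ (j + 2) * Real.exp (-R ^ 2 / 2 + R * τ))
    (kcont (j + 1) τ).continuousWithinAt
    (fun R _ => by
      have h2 := (hasDerivAt_pow (j + 1) R).mul (hasDerivAt_ker τ R)
      refine h2.congr_deriv ?_
      push_cast
      ring)
    hs (tendsto_ker (j + 1) τ)
  rw [integral_sub hi (integrableOn_K (j + 2) τ),
    integral_add ((integrableOn_K (j + 1) τ).const_mul τ)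
      ((integrableOn_K j τ).const_mul ((j : ℝ) + 1)), integral_const_mul, integral_const_mul] at h1
  change τ * K (j + 1) τ + ((j : ℝ) + 1) * K j τ - K (j + 2) τ = _ at h1
  simp at h1
  linarith

lemma K_cs (j : ℕ) (τ : ℝ) : K (j + 1) τ ^ 2 ≤ K j τ * K (j + 2) τ := by
  have h0 : ∀ a b : ℝ, 0 ≤ a ^ 2 * K j τ + 2 * a * b * K (j + 1) τ + b ^ 2 * K (j + 2) τ := by
    intro a b
    have e : a ^ 2 * K j τ + 2 * a * b * K (j + 1) τ + b ^ 2 * K (j + 2) τ =
        ∫ R in Ioi (0 : ℝ), (a ^ 2 * (R ^ j * Real.exp (-R ^ 2 / 2 + R * τ)) +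
          2 * a * b * (R ^ (j + 1) * Real.exp (-R ^ 2 / 2 + R * τ)) +
          b ^ 2 * (R ^ (j + 2) * Real.exp (-R ^ 2 / 2 + R * τ))) := by
      have hA : IntegrableOn (fun R => a ^ 2 * (R ^ j * Real.exp (-R ^ 2 / 2 + R * τ)) +
          2 * a * b * (R ^ (j + 1) * Real.exp (-R ^ 2 / 2 + R * τ))) (Ioi (0 : ℝ)) :=
        ((integrableOn_K j τ).const_mul (a ^ 2)).add
          ((integrableOn_K (j + 1) τ).const_mul (2 * a * b))
      rw [integral_add hA ((integrableOn_K (j + 2) τ).const_mul (b ^ 2)),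
        integral_add ((integrableOn_K j τ).const_mul (a ^ 2))
        ((integrableOn_K (j + 1) τ).const_mul (2 * a * b)),
        integral_const_mul, integral_const_mul, integral_const_mul]
      rfl
    rw [e]
    refine setIntegral_nonneg measurableSet_Ioi fun R hR => ?_
    have hR0 : (0 : ℝ) < R := hR
    have e2 : a ^ 2 * (R ^ j * Real.exp (-R ^ 2 / 2 + R * τ)) +
          2 * a * b * (R ^ (j + 1) * Real.exp (-R ^ 2 / 2 + R * τ)) +
          b ^ 2 * (R ^ (j + 2) * Real.exp (-R ^ 2 / 2 + R * τ)) =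
        R ^ j * (a + b * R) ^ 2 * Real.exp (-R ^ 2 / 2 + R * τ) := by ring
    rw [e2]
    positivity
  have h1 := h0 (-K (j + 1) τ) (K j τ)
  have h2 := K_pos j τ
  have h3 : 0 ≤ K j τ * (K j τ * K (j + 2) τ - K (j + 1) τ ^ 2) := by nlinarith
  have h4 := nonneg_of_mul_nonneg_right h3 h2
  linarith

lemma iter_K (j n : ℕ) : iteratedDeriv n (K j) = K (j + n) := by
  induction n with
  | zero => simp
  | succ n ih =>
    rw [iteratedDeriv_succ, ih]
    funext τ
    exact (hasDerivAt_K (j + n) τ).deriv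

lemma contDiff_K (j : ℕ) : ContDiff ℝ ∞ (K j) := by
  refine contDiff_of_differentiable_iteratedDeriv fun m _ => ?_
  rw [iter_K]
  exact fun τ => (hasDerivAt_K _ τ).differentiableAt

lemma K_mono (j : ℕ) : Monotone (K j) := by
  refine monotone_of_deriv_nonneg (fun τ => (hasDerivAt_K _ τ).differentiableAt) fun τ => ?_
  rw [(hasDerivAt_K j τ).deriv]
  exact (K_pos _ _).le

lemma K_zero (m : ℕ) : sphereVol m * K m 0 = (2 * π) ^ (((m : ℝ) + 1) / 2) := by
  have hm : (0 : ℝ) ≤ m := Nat.cast_nonneg m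
  have h1 := integral_rpow_mul_exp_neg_mul_rpow (p := 2) (q := m) (b := 1 / 2) two_pos
    (by linarith) (by norm_num)
  have h2 : K m 0 = ∫ x in Ioi (0 : ℝ), x ^ (m : ℝ) * Real.exp (-(1 / 2) * x ^ (2 : ℝ)) := by
    unfold K
    refine setIntegral_congr_fun measurableSet_Ioi fun R _ => ?_
    simp only [Real.rpow_natCast, Real.rpow_two]
    congr 2
    ring
  rw [h2, h1, sphereVol]
  have hG : Real.Gamma (((m : ℝ) + 1) / 2) ≠ 0 := (Real.Gamma_pos_of_pos (by positivity)).ne'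
  have h3 : (1 / 2 : ℝ) ^ (-((m : ℝ) + 1) / 2) = 2 ^ (((m : ℝ) + 1) / 2) := by
    rw [one_div, Real.inv_rpow (by norm_num), ← Real.rpow_neg (by norm_num)]
    congr 1
    ring
  rw [h3, Real.mul_rpow (by norm_num) Real.pi_pos.le]
  field_simp

lemma K_ge (m : ℕ) {τ : ℝ} (h : 0 ≤ τ) : τ ^ m * K 0 τ ≤ K m τ := by
  induction m with
  | zero => simp
  | succ n ih =>
    have h1 : τ * K n τ ≤ K (n + 1) τ := by
      cases n with
      | zero => rw [K_one]; linarith
      | succ k =>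
        rw [K_rec]
        have := (K_pos k τ).le
        have : (0 : ℝ) ≤ ((k : ℝ) + 1) * K k τ := by positivity
        linarith
    calc τ ^ (n + 1) * K 0 τ = τ * (τ ^ n * K 0 τ) := by ring
      _ ≤ τ * K n τ := mul_le_mul_of_nonneg_left ih h
      _ ≤ _ := h1

lemma tendsto_K0 : Tendsto (fun τ : ℝ => Real.exp (-τ ^ 2 / 2) * K 0 τ) atTop
    (𝓝 (Real.sqrt (2 * π))) := by
  have h1 : ∀ τ : ℝ, Real.exp (-τ ^ 2 / 2) * K 0 τ =
      ∫ u in Ioi (-τ), Real.exp (-(1 / 2) * u ^ 2) := by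
    intro τ
    have h2 := (measurePreserving_sub_right (volume : Measure ℝ) τ).setIntegral_preimage_emb
      (measurableEmbedding_subRight τ) (fun u : ℝ => Real.exp (-(1 / 2) * u ^ 2)) (Ioi (-τ))
    rw [← h2]
    have h3 : (fun x : ℝ => x - τ) ⁻¹' Ioi (-τ) = Ioi 0 := by
      ext x
      simp
    rw [h3]
    unfold K
    rw [← integral_const_mul]
    refine setIntegral_congr_fun measurableSet_Ioi fun R _ => ?_
    simp only [pow_zero, one_mul]
    rw [← Real.exp_add]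
    congr 1
    ring
  have h2 : Tendsto (fun τ : ℝ => ∫ u in Ioi (-τ), Real.exp (-(1 / 2) * u ^ 2)) atTop
      (𝓝 (∫ u : ℝ, Real.exp (-(1 / 2) * u ^ 2))) :=
    (aecover_Ioi tendsto_neg_atTop_atBot).integral_tendsto_of_countably_generated
      (integrable_exp_neg_mul_sq (by norm_num))
  rw [integral_gaussian] at h2
  have h3 : π / (1 / 2) = 2 * π := by ring
  rw [h3] at h2
  exact h2.congr fun τ => (h1 τ).symm

lemma K_small (m : ℕ) {δ : ℝ} (h0 : 0 < δ) (h1 : δ ≤ 1) :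
    Tendsto (fun r : ℝ => Real.exp (-r ^ 2 / 2) * K m (r * (1 - δ))) atTop (𝓝 0) := by
  set C : ℝ := ∫ R in Ioi (0 : ℝ), R ^ m * Real.exp (-(δ / 2) * R ^ 2) with hC
  have hI : IntegrableOn (fun R : ℝ => R ^ m * Real.exp (-(δ / 2) * R ^ 2)) (Ioi 0) :=
    (integrable_pow_gauss m (by positivity)).integrableOn
  have hE : Tendsto (fun r : ℝ => Real.exp (-(δ / 2) * r ^ 2) * C) atTop (𝓝 0) := by
    have h2 : Tendsto (fun r : ℝ => Real.exp (-(δ / 2) * r ^ 2)) atTop (𝓝 0) := by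
      refine Real.tendsto_exp_atBot.comp ?_
      have h3 : Tendsto (fun r : ℝ => (δ / 2) * r ^ 2) atTop atTop :=
        (tendsto_pow_atTop two_ne_zero).const_mul_atTop (by positivity)
      refine (tendsto_neg_atTop_atBot.comp h3).congr fun r => ?_
      simp only [Function.comp]
      ring
    simpa using h2.mul_const C
  refine squeeze_zero' ((eventually_ge_atTop 0).mono fun r hr => ?_)
    ((eventually_ge_atTop 0).mono fun r hr => ?_) hE
  · exact mul_nonneg (Real.exp_pos _).le (K_pos _ _).le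
  · unfold K
    rw [hC, ← integral_const_mul, ← integral_const_mul]
    refine setIntegral_mono_on ((integrableOn_K m _).const_mul _) (hI.const_mul _)
      measurableSet_Ioi fun R hR => ?_
    have hR0 : (0 : ℝ) < R := hR
    have h2 : Real.exp (-r ^ 2 / 2) * Real.exp (-R ^ 2 / 2 + R * (r * (1 - δ))) ≤
        Real.exp (-(δ / 2) * r ^ 2) * Real.exp (-(δ / 2) * R ^ 2) := by
      rw [← Real.exp_add, ← Real.exp_add]
      refine Real.exp_le_exp.2 ?_
      nlinarith [mul_nonneg (sub_nonneg.2 h1) (sq_nonneg (R - r))]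
    calc Real.exp (-r ^ 2 / 2) * (R ^ m * Real.exp (-R ^ 2 / 2 + R * (r * (1 - δ))))
        = R ^ m * (Real.exp (-r ^ 2 / 2) * Real.exp (-R ^ 2 / 2 + R * (r * (1 - δ)))) := by ring
      _ ≤ R ^ m * (Real.exp (-(δ / 2) * r ^ 2) * Real.exp (-(δ / 2) * R ^ 2)) :=
          mul_le_mul_of_nonneg_left h2 (by positivity)
      _ = _ := by ring

end Vale.Agent.P224.PM
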