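import Vale.Agent.P224.DensityGlobal
import Vale.Agent.P224.PM.Ker

/-!
P224: Gaussian density of an immersed hypersurface (helper109).
-/

namespace Vale.Agent.P224.PM

open MeasureTheory Filter Topology Set
open scoped RealInnerProductSpace ContDiff ENNReal Manifold

section basic

variable {m : ℕ}

lemma lint_exp (hm : 0 < m) :
    ∫⁻ w : EuclideanSpace ℝ (Fin m), ENNReal.ofReal (Real.exp (-‖w‖ ^ 2 / 2) * Real.sqrt (2 * Real.pi))
      = ENNReal.ofReal ((2 * Real.pi) ^ (((m : ℝ) + 1) / 2)) := by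
  have h := lint_gauss hm (b := 1 / 2) (by norm_num)
  have e : ∀ w : EuclideanSpace ℝ (Fin m),
      ENNReal.ofReal (Real.exp (-‖w‖ ^ 2 / 2) * Real.sqrt (2 * Real.pi)) =
        ENNReal.ofReal (Real.exp (-(1 / 2) * ‖w‖ ^ 2)) * ENNReal.ofReal (Real.sqrt (2 * Real.pi)) := by
    intro w
    rw [ENNReal.ofReal_mul (Real.exp_pos _).le]
    congr 3
    ring
  simp_rw [e]
  rw [lintegral_mul_const _ (by fun_prop), h, ← ENNReal.ofReal_mul (by positivity)]
  congr 1
  rw [Real.sqrt_eq_rpow, show Real.pi / (1 / 2) = 2 * Real.pi by ring,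
    ← Real.rpow_add (by positivity)]
  congr 1
  ring

/-- linear change of variables -/
lemma lint_linear_exp {n : ℕ} (hm : 0 < m)
    (L : EuclideanSpace ℝ (Fin m) →L[ℝ] EuclideanSpace ℝ (Fin n)) (hL : Function.Injective L) :
    ∫⁻ z : EuclideanSpace ℝ (Fin m), ENNReal.ofReal ((Real.exp (-‖L z‖ ^ 2 / 2) *
      Real.sqrt (2 * Real.pi)) *
      Real.sqrt (Matrix.det (Matrix.of fun i j =>
        ⟪L (EuclideanSpace.single i 1), L (EuclideanSpace.single j 1)⟫)))
      = ENNReal.ofReal ((2 * Real.pi) ^ (((m : ℝ) + 1) / 2)) := by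
  set G0 : Matrix (Fin m) (Fin m) ℝ := Matrix.of fun i j =>
        ⟪L (EuclideanSpace.single i 1), L (EuclideanSpace.single j 1)⟫ with hG0
  have hG0' : G0 = Matrix.gram ℝ (fun i => L (EuclideanSpace.single i 1)) := by
    ext i j; rfl
  have hli : LinearIndependent ℝ (fun i => L (EuclideanSpace.single i (1 : ℝ))) := by
    have h1 := (EuclideanSpace.basisFun (Fin m) ℝ).toBasis.linearIndependent
    have hk : LinearMap.ker L.toLinearMap = ⊥ := by
      rw [LinearMap.ker_eq_bot]
      exact hL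
    have h2 := h1.map' _ hk
    have e : (fun i => L (EuclideanSpace.single i (1 : ℝ))) = (⇑L.toLinearMap ∘
        ⇑(EuclideanSpace.basisFun (Fin m) ℝ).toBasis) := by
      funext i
      simp
    rw [e]
    exact h2
  have hpd : G0.PosDef := by
    rw [hG0']; exact Matrix.posDef_gram_of_linearIndependent hli
  obtain ⟨T, κ, hTG, -⟩ := exists_simul_diag G0 0 hpd (by simp)
  have hdet : T.det * T.det * G0.det = 1 := by
    have := congrArg Matrix.det hTG
    rw [Matrix.det_mul, Matrix.det_mul, Matrix.det_transpose, Matrix.det_one] at this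
    linarith
  have hTdet : T.det ≠ 0 := by
    intro h
    rw [h] at hdet
    simp at hdet
  set TL : EuclideanSpace ℝ (Fin m) →ₗ[ℝ] EuclideanSpace ℝ (Fin m) :=
    Matrix.toLpLin 2 2 T with hTL
  have hTLd : LinearMap.det TL = T.det := LinearMap.det_toLpLin 2 T
  have hLsum : ∀ z : EuclideanSpace ℝ (Fin m), L z = ∑ b, z b • L (EuclideanSpace.single b 1) := by
    intro z
    have hx : z = ∑ b, z b • EuclideanSpace.single b (1 : ℝ) := by
      ext j
      simp [Finset.sum_apply, Pi.single_apply]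
    conv_lhs => rw [hx]
    rw [map_sum]
    simp only [map_smul]
  have hnorm : ∀ w, ‖L (TL w)‖ ^ 2 = ‖w‖ ^ 2 := by
    intro w
    have h1 : ‖L (TL w)‖ ^ 2 = (w : Fin m → ℝ) ⬝ᵥ ((T.transpose * G0 * T).mulVec w) := by
      rw [← real_inner_self_eq_norm_sq, hLsum (TL w)]
      simp only [sum_inner, inner_sum, inner_smul_left, inner_smul_right, conj_trivial]
      have h2 : ∀ b, (TL w) b = (T.mulVec w) b := by
        intro b
        rw [hTL, Matrix.toLpLin_apply]
      simp only [h2]
      have h3 : (w : Fin m → ℝ) ⬝ᵥ ((T.transpose * G0 * T).mulVec w)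
          = (T.mulVec w) ⬝ᵥ (G0.mulVec (T.mulVec w)) := by
        rw [← Matrix.mulVec_mulVec, ← Matrix.mulVec_mulVec, Matrix.dotProduct_mulVec,
          Matrix.vecMul_transpose]
      rw [h3]
      generalize T.mulVec (w : Fin m → ℝ) = v
      simp only [dotProduct, Matrix.mulVec, hG0, Matrix.of_apply, Finset.mul_sum]
      apply Finset.sum_congr rfl
      intro i _
      apply Finset.sum_congr rfl
      intro j _
      rw [real_inner_comm (L (EuclideanSpace.single i 1)) (L (EuclideanSpace.single j 1))]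
      ring
    rw [h1, hTG, Matrix.one_mulVec, EuclideanSpace.norm_eq, Real.sq_sqrt
      (Finset.sum_nonneg fun i _ => by positivity)]
    simp [dotProduct, pow_two]
  have hmap := Measure.map_linearMap_addHaar_eq_smul_addHaar (f := TL)
    (volume : Measure (EuclideanSpace ℝ (Fin m))) (by rw [hTLd]; exact hTdet)
  have hcont : Continuous TL := TL.continuous_of_finiteDimensional
  set h : EuclideanSpace ℝ (Fin m) → ℝ≥0∞ := fun z =>
    ENNReal.ofReal ((Real.exp (-‖L z‖ ^ 2 / 2) * Real.sqrt (2 * Real.pi)) * Real.sqrt G0.det) with hh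
  have hmeas : Measurable h := by
    have : Continuous fun z : EuclideanSpace ℝ (Fin m) =>
        (Real.exp (-‖L z‖ ^ 2 / 2) * Real.sqrt (2 * Real.pi)) * Real.sqrt G0.det := by fun_prop
    exact ENNReal.measurable_ofReal.comp this.measurable
  have h1 : ∫⁻ w, h (TL w) = ∫⁻ z, h z ∂(Measure.map TL volume) :=
    (lintegral_map hmeas hcont.measurable).symm
  rw [hmap, lintegral_smul_measure, hTLd, smul_eq_mul] at h1
  have h2 : ∫⁻ w, h (TL w) = ENNReal.ofReal ((2 * Real.pi) ^ (((m : ℝ) + 1) / 2)) *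
      ENNReal.ofReal (Real.sqrt G0.det) := by
    have : ∀ w, h (TL w) = ENNReal.ofReal (Real.exp (-‖w‖ ^ 2 / 2) * Real.sqrt (2 * Real.pi)) *
        ENNReal.ofReal (Real.sqrt G0.det) := by
      intro w
      simp only [hh]
      rw [hnorm, ENNReal.ofReal_mul (by positivity)]
    simp_rw [this]
    rw [lintegral_mul_const _ (by fun_prop), lint_exp hm]
  rw [h2] at h1
  have hs : Real.sqrt G0.det = |T.det⁻¹| := by
    have h3 : G0.det = (T.det⁻¹) ^ 2 := by
      field_simp
      linarith
    rw [h3, Real.sqrt_sq_eq_abs]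
  rw [hs] at h1
  have hne : ENNReal.ofReal |T.det⁻¹| ≠ 0 := by
    rw [ne_eq, ENNReal.ofReal_eq_zero, not_le]
    exact abs_pos.mpr (inv_ne_zero hTdet)
  rw [mul_comm] at h1
  exact ((ENNReal.mul_right_inj hne ENNReal.ofReal_ne_top).mp h1).symm

end basic

/-- The Gaussian density of an immersed piece at one of its points. -/
theorem dens_local {m n : ℕ} (hm : 0 < m)
    (f : EuclideanSpace ℝ (Fin m) → EuclideanSpace ℝ (Fin n))
    (U : Set (EuclideanSpace ℝ (Fin m))) (hU : IsOpen U) (u₀ : EuclideanSpace ℝ (Fin m))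
    (hu : u₀ ∈ U) (hf : ContDiffOn ℝ 1 f U) (hn : ∀ u ∈ U, ‖f u‖ = 1)
    (hinj : Function.Injective (fderiv ℝ f u₀)) {δ : ℝ} (hδ : 0 < δ)
    (hsub : Metric.ball u₀ δ ⊆ U) {ε : ℝ} (hε : 0 < ε) :
    ∀ᶠ r : ℝ in atTop,
      ENNReal.ofReal ((1 - ε) * (2 * Real.pi) ^ (((m : ℝ) + 1) / 2)) ≤ ∫⁻ u in Metric.ball u₀ δ,
        ENNReal.ofReal (Real.exp (-r ^ 2 / 2) * K m (r * ⟪f u, f u₀⟫) *
          Real.sqrt (Matrix.det (Matrix.of fun i j => ⟪fderiv ℝ f u (EuclideanSpace.single i 1),
            fderiv ℝ f u (EuclideanSpace.single j 1)⟫))) := by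
  set L := fderiv ℝ f u₀ with hL
  set D : EuclideanSpace ℝ (Fin m) → ℝ := fun u => Real.sqrt (Matrix.det (Matrix.of fun i j =>
    ⟪fderiv ℝ f u (EuclideanSpace.single i 1), fderiv ℝ f u (EuclideanSpace.single j 1)⟫)) with hD
  set g : ℝ → EuclideanSpace ℝ (Fin m) → ℝ≥0∞ := fun r u =>
    ENNReal.ofReal (Real.exp (-r ^ 2 / 2) * K m (r * ⟪f u, f u₀⟫) * D u) with hg
  set KK : ℝ → EuclideanSpace ℝ (Fin m) → ℝ≥0∞ := fun r z =>
    ENNReal.ofReal (r⁻¹ ^ m) * (Metric.ball u₀ δ).indicator (g r) (u₀ + r⁻¹ • z) with hK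
  have hfc : ContinuousOn f (Metric.ball u₀ δ) := (hf.continuousOn).mono hsub
  have hfdc : ContinuousOn (fderiv ℝ f) U := by
    have := hf.fderiv_of_isOpen (m := 0) hU (by norm_num)
    exact this.continuousOn
  have hDc : ContinuousOn D U := by
    apply Continuous.comp_continuousOn Real.continuous_sqrt
    apply (continuous_id.matrix_det).comp_continuousOn
    apply continuousOn_mat
    intro i j
    exact (hfdc.clm_apply continuousOn_const).inner (𝕜 := ℝ) (hfdc.clm_apply continuousOn_const)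
  have hKc : ∀ j, Continuous (K j) := fun j => (contDiff_K j).continuous
  -- measurability
  have hmeas : ∀ r, AEMeasurable (KK r) volume := by
    intro r
    have h1 : AEMeasurable ((Metric.ball u₀ δ).indicator (g r)) volume := by
      rw [aemeasurable_indicator_iff Metric.isOpen_ball.measurableSet]
      apply ENNReal.measurable_ofReal.comp_aemeasurable
      have h2 : ContinuousOn (fun u => Real.exp (-r ^ 2 / 2) * K m (r * ⟪f u, f u₀⟫) * D u)
          (Metric.ball u₀ δ) :=
        (continuousOn_const.mul ((hKc m).comp_continuousOn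
          (continuousOn_const.mul (hfc.inner (𝕜 := ℝ) continuousOn_const)))).mul (hDc.mono hsub)
      exact h2.aemeasurable Metric.isOpen_ball.measurableSet
    by_cases hc : r⁻¹ = 0
    · have : KK r = fun _ => ENNReal.ofReal (r⁻¹ ^ m) *
          (Metric.ball u₀ δ).indicator (g r) u₀ := by
        funext z
        simp only [hK, hc, zero_smul, add_zero]
      rw [this]
      exact aemeasurable_const
    · apply AEMeasurable.const_mul
      have hmap := Measure.map_addHaar_smul (volume : Measure (EuclideanSpace ℝ (Fin m))) hc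
      have hq1 : Measure.QuasiMeasurePreserving (fun z : EuclideanSpace ℝ (Fin m) => r⁻¹ • z)
          volume volume := by
        refine ⟨by fun_prop, ?_⟩
        rw [hmap]
        exact Measure.smul_absolutelyContinuous
      have hq2 : Measure.QuasiMeasurePreserving (fun z : EuclideanSpace ℝ (Fin m) => u₀ + z)
          volume volume := (measurePreserving_add_left volume u₀).quasiMeasurePreserving
      exact h1.comp_quasiMeasurePreserving (hq2.comp hq1)
  have hrt : Tendsto (fun r : ℝ => r⁻¹) atTop (𝓝 0) := tendsto_inv_atTop_zero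
  have hfd : HasFDerivAt f L u₀ :=
    ((hf.differentiableOn (by norm_num)).differentiableAt (hU.mem_nhds hu)).hasFDerivAt
  have hliminf : ∀ z, ENNReal.ofReal ((Real.exp (-‖L z‖ ^ 2 / 2) *
      Real.sqrt (2 * Real.pi)) * D u₀) ≤ liminf (fun r => KK r z) atTop := by
    intro z
    have hu' : Tendsto (fun r : ℝ => u₀ + r⁻¹ • z) atTop (𝓝 u₀) := by
      have := (tendsto_const_nhds (x := u₀)).add (hrt.smul_const z)
      simpa using this
    have hball : ∀ᶠ r : ℝ in atTop, u₀ + r⁻¹ • z ∈ Metric.ball u₀ δ :=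
      hu'.eventually (Metric.ball_mem_nhds u₀ hδ)
    have hquot : Tendsto (fun r : ℝ => r • (f (u₀ + r⁻¹ • z) - f u₀)) atTop (𝓝 (L z)) := by
      have hder : HasDerivAt (fun t : ℝ => f (u₀ + t • z)) (L z) 0 := by
        have h3 : HasDerivAt (fun t : ℝ => u₀ + t • z) z 0 := by
          have := ((hasDerivAt_id (0 : ℝ)).smul_const z).const_add u₀
          simpa using this
        have h4 : HasFDerivAt f L (u₀ + (0 : ℝ) • z) := by simpa using hfd
        exact h4.comp_hasDerivAt 0 h3
      have h5 := hder.tendsto_slope_zero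
      simp only [zero_add, zero_smul, add_zero] at h5
      have h6 : Tendsto (fun r : ℝ => r⁻¹) atTop (nhdsWithin 0 {0}ᶜ) :=
        tendsto_nhdsWithin_iff.mpr ⟨hrt, by
          filter_upwards [eventually_gt_atTop (0 : ℝ)] with r hr
          exact (inv_pos.mpr hr).ne'⟩
      have h7 := h5.comp h6
      refine h7.congr' ?_
      filter_upwards [eventually_gt_atTop (0 : ℝ)] with r hr
      simp [Function.comp]
    have hs1 : Tendsto (fun r : ℝ => ⟪f (u₀ + r⁻¹ • z), f u₀⟫) atTop (𝓝 1) := by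
      have h1 : ContinuousAt f u₀ := hfd.continuousAt
      have h2 := (h1.tendsto.comp hu').inner (tendsto_const_nhds (x := f u₀)) (𝕜 := ℝ)
      have h3 : ⟪f u₀, f u₀⟫ = 1 := by
        rw [real_inner_self_eq_norm_sq, hn u₀ hu]; norm_num
      rw [h3] at h2
      exact h2
    have hspos : ∀ᶠ r : ℝ in atTop, 0 < ⟪f (u₀ + r⁻¹ • z), f u₀⟫ :=
      hs1.eventually (lt_mem_nhds one_pos)
    have hrs : Tendsto (fun r : ℝ => r * ⟪f (u₀ + r⁻¹ • z), f u₀⟫) atTop atTop :=
      tendsto_id.atTop_mul_pos one_pos hs1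
    have hreal : Tendsto (fun r : ℝ => ⟪f (u₀ + r⁻¹ • z), f u₀⟫ ^ m *
        (Real.exp (-(‖r • (f (u₀ + r⁻¹ • z) - f u₀)‖ ^ 2 / 2 *
          (1 + ⟪f (u₀ + r⁻¹ • z), f u₀⟫)) / 2) *
        (Real.exp (-(r * ⟪f (u₀ + r⁻¹ • z), f u₀⟫) ^ 2 / 2) *
          K 0 (r * ⟪f (u₀ + r⁻¹ • z), f u₀⟫))) * D (u₀ + r⁻¹ • z)) atTop
        (𝓝 (1 ^ m * (Real.exp (-(‖L z‖ ^ 2 / 2 * (1 + 1)) / 2) * Real.sqrt (2 * Real.pi)) *
          D u₀)) := by
      apply Tendsto.mul
      · apply Tendsto.mul
        · exact hs1.pow m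
        · apply Tendsto.mul
          · apply (Real.continuous_exp.tendsto _).comp
            exact ((((hquot.norm.pow 2).div_const 2).mul (hs1.const_add 1)).neg).div_const 2
          · exact tendsto_K0.comp hrs
      · exact ((hDc.continuousAt (hU.mem_nhds hu)).tendsto).comp hu'
    have hval : (1 : ℝ) ^ m * (Real.exp (-(‖L z‖ ^ 2 / 2 * (1 + 1)) / 2) *
        Real.sqrt (2 * Real.pi)) * D u₀ =
        (Real.exp (-‖L z‖ ^ 2 / 2) * Real.sqrt (2 * Real.pi)) * D u₀ := by
      rw [one_pow, one_mul]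
      congr 3
      ring
    rw [hval] at hreal
    have hlim := (ENNReal.tendsto_ofReal hreal).liminf_eq
    rw [← hlim]
    refine liminf_le_liminf ?_
    filter_upwards [hball, hspos, eventually_gt_atTop (0 : ℝ)] with r hb hs hr
    simp only [hK]
    rw [indicator_of_mem hb]
    simp only [hg]
    rw [← ENNReal.ofReal_mul (by positivity)]
    apply ENNReal.ofReal_le_ofReal
    set s := ⟪f (u₀ + r⁻¹ • z), f u₀⟫ with hsdef
    have hD0 : 0 ≤ D (u₀ + r⁻¹ • z) := Real.sqrt_nonneg _
    have hge := K_ge m (mul_pos hr hs).le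
    have hnn : ‖r • (f (u₀ + r⁻¹ • z) - f u₀)‖ ^ 2 = r ^ 2 * (2 * (1 - s)) := by
      rw [norm_smul, mul_pow, Real.norm_eq_abs, sq_abs, @norm_sub_sq ℝ, hn _ (hsub hb), hn _ hu]
      simp only [RCLike.re_to_real, ← hsdef]
      ring
    rw [hnn]
    have hexp : Real.exp (-(r ^ 2 * (2 * (1 - s)) / 2 * (1 + s)) / 2) *
        Real.exp (-(r * s) ^ 2 / 2) = Real.exp (-r ^ 2 / 2) := by
      rw [← Real.exp_add]
      congr 1
      ring
    have hri : r⁻¹ ^ m * (r * s) ^ m = s ^ m := by
      rw [← mul_pow, ← mul_assoc, inv_mul_cancel₀ hr.ne', one_mul]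
    calc s ^ m * (Real.exp (-(r ^ 2 * (2 * (1 - s)) / 2 * (1 + s)) / 2) *
          (Real.exp (-(r * s) ^ 2 / 2) * K 0 (r * s))) * D (u₀ + r⁻¹ • z)
        = r⁻¹ ^ m * (Real.exp (-r ^ 2 / 2) * ((r * s) ^ m * K 0 (r * s)) *
            D (u₀ + r⁻¹ • z)) := by
          rw [← hexp, ← hri]; ring
      _ ≤ r⁻¹ ^ m * (Real.exp (-r ^ 2 / 2) * K m (r * s) * D (u₀ + r⁻¹ • z)) := by
          apply mul_le_mul_of_nonneg_left _ (by positivity)
          apply mul_le_mul_of_nonneg_right _ hD0
          exact mul_le_mul_of_nonneg_left hge (Real.exp_pos _).le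
  -- Fatou
  have hfatou := lintegral_liminf_le' (μ := (volume : Measure (EuclideanSpace ℝ (Fin m))))
    (f := KK) (u := (atTop : Filter ℝ)) hmeas
  have hle : ENNReal.ofReal ((2 * Real.pi) ^ (((m : ℝ) + 1) / 2)) ≤
      liminf (fun r => ∫⁻ z, KK r z) atTop := by
    rw [← lint_linear_exp hm L hinj]
    exact (lintegral_mono hliminf).trans hfatou
  have hs0 : 0 < (2 * Real.pi) ^ (((m : ℝ) + 1) / 2) := by positivity
  have hlt : ENNReal.ofReal ((1 - ε) * (2 * Real.pi) ^ (((m : ℝ) + 1) / 2)) <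
      liminf (fun r => ∫⁻ z, KK r z) atTop := by
    refine lt_of_lt_of_le ?_ hle
    rw [ENNReal.ofReal_lt_ofReal_iff hs0]
    nlinarith
  have hev := eventually_lt_of_lt_liminf hlt
  filter_upwards [hev, eventually_gt_atTop (0 : ℝ)] with r h1 hr
  have h2 : ∫⁻ z, KK r z = ∫⁻ u in Metric.ball u₀ δ, g r u := by
    rw [← lintegral_indicator Metric.isOpen_ball.measurableSet]
    rw [lint_scale u₀ (inv_pos.mpr hr) ((Metric.ball u₀ δ).indicator (g r)),
      ← lintegral_const_mul' _ _ ENNReal.ofReal_ne_top]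
  rw [h2] at h1
  exact h1.le

open Metric Module

variable {V W M : Type*} [NormedAddCommGroup V] [InnerProductSpace ℝ V] [FiniteDimensional ℝ V]
  [NormedAddCommGroup W] [InnerProductSpace ℝ W] [FiniteDimensional ℝ W]
  [TopologicalSpace M] [ChartedSpace V M] {F : M → W}
  [MeasurableSpace V] [BorelSpace V] [MeasurableSpace M] [BorelSpace M]

/-- The Gaussian density at one point. -/
theorem dens_at [IsManifold 𝓘(ℝ, V) ∞ M] (hm : 0 < finrank ℝ V)
    (hW : finrank ℝ W = finrank ℝ V + 2) (hF : SphImm V F) (p : M) {ε : ℝ} (hε : 0 < ε) :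
    ∀ᶠ r : ℝ in atTop,
      ENNReal.ofReal ((1 - ε) * (2 * Real.pi) ^ (((finrank ℝ V : ℝ) + 1) / 2)) ≤
        ∫⁻ x, ENNReal.ofReal (Real.exp (-r ^ 2 / 2) * K (finrank ℝ V) (r * ⟪F x, F p⟫))
          ∂(volM V F) := by
  set χ := chartAt V p with hχ
  have hps := mem_chart_source V p
  have hut : χ p ∈ χ.target := χ.map_source hps
  obtain ⟨δ, hδ, hball⟩ := Metric.isOpen_iff.mp χ.open_target _ hut
  have hI := (immV_rep hF p)
  have hI' := hI.imm hW
  have hsub : Metric.ball (iV V (χ p)) δ ⊆ (iV V).symm ⁻¹' χ.target := by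
    intro u hu
    rw [mem_preimage]
    have : (iV V).symm u ∈ Metric.ball (χ p) δ := by
      rw [mem_ball] at hu ⊢
      rw [← (iV V).symm.dist_map] at hu
      simpa using hu
    exact hball this
  have hmem : iV V (χ p) ∈ (iV V).symm ⁻¹' χ.target := by
    rw [mem_preimage, (iV V).symm_apply_apply]; exact hut
  have hd := dens_local hm (tr hW (rep (V := V) F p)) ((iV V).symm ⁻¹' χ.target) hI'.isOpen
    (iV V (χ p)) hmem (hI'.smooth.of_le (by norm_cast)) hI'.unit (hI'.inj _ hmem) hδ hsub hε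
  filter_upwards [hd] with r hr
  refine hr.trans ?_
  -- lower bound by the chart measure
  have hle : chartMeas (V := V) F p ≤ volM V F := by
    rw [← volM_restrict_source hF p]
    exact Measure.restrict_le_self
  set k : M → ℝ≥0∞ := fun x =>
    ENNReal.ofReal (Real.exp (-r ^ 2 / 2) * K (finrank ℝ V) (r * ⟪F x, F p⟫)) with hk
  have hKm : Measurable k := by
    have hFc : Continuous F := hF.1.continuous
    have hKc : Continuous (K (finrank ℝ V)) := (contDiff_K _).continuous
    have : Continuous fun x => Real.exp (-r ^ 2 / 2) * K (finrank ℝ V) (r * ⟪F x, F p⟫) :=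
      continuous_const.mul (hKc.comp (continuous_const.mul (hFc.inner continuous_const)))
    exact ENNReal.measurable_ofReal.comp this.measurable
  have h1 : ∫⁻ x, k x ∂(chartMeas (V := V) F p) ≤ ∫⁻ x, k x ∂(volM V F) :=
    lintegral_mono' hle le_rfl
  refine le_trans ?_ h1
  have hTm := χ.open_target.measurableSet
  unfold chartMeas
  rw [lintegral_map' hKm.aemeasurable
      (χ.continuousOn_symm.aemeasurable hTm), restrict_withDensity hTm,
      lintegral_withDensity_eq_lintegral_mul₀]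
  · -- compare on the ball
    have h2 : ∫⁻ u in Metric.ball (χ p) δ, ((fun u : V =>
        ENNReal.ofReal (Real.sqrt (metricMat (rep F p) u).det)) *
          fun a => k (χ.symm a)) u ≤
        ∫⁻ u in χ.target, ((fun u : V =>
        ENNReal.ofReal (Real.sqrt (metricMat (rep F p) u).det)) *
          fun a => k (χ.symm a)) u :=
      lintegral_mono_set hball
    refine le_trans ?_ h2
    have hmp : MeasurePreserving (iV V) := (iV V).measurePreserving
    have hme : MeasurableEmbedding (iV V) := (iV V).toHomeomorph.measurableEmbedding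
    have hpre : (iV V) ⁻¹' (Metric.ball (iV V (χ p)) δ) = Metric.ball (χ p) δ := by
      ext u
      rw [mem_preimage, mem_ball, mem_ball, (iV V).dist_map]
    rw [← hmp.setLIntegral_comp_preimage_emb hme, hpre]
    apply setLIntegral_mono_ae' measurableSet_ball
    refine Eventually.of_forall fun u hu => ?_
    rw [Pi.mul_apply]
    have e1 : tr hW (rep (V := V) F p) (iV V u) = iW hW (F (χ.symm u)) := by
      unfold tr rep
      rw [(iV V).symm_apply_apply]
    have e2 : tr hW (rep (V := V) F p) (iV V (χ p)) = iW hW (F p) := by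
      unfold tr rep
      rw [(iV V).symm_apply_apply, χ.left_inv hps]
    have e3 : (Matrix.of fun i j => ⟪fderiv ℝ (tr hW (rep (V := V) F p)) (iV V u)
        (EuclideanSpace.single i 1), fderiv ℝ (tr hW (rep (V := V) F p)) (iV V u)
        (EuclideanSpace.single j 1)⟫) = metricMat (rep F p) u := by
      rw [← G_tr hW (rep F p) u]
      rfl
    rw [e1, e2, e3, (iW hW).inner_map_map, hk]
    beta_reduce
    rw [mul_comm (Real.exp (-r ^ 2 / 2) * _), ENNReal.ofReal_mul (Real.sqrt_nonneg _)]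
  · exact ((measurable_rep_det hF p).aemeasurable hTm).ennreal_ofReal
  · exact hKm.comp_aemeasurable (χ.continuousOn_symm.aemeasurable hTm)

/-- **The Gaussian density of a compact immersed hypersurface at one of its points.** -/
theorem gauss_density [IsManifold 𝓘(ℝ, V) ∞ M] [CompactSpace M] [T2Space M]
    (hm : 0 < finrank ℝ V) (hW : finrank ℝ W = finrank ℝ V + 2) (hF : SphImm V F)
    (z : M) {ε : ℝ} (hε : 0 < ε) :
    ∀ᶠ r : ℝ in atTop, sphereVol (finrank ℝ V) * K (finrank ℝ V) 0 - ε ≤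
        Real.exp (-r ^ 2 / 2) * ∫ x, K (finrank ℝ V) (r * ⟪F x, F z⟫) ∂(volM V F) := by
  have := isFiniteMeasure_volM (V := V) hF
  rw [K_zero]
  set c : ℝ := (2 * Real.pi) ^ (((finrank ℝ V : ℝ) + 1) / 2) with hc
  have hc0 : 0 < c := by positivity
  have hd := dens_at hm hW hF z (ε := ε / c) (by positivity)
  filter_upwards [hd] with r hr
  have hFc : Continuous F := hF.1.continuous
  have hKc : Continuous (K (finrank ℝ V)) := (contDiff_K _).continuous
  have hkc : Continuous fun x => Real.exp (-r ^ 2 / 2) * K (finrank ℝ V) (r * ⟪F x, F z⟫) :=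
    continuous_const.mul (hKc.comp (continuous_const.mul (hFc.inner continuous_const)))
  have hk0 : ∀ x, 0 ≤ Real.exp (-r ^ 2 / 2) * K (finrank ℝ V) (r * ⟪F x, F z⟫) :=
    fun x => mul_nonneg (Real.exp_pos _).le (K_pos _ _).le
  have hki : Integrable (fun x => Real.exp (-r ^ 2 / 2) * K (finrank ℝ V) (r * ⟪F x, F z⟫))
      (volM V F) := by
    obtain ⟨C, hC⟩ := (isCompact_univ (X := M)).exists_bound_of_continuousOn hkc.continuousOn
    exact Integrable.mono' (integrable_const C) hkc.aestronglyMeasurable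
      (Eventually.of_forall fun x => hC x (mem_univ x))
  rw [← ofReal_integral_eq_lintegral_ofReal hki (Eventually.of_forall hk0),
    ENNReal.ofReal_le_ofReal_iff (integral_nonneg hk0), integral_const_mul] at hr
  refine le_trans (le_of_eq ?_) hr
  rw [← hc, sub_mul, one_mul, div_mul_cancel₀ _ hc0.ne']

end Vale.Agent.P224.PM
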