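import Vale.Agent.P224.PM.MainPM

namespace Vale.Agent.P224.PM

open MeasureTheory Set Real Module Vale.Agent.P224 Vale.Agent.P224.FV
open scoped RealInnerProductSpace Manifold ContDiff

/-- comparison of the bound with the Clifford value -/
theorem frac_bound {m : ℕ} (hm : 2 ≤ m) : 0.76 * leastClifford m ≤ 6 / 5 * sphereVol m := by
  have hs := sphereVol_pos' m
  have key : ∀ C : ℝ, C ≤ 1.5789 → leastClifford m ≤ C * sphereVol m →
      0.76 * leastClifford m ≤ 6 / 5 * sphereVol m := by
    intro C h1 h2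
    nlinarith
  rcases Nat.lt_or_ge m 4 with h | h
  · interval_cases m
    · refine key 1.5708 (by norm_num) ?_
      have h1 := even_bound (k := 1) le_rfl (B := 1.5708)
        (by rw [evenRatio_one]; linarith [Real.pi_lt_d6])
      simpa using h1
    · exact key (1 + 0.5525) (by norm_num) ratio3
  · rcases Nat.lt_or_ge m 9 with h9 | h9
    · exact key 1.5036 (by norm_num) (ratio4to8 m h (by omega))
    · rcases Nat.lt_or_ge m 12 with h12 | h12
      · exact key 1.484 (by norm_num) (ratio9to12 m h9 (by omega))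
      · exact key 1.4447 (by norm_num) (ratio12 m h12)

theorem frac_bound' {m : ℕ} (hm : 12 ≤ m) : 0.83 * leastClifford m ≤ 6 / 5 * sphereVol m := by
  have hs := sphereVol_pos' m
  have := ratio12 m hm
  nlinarith

variable {V W M : Type*} [NormedAddCommGroup V] [InnerProductSpace ℝ V] [FiniteDimensional ℝ V]
  [NormedAddCommGroup W] [InnerProductSpace ℝ W] [FiniteDimensional ℝ W]
  [TopologicalSpace M] [ChartedSpace V M]
  [MeasurableSpace V] [BorelSpace V] [MeasurableSpace M] [BorelSpace M]
  [IsManifold 𝓘(ℝ, V) ∞ M] [CompactSpace M] [T2Space M]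

/-- volume gap: six fifths, and the comparison with the Clifford value -/
theorem main_frac [ConnectedSpace M] (hm2 : 2 ≤ finrank ℝ V)
    (hW : finrank ℝ W = finrank ℝ V + 2) {F : M → W}
    (hF : SphImm V F) (hmin : ∀ x n, IsUnitNormal V F x n → meanCurv V F x n = 0)
    (hne : ¬ ∃ a : W, a ≠ 0 ∧ ∀ x, ⟪F x, a⟫ = 0) :
    ENNReal.ofReal (6 / 5 * sphereVol (finrank ℝ V)) ≤ volM V F univ ∧
    ENNReal.ofReal (0.76 * leastClifford (finrank ℝ V)) ≤ volM V F univ ∧
    (12 ≤ finrank ℝ V →
      ENNReal.ofReal (0.83 * leastClifford (finrank ℝ V)) ≤ volM V F univ) := by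
  have h := main_six_fifths hm2 hW hF hmin hne
  exact ⟨h, (ENNReal.ofReal_le_ofReal (frac_bound hm2)).trans h,
    fun h12 => (ENNReal.ofReal_le_ofReal (frac_bound' h12)).trans h⟩

end Vale.Agent.P224.PM
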