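import Mathlib
import Vale.Agent.P224.PM.Ker

/-! Smooth parametric integrals `U j w Y = ∫ w(x) K_j(<F x, Y>) dμ`. -/

namespace Vale.Agent.P224.PM

open MeasureTheory Set Filter Topology
open scoped ContDiff RealInnerProductSpace

variable {X : Type*} [TopologicalSpace X] [CompactSpace X] [MeasurableSpace X] [BorelSpace X]
  {μ : Measure X} [IsFiniteMeasure μ]
  {W : Type*} [NormedAddCommGroup W] [InnerProductSpace ℝ W] [FiniteDimensional ℝ W] {F : X → W}

/-- `U j w Y = ∫ w(x) K_j(<F x, Y>) dμ` -/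
noncomputable def U (μ : Measure X) (F : X → W) (j : ℕ) (w : X → ℝ) (Y : W) : ℝ :=
  ∫ x, w x * K j ⟪F x, Y⟫ ∂μ

omit [CompactSpace X] [MeasurableSpace X] [BorelSpace X] [FiniteDimensional ℝ W] in
lemma ufun_cont (hF : Continuous F) {w : X → ℝ} (hw : Continuous w) (j : ℕ) (Y : W) :
    Continuous fun x => w x * K j ⟪F x, Y⟫ :=
  hw.mul ((contDiff_K j).continuous.comp (hF.inner continuous_const))

omit [FiniteDimensional ℝ W] in
lemma ufun_int (hF : Continuous F) {w : X → ℝ} (hw : Continuous w) (j : ℕ) (Y : W) :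
    Integrable (fun x => w x * K j ⟪F x, Y⟫) μ :=
  (ufun_cont hF hw j Y).integrable_of_hasCompactSupport (HasCompactSupport.of_compactSpace _)

omit [MeasurableSpace X] [BorelSpace X] in
lemma ufun_bound (hF : Continuous F) {w : X → ℝ} (hw : Continuous w) (j : ℕ) (Y₀ : W) :
    ∃ C : ℝ, ∀ x, ∀ Y ∈ Metric.ball Y₀ 1, ‖(w x * K (j + 1) ⟪F x, Y⟫) • innerSL ℝ (F x)‖ ≤ C := by
  have hcont : Continuous fun z : X × W =>
      ‖(w z.1 * K (j + 1) ⟪F z.1, z.2⟫) • innerSL ℝ (F z.1)‖ := by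
    have h1 : Continuous fun z : X × W => ⟪F z.1, z.2⟫ :=
      (hF.comp continuous_fst).inner continuous_snd
    have h2 : Continuous fun z : X × W => K (j + 1) ⟪F z.1, z.2⟫ :=
      (contDiff_K (j + 1)).continuous.comp h1
    have h3 : Continuous fun z : X × W => innerSL ℝ (F z.1) :=
      (innerSL ℝ).continuous.comp (hF.comp continuous_fst)
    exact (((hw.comp continuous_fst).mul h2).smul h3).norm
  have hK : IsCompact ((univ : Set X) ×ˢ Metric.closedBall Y₀ 1) :=
    isCompact_univ.prod (isCompact_closedBall Y₀ 1)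
  obtain ⟨C, hC⟩ := (hK.image hcont).bddAbove
  refine ⟨C, fun x Y hY => hC ⟨(x, Y), ⟨mem_univ _, Metric.ball_subset_closedBall hY⟩, rfl⟩⟩

lemma ufun_hasFDerivAt (hF : Continuous F) {w : X → ℝ} (hw : Continuous w) (j : ℕ) (Y : W) :
    HasFDerivAt (U μ F j w) (∫ x, (w x * K (j + 1) ⟪F x, Y⟫) • innerSL ℝ (F x) ∂μ) Y := by
  obtain ⟨C, hC⟩ := ufun_bound hF hw j Y
  have hc : ∀ Y : W, Continuous fun x => (w x * K (j + 1) ⟪F x, Y⟫) • innerSL ℝ (F x) :=
    fun Y => (ufun_cont hF hw (j + 1) Y).smul ((innerSL ℝ).continuous.comp hF)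
  refine hasFDerivAt_integral_of_dominated_of_fderiv_le (bound := fun _ => C)
    (F' := fun Y x => (w x * K (j + 1) ⟪F x, Y⟫) • innerSL ℝ (F x))
    (Metric.ball_mem_nhds Y one_pos) ?_ (ufun_int hF hw j Y) ?_ ?_ (integrable_const C) ?_
  · exact Eventually.of_forall fun Y => (ufun_int hF hw j Y).aestronglyMeasurable
  · exact ((hc Y).integrable_of_hasCompactSupport
      (HasCompactSupport.of_compactSpace _)).aestronglyMeasurable
  · exact Eventually.of_forall fun x Z hZ => hC x Z hZ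
  · refine Eventually.of_forall fun x Z _ => ?_
    have h1 : HasFDerivAt (fun Y : W => ⟪F x, Y⟫) (innerSL ℝ (F x)) Z :=
      (innerSL ℝ (F x)).hasFDerivAt
    have h2 := (hasDerivAt_K j ⟪F x, Z⟫).comp_hasFDerivAt Z h1
    have h3 := h2.const_mul (w x)
    rw [smul_smul] at h3
    exact h3

lemma U_deriv (hF : Continuous F) {w : X → ℝ} (hw : Continuous w) (j : ℕ) (Y : W) :
    ∃ D : W →L[ℝ] ℝ, HasFDerivAt (U μ F j w) D Y ∧
      ∀ v, D v = U μ F (j + 1) (fun x => w x * ⟪F x, v⟫) Y := by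
  refine ⟨_, ufun_hasFDerivAt hF hw j Y, fun v => ?_⟩
  have hi : Integrable (fun x => (w x * K (j + 1) ⟪F x, Y⟫) • innerSL ℝ (F x)) μ :=
    ((ufun_cont hF hw (j + 1) Y).smul
      ((innerSL ℝ).continuous.comp hF)).integrable_of_hasCompactSupport
        (HasCompactSupport.of_compactSpace _)
  rw [ContinuousLinearMap.integral_apply hi, U]
  refine integral_congr_ae (Eventually.of_forall fun x => ?_)
  show (w x * K (j + 1) ⟪F x, Y⟫) * ⟪F x, v⟫ = _
  ring

lemma fderiv_U (hF : Continuous F) {w : X → ℝ} (hw : Continuous w) (j : ℕ) (Y v : W) :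
    fderiv ℝ (U μ F j w) Y v = U μ F (j + 1) (fun x => w x * ⟪F x, v⟫) Y := by
  obtain ⟨D, hD, hv⟩ := U_deriv (μ := μ) hF hw j Y
  rw [hD.fderiv, hv]

lemma contDiff_U_nat (hF : Continuous F) (n : ℕ) : ∀ {w : X → ℝ} (_ : Continuous w) (j : ℕ),
    ContDiff ℝ n (U μ F j w) := by
  induction n with
  | zero =>
    intro w hw j
    rw [Nat.cast_zero, contDiff_zero, continuous_iff_continuousAt]
    exact fun Y => (ufun_hasFDerivAt hF hw j Y).continuousAt
  | succ n ih =>
    intro w hw j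
    rw [Nat.cast_succ, contDiff_succ_iff_fderiv_apply]
    refine ⟨fun Y => (ufun_hasFDerivAt hF hw j Y).differentiableAt, fun h => ?_, fun v => ?_⟩
    · exact absurd h (by simp)
    · have h1 : (fun Y => fderiv ℝ (U μ F j w) Y v) = U μ F (j + 1) (fun x => w x * ⟪F x, v⟫) :=
        funext fun Y => fderiv_U hF hw j Y v
      rw [h1]
      exact ih (hw.mul (hF.inner continuous_const)) (j + 1)

lemma contDiff_U (hF : Continuous F) {w : X → ℝ} (hw : Continuous w) (j : ℕ) :
    ContDiff ℝ ∞ (U μ F j w) :=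
  contDiff_infty.2 fun n => contDiff_U_nat hF n hw j

lemma hasDerivAt_U_ray (hF : Continuous F) {w : X → ℝ} (hw : Continuous w) (j : ℕ) (z : W)
    (r : ℝ) :
    HasDerivAt (fun r : ℝ => U μ F j w (r • z))
      (U μ F (j + 1) (fun x => w x * ⟪F x, z⟫) (r • z)) r := by
  obtain ⟨D, hD, hv⟩ := U_deriv (μ := μ) hF hw j (r • z)
  have h1 : HasDerivAt (fun r : ℝ => r • z) z r := by
    simpa using (hasDerivAt_id r).smul_const z
  have h2 := hD.comp_hasDerivAt r h1
  rw [hv] at h2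
  exact h2

end Vale.Agent.P224.PM
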