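import Vale.Agent.P224.FV.Ident
import Vale.Agent.P224.PM.UFun

namespace Vale.Agent.P224.PM

open Matrix MeasureTheory Module Function Set Vale.Agent.P224 Vale.Agent.P224.FV
open scoped RealInnerProductSpace Topology ContDiff Manifold

set_option linter.unusedSectionVars false

section Lin

variable {X : Type*} [TopologicalSpace X] [CompactSpace X] [MeasurableSpace X] [BorelSpace X]
  {μ : Measure X} [IsFiniteMeasure μ]
  {W : Type*} [NormedAddCommGroup W] [InnerProductSpace ℝ W] [FiniteDimensional ℝ W] {F : X → W}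

lemma U_add (hF : Continuous F) {v w : X → ℝ} (hv : Continuous v) (hw : Continuous w) (j : ℕ)
    (Y : W) : U μ F j (fun x => v x + w x) Y = U μ F j v Y + U μ F j w Y := by
  unfold U
  rw [← integral_add (ufun_int hF hv j Y) (ufun_int hF hw j Y)]
  exact integral_congr_ae (Filter.Eventually.of_forall fun x => by ring)

lemma U_sub (hF : Continuous F) {v w : X → ℝ} (hv : Continuous v) (hw : Continuous w) (j : ℕ)
    (Y : W) : U μ F j (fun x => v x - w x) Y = U μ F j v Y - U μ F j w Y := by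
  unfold U
  rw [← integral_sub (ufun_int hF hv j Y) (ufun_int hF hw j Y)]
  exact integral_congr_ae (Filter.Eventually.of_forall fun x => by ring)

lemma U_mul (c : ℝ) (w : X → ℝ) (j : ℕ)
    (Y : W) : U μ F j (fun x => c * w x) Y = c * U μ F j w Y := by
  unfold U
  rw [← integral_const_mul]
  exact integral_congr_ae (Filter.Eventually.of_forall fun x => by ring)

lemma U_sum {ι : Type*} (s : Finset ι) (hF : Continuous F) {w : ι → X → ℝ}
    (hw : ∀ i, Continuous (w i)) (j : ℕ)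
    (Y : W) : U μ F j (fun x => ∑ i ∈ s, w i x) Y = ∑ i ∈ s, U μ F j (w i) Y := by
  unfold U
  rw [← integral_finsetSum s (fun i _ => ufun_int hF (hw i) j Y)]
  exact integral_congr_ae (Filter.Eventually.of_forall fun x => by simp only [Finset.sum_mul])

lemma U_congr {v w : X → ℝ} (h : ∀ x, v x = w x) (j : ℕ) (Y : W) :
    U μ F j v Y = U μ F j w Y := by
  rw [show v = w from funext h]

/-- the recursion of the kernels -/
lemma U_rec (hF : Continuous F) {w : X → ℝ} (hw : Continuous w) (j : ℕ) (y : W) (r : ℝ) :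
    U μ F (j + 2) w (r • y) = r * U μ F (j + 1) (fun x => w x * ⟪F x, y⟫) (r • y)
      + ((j : ℝ) + 1) * U μ F j w (r • y) := by
  rw [← U_mul, ← U_mul]
  unfold U
  rw [← integral_add]
  · refine integral_congr_ae (Filter.Eventually.of_forall fun x => ?_)
    simp only
    rw [K_rec, real_inner_smul_right]
    ring
  · exact ufun_int hF (continuous_const.mul (hw.mul (hF.inner continuous_const))) _ _
  · exact ufun_int hF (continuous_const.mul hw) _ _

end Lin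

section

variable {V W M : Type*} [NormedAddCommGroup V] [InnerProductSpace ℝ V] [FiniteDimensional ℝ V]
  [NormedAddCommGroup W] [InnerProductSpace ℝ W] [FiniteDimensional ℝ W]
  [TopologicalSpace M] [ChartedSpace V M]
  [MeasurableSpace V] [BorelSpace V] [MeasurableSpace M] [BorelSpace M]

lemma kc (l : ℕ) (r : ℝ) : ContDiff ℝ ∞ (fun t : ℝ => K l (r * t)) :=
  (contDiff_K l).comp (contDiff_const.mul contDiff_id)

lemma kd (l : ℕ) (r t : ℝ) : HasDerivAt (fun t : ℝ => K l (r * t)) (r * K (l + 1) (r * t)) t := by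
  have h1 : HasDerivAt (fun t : ℝ => r * t) r t := by
    simpa using (hasDerivAt_id t).const_mul r
  have h2 := (hasDerivAt_K l (r * t)).comp t h1
  rw [mul_comm] at h2
  exact h2

variable [IsManifold 𝓘(ℝ, V) ∞ M] [CompactSpace M] [T2Space M]

/-- first identity -/
theorem idA (hm : 0 < finrank ℝ V) (hW : finrank ℝ W = finrank ℝ V + 2) {F : M → W}
    (hF : SphImm V F) (hmin : ∀ x n, IsUnitNormal V F x n → meanCurv V F x n = 0)
    (hV : VolChart V F) [IsFiniteMeasure (volM V F)] {N : M → W} (hNs : ContMDiff 𝓘(ℝ, V) 𝓘(ℝ, W) ∞ N)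
    (hN : ∀ x, IsUnitNormal V F x (N x)) {y : W} (hy : ‖y‖ = 1) (r : ℝ) :
    U (volM V F) F (finrank ℝ V + 1) (fun x => ⟪F x, y⟫) (r • y)
      = r * U (volM V F) F (finrank ℝ V) (fun _ => 1) (r • y)
        - r * U (volM V F) F (finrank ℝ V) (fun x => ⟪N x, y⟫ ^ 2) (r • y) := by
  obtain ⟨l, hl⟩ : ∃ l, finrank ℝ V = l + 1 := ⟨finrank ℝ V - 1, by omega⟩
  have h1 := ident1 hW hF hmin hV hN hy (w := fun t => K l (r * t))
    (fun p => (kc l r).contDiffAt)
  have hcF : Continuous F := hF.smooth.continuous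
  have hcN : Continuous N := hNs.continuous
  have hd : ∀ t, deriv (fun t => K l (r * t)) t = r * K (l + 1) (r * t) := fun t =>
    (kd l r t).deriv
  have hl' : ((finrank ℝ V : ℕ) : ℝ) = (l : ℝ) + 1 := by rw [hl]; push_cast; ring
  simp only [hd] at h1
  rw [hl'] at h1
  rw [hl]
  have e1 : ∫ p, r * K (l + 1) (r * ⟪F p, y⟫) * (1 - ⟪F p, y⟫ ^ 2 - ⟪N p, y⟫ ^ 2) ∂(volM V F)
      = r * U (volM V F) F (l + 1) (fun _ => 1) (r • y)
        - r * U (volM V F) F (l + 1) (fun x => ⟪N x, y⟫ ^ 2) (r • y)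
        - r * U (volM V F) F (l + 1) (fun x => ⟪F x, y⟫ ^ 2) (r • y) := by
    rw [← U_mul, ← U_mul, ← U_mul, ← U_sub hcF (by fun_prop) (by fun_prop),
      ← U_sub hcF (by fun_prop) (by fun_prop)]
    unfold U
    refine integral_congr_ae (Filter.Eventually.of_forall fun x => ?_)
    simp only
    rw [real_inner_smul_right]
    ring
  have e2 : ((l : ℝ) + 1) * ∫ p, ⟪F p, y⟫ * K l (r * ⟪F p, y⟫) ∂(volM V F)
      = ((l : ℝ) + 1) * U (volM V F) F l (fun x => ⟪F x, y⟫) (r • y) := by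
    unfold U
    congr 1
    refine integral_congr_ae (Filter.Eventually.of_forall fun x => ?_)
    simp only
    rw [real_inner_smul_right]
  rw [e1, e2] at h1
  have h2 := U_rec (μ := volM V F) hcF (w := fun x => ⟪F x, y⟫) (by fun_prop) l y r
  have h3 : U (volM V F) F (l + 1) (fun x => ⟪F x, y⟫ * ⟪F x, y⟫) (r • y)
      = U (volM V F) F (l + 1) (fun x => ⟪F x, y⟫ ^ 2) (r • y) := U_congr (fun x => by ring) _ _
  rw [h3] at h2
  rw [show l + 1 + 1 = l + 2 from rfl]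
  linarith

/-- second identity -/
theorem idB (hm : 0 < finrank ℝ V) (hW : finrank ℝ W = finrank ℝ V + 2) {F : M → W}
    (hF : SphImm V F) (hmin : ∀ x n, IsUnitNormal V F x n → meanCurv V F x n = 0)
    (hV : VolChart V F) [IsFiniteMeasure (volM V F)] {N : M → W} (hNs : ContMDiff 𝓘(ℝ, V) 𝓘(ℝ, W) ∞ N)
    (hN : ∀ x, IsUnitNormal V F x (N x)) {y b : W} (hy : ‖y‖ = 1) (hyb : ⟪y, b⟫ = 0) (r : ℝ) :
    U (volM V F) F (finrank ℝ V + 1) (fun x => ⟪N x, b⟫ * ⟪F x, y⟫) (r • y)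
      = r * U (volM V F) F (finrank ℝ V) (fun x => ⟪N x, b⟫) (r • y)
        + U (volM V F) F (finrank ℝ V + 1) (fun x => ⟪N x, y⟫ * ⟪F x, b⟫) (r • y) := by
  obtain ⟨l, hl⟩ : ∃ l, finrank ℝ V = l + 1 := ⟨finrank ℝ V - 1, by omega⟩
  have h1 := ident2 hW hF hmin hV hNs hN hy hyb (w := fun t => K l (r * t))
    (fun p => (kc l r).contDiffAt)
  have hcF : Continuous F := hF.smooth.continuous
  have hcN : Continuous N := hNs.continuous
  have hd : ∀ t, deriv (fun t => K l (r * t)) t = r * K (l + 1) (r * t) := fun t =>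
    (kd l r t).deriv
  have hl' : ((finrank ℝ V : ℕ) : ℝ) = (l : ℝ) + 1 := by rw [hl]; push_cast; ring
  simp only [hd] at h1
  rw [hl'] at h1
  rw [hl]
  have e1 : ∫ p, r * K (l + 1) (r * ⟪F p, y⟫) * (⟪N p, b⟫ * (1 - ⟪F p, y⟫ ^ 2)
        + ⟪N p, y⟫ * ⟪F p, b⟫ * ⟪F p, y⟫) ∂(volM V F)
      = r * U (volM V F) F (l + 1) (fun x => ⟪N x, b⟫) (r • y)
        - r * U (volM V F) F (l + 1) (fun x => (⟪F x, y⟫ * ⟪N x, b⟫ - ⟪N x, y⟫ * ⟪F x, b⟫)
          * ⟪F x, y⟫) (r • y) := by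
    rw [← U_mul, ← U_mul, ← U_sub hcF (by fun_prop) (by fun_prop)]
    unfold U
    refine integral_congr_ae (Filter.Eventually.of_forall fun x => ?_)
    simp only
    rw [real_inner_smul_right]
    ring
  have e2 : ((l : ℝ) + 1) * ∫ p, (⟪F p, y⟫ * ⟪N p, b⟫ - ⟪N p, y⟫ * ⟪F p, b⟫)
        * K l (r * ⟪F p, y⟫) ∂(volM V F)
      = ((l : ℝ) + 1) * U (volM V F) F l
        (fun x => ⟪F x, y⟫ * ⟪N x, b⟫ - ⟪N x, y⟫ * ⟪F x, b⟫) (r • y) := by
    unfold U
    congr 1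
    refine integral_congr_ae (Filter.Eventually.of_forall fun x => ?_)
    simp only
    rw [real_inner_smul_right]
  rw [e1, e2] at h1
  have h2 := U_rec (μ := volM V F) hcF
    (w := fun x => ⟪F x, y⟫ * ⟪N x, b⟫ - ⟪N x, y⟫ * ⟪F x, b⟫) (by fun_prop) l y r
  have h3 : U (volM V F) F (l + 2) (fun x => ⟪F x, y⟫ * ⟪N x, b⟫ - ⟪N x, y⟫ * ⟪F x, b⟫) (r • y)
      = U (volM V F) F (l + 2) (fun x => ⟪N x, b⟫ * ⟪F x, y⟫) (r • y)
        - U (volM V F) F (l + 2) (fun x => ⟪N x, y⟫ * ⟪F x, b⟫) (r • y) := by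
    rw [← U_sub hcF (by fun_prop) (by fun_prop)]
    exact U_congr (fun x => by ring) _ _
  rw [show l + 1 + 1 = l + 2 from rfl]
  linarith

/-- third identity -/
theorem idC (hm : 0 < finrank ℝ V) (hW : finrank ℝ W = finrank ℝ V + 2) {F : M → W}
    (hF : SphImm V F) (hmin : ∀ x n, IsUnitNormal V F x n → meanCurv V F x n = 0)
    (hV : VolChart V F) [IsFiniteMeasure (volM V F)] {N : M → W} (hNs : ContMDiff 𝓘(ℝ, V) 𝓘(ℝ, W) ∞ N)
    (hN : ∀ x, IsUnitNormal V F x (N x)) {y a : W} (hya : ⟪a, y⟫ = 0) (r : ℝ) :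
    U (volM V F) F (finrank ℝ V + 1) (fun x => ⟪F x, a⟫) (r • y)
      = - r * U (volM V F) F (finrank ℝ V) (fun x => ⟪N x, y⟫ * ⟪N x, a⟫) (r • y) := by
  obtain ⟨l, hl⟩ : ∃ l, finrank ℝ V = l + 1 := ⟨finrank ℝ V - 1, by omega⟩
  have hsm := smooth_comp (smooth_inner hF.smooth y) (w := fun t => K l (r * t))
    (fun p => (kc l r).contDiffAt)
  have h1 := first_variation hW hF hmin hV a hsm
  have hcF : Continuous F := hF.smooth.continuous
  have hcN : Continuous N := hNs.continuous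
  have hl' : ((finrank ℝ V : ℕ) : ℝ) = (l : ℝ) + 1 := by rw [hl]; push_cast; ring
  have e0 : ∀ p, dl V F a (fun q => K l (r * ⟪F q, y⟫)) p
      = r * K (l + 1) (r * ⟪F p, y⟫) * (- (⟪F p, a⟫ * ⟪F p, y⟫) - ⟪N p, a⟫ * ⟪N p, y⟫) := by
    intro p
    rw [dl_comp (w := fun t => K l (r * t)) a (smooth_inner hF.smooth y) p (kd l r _),
      dl_inner a hF.smooth, dl_F hW hF hN]
    simp only [inner_sub_left, real_inner_smul_left]
    rw [real_inner_comm (F p) a, real_inner_comm (N p) a, hya]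
    ring
  simp only [e0] at h1
  rw [hl'] at h1
  rw [hl]
  have e1 : ∫ p, r * K (l + 1) (r * ⟪F p, y⟫) * (- (⟪F p, a⟫ * ⟪F p, y⟫) - ⟪N p, a⟫ * ⟪N p, y⟫)
        ∂(volM V F)
      = - r * U (volM V F) F (l + 1) (fun x => ⟪F x, a⟫ * ⟪F x, y⟫) (r • y)
        - r * U (volM V F) F (l + 1) (fun x => ⟪N x, y⟫ * ⟪N x, a⟫) (r • y) := by
    rw [← U_mul, ← U_mul, ← U_sub hcF (by fun_prop) (by fun_prop)]
    unfold U
    refine integral_congr_ae (Filter.Eventually.of_forall fun x => ?_)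
    simp only
    rw [real_inner_smul_right]
    ring
  have e2 : ((l : ℝ) + 1) * ∫ p, ⟪a, F p⟫ * K l (r * ⟪F p, y⟫) ∂(volM V F)
      = ((l : ℝ) + 1) * U (volM V F) F l (fun x => ⟪F x, a⟫) (r • y) := by
    unfold U
    congr 1
    refine integral_congr_ae (Filter.Eventually.of_forall fun x => ?_)
    simp only
    rw [real_inner_smul_right, real_inner_comm (F x) a]
  rw [e1, e2] at h1
  have h2 := U_rec (μ := volM V F) hcF (w := fun x => ⟪F x, a⟫) (by fun_prop) l y r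
  rw [show l + 1 + 1 = l + 2 from rfl]
  linarith

/-- fourth identity -/
theorem idD (hW : finrank ℝ W = finrank ℝ V + 2) {F : M → W}
    (hF : SphImm V F) (hmin : ∀ x n, IsUnitNormal V F x n → meanCurv V F x n = 0)
    (hV : VolChart V F) [IsFiniteMeasure (volM V F)] {N : M → W} (hNs : ContMDiff 𝓘(ℝ, V) 𝓘(ℝ, W) ∞ N)
    (hN : ∀ x, IsUnitNormal V F x (N x)) {y a : W} (hya : ⟪a, y⟫ = 0) (r : ℝ) :
    U (volM V F) F (finrank ℝ V + 2) (fun x => ⟪F x, a⟫ ^ 2) (r • y)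
      + r * U (volM V F) F (finrank ℝ V + 1) (fun x => ⟪N x, y⟫ * ⟪F x, a⟫ * ⟪N x, a⟫) (r • y)
      + U (volM V F) F (finrank ℝ V) (fun x => ⟪N x, a⟫ ^ 2) (r • y)
      = ‖a‖ ^ 2 * U (volM V F) F (finrank ℝ V) (fun _ => 1) (r • y) := by
  set m := finrank ℝ V with hmdef
  have hs1 := smooth_comp (smooth_inner hF.smooth y) (w := fun t => K m (r * t))
    (fun p => (kc m r).contDiffAt)
  have hs2 := smooth_inner hF.smooth a
  have hsm : ContMDiff 𝓘(ℝ, V) 𝓘(ℝ, ℝ) ∞ (fun q => ⟪F q, a⟫ * K m (r * ⟪F q, y⟫)) := hs2.mul hs1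
  have h1 := first_variation hW hF hmin hV a hsm
  have hcF : Continuous F := hF.smooth.continuous
  have hcN : Continuous N := hNs.continuous
  have e0 : ∀ p, dl V F a (fun q => ⟪F q, a⟫ * K m (r * ⟪F q, y⟫)) p
      = (‖a‖ ^ 2 - ⟪F p, a⟫ ^ 2 - ⟪N p, a⟫ ^ 2) * K m (r * ⟪F p, y⟫)
        + ⟪F p, a⟫ * (r * K (m + 1) (r * ⟪F p, y⟫) * (- (⟪F p, a⟫ * ⟪F p, y⟫)
          - ⟪N p, a⟫ * ⟪N p, y⟫)) := by
    intro p
    rw [dl_mul a hs2 hs1,
      dl_comp (w := fun t => K m (r * t)) a (smooth_inner hF.smooth y) p (kd m r _),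
      dl_inner a hF.smooth, dl_inner a hF.smooth, dl_F hW hF hN]
    simp only [inner_sub_left, real_inner_smul_left, real_inner_self_eq_norm_sq]
    rw [real_inner_comm (F p) a, real_inner_comm (N p) a, hya]
    ring
  simp only [e0] at h1
  have e1 : ∫ p, ((‖a‖ ^ 2 - ⟪F p, a⟫ ^ 2 - ⟪N p, a⟫ ^ 2) * K m (r * ⟪F p, y⟫)
        + ⟪F p, a⟫ * (r * K (m + 1) (r * ⟪F p, y⟫) * (- (⟪F p, a⟫ * ⟪F p, y⟫)
          - ⟪N p, a⟫ * ⟪N p, y⟫))) ∂(volM V F)
      = U (volM V F) F m (fun x => ‖a‖ ^ 2 * 1 - ⟪F x, a⟫ ^ 2 - ⟪N x, a⟫ ^ 2) (r • y)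
        + U (volM V F) F (m + 1) (fun x => - r * (⟪F x, a⟫ ^ 2 * ⟪F x, y⟫)
          - r * (⟪N x, y⟫ * ⟪F x, a⟫ * ⟪N x, a⟫)) (r • y) := by
    unfold U
    rw [← integral_add (ufun_int hcF (by fun_prop) _ _) (ufun_int hcF (by fun_prop) _ _)]
    refine integral_congr_ae (Filter.Eventually.of_forall fun x => ?_)
    simp only
    rw [real_inner_smul_right]
    ring
  have e2 : (m : ℝ) * ∫ p, ⟪a, F p⟫ * (⟪F p, a⟫ * K m (r * ⟪F p, y⟫)) ∂(volM V F)
      = (m : ℝ) * U (volM V F) F m (fun x => ⟪F x, a⟫ ^ 2) (r • y) := by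
    unfold U
    congr 1
    refine integral_congr_ae (Filter.Eventually.of_forall fun x => ?_)
    simp only
    rw [real_inner_smul_right, real_inner_comm (F x) a]
    ring
  rw [e1, e2, U_sub hcF (by fun_prop) (by fun_prop), U_sub hcF (by fun_prop) (by fun_prop),
    U_sub hcF (by fun_prop) (by fun_prop), U_mul, U_mul, U_mul] at h1
  have h2 := U_rec (μ := volM V F) hcF (w := fun x => ⟪F x, a⟫ ^ 2) (by fun_prop) m y r
  linarith

end

end Vale.Agent.P224.PM
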