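import Vale.Agent.P224.Gap.SysM
import Vale.Agent.P224.PM.Idents

namespace Vale.Agent.P224.Gap.Sys

open Finset

variable {ι 𝒜 : Type*} [Fintype ι] [DecidableEq ι] [CommRing 𝒜] [Algebra ℝ 𝒜]
variable {D : ι → Derivation ℝ 𝒜 𝒜} {F N : ι → 𝒜}
variable (h : Sys D F N)
include h

/-- the Laplacian of the position -/
lemma lapF (b : ι) : ∑ a, D a (D a (F b)) = - (((Fintype.card ι : 𝒜) - 2) * F b) := by
  have e1 : ∀ a, D a (D a (F b)) = - (D a (F a) * F b) - F a * D a (F b)
      - (D a (N a) * N b) - N a * D a (N b) := by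
    intro a
    have hc : D a (if a = b then (1 : 𝒜) else 0) = 0 := by
      split_ifs
      · exact (D a).map_one_eq_zero
      · exact map_zero _
    rw [h.DF a b, map_sub, map_sub, hc]
    simp only [Derivation.leibniz, smul_eq_mul]
    rw [h.DF a b]
    ring
  simp only [e1, sum_sub_distrib, sum_neg_distrib, ← sum_mul, h.sum_DF, h.FD, h.ND, h.tr]
  ring

lemma DF_DF (b c : ι) : ∑ a, D a (F b) * D a (F c) = D b (F c) := by
  have e1 : ∀ a, D a (F b) * D a (F c) = (if a = b then D a (F c) else 0)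
      - F b * (F a * D a (F c)) - N b * (N a * D a (F c)) := by
    intro a
    rw [h.DF a b]
    split_ifs <;> ring
  simp only [e1, sum_sub_distrib, ← mul_sum, h.FD, h.ND, sum_ite_eq', mem_univ, if_true]
  ring

/-- Laplacian of a function of the position -/
lemma lap_g {r : ℝ} {g : 𝒜} {g1 : ι → 𝒜} {g2 : ι → ι → 𝒜}
    (hg : ∀ a, D a g = r • ∑ b, D a (F b) * g1 b)
    (hg1 : ∀ a b, D a (g1 b) = r • ∑ c, D a (F c) * g2 b c) :
    ∑ a, D a (D a g) = r ^ 2 • (∑ b, g2 b b - ∑ b, ∑ c, F b * F c * g2 b c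
      - ∑ b, ∑ c, N b * N c * g2 b c)
      - r • (((Fintype.card ι : 𝒜) - 2) * ∑ b, F b * g1 b) := by
  have e1 : ∀ a, D a (D a g) = r • ∑ b, (g1 b * D a (D a (F b))
      + r • ∑ c, g2 b c * (D a (F b) * D a (F c))) := by
    intro a
    rw [hg a]
    simp only [Derivation.map_smul, map_sum, Derivation.leibniz, smul_eq_mul]
    congr 1
    refine sum_congr rfl fun b _ => ?_
    rw [hg1 a b, mul_smul_comm, mul_sum, add_comm]
    congr 2
    exact sum_congr rfl fun c _ => by ring
  have e2 : ∑ a, D a (D a g) = r • (∑ b, g1 b * ∑ a, D a (D a (F b)))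
      + r • r • ∑ b, ∑ c, g2 b c * ∑ a, D a (F b) * D a (F c) := by
    simp only [e1, ← smul_sum, sum_add_distrib, smul_add, mul_sum]
    congr 1
    · congr 1
      rw [sum_comm]
    · congr 2
      rw [sum_comm]
      refine sum_congr rfl fun b _ => ?_
      rw [sum_comm]
  rw [e2]
  simp only [h.lapF, h.DF_DF]
  have e3 : ∑ b, g1 b * -(((Fintype.card ι : 𝒜) - 2) * F b)
      = - (((Fintype.card ι : 𝒜) - 2) * ∑ b, F b * g1 b) := by
    rw [mul_sum, ← sum_neg_distrib]
    exact sum_congr rfl fun b _ => by ring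
  have e4 : ∑ b, ∑ c, g2 b c * D b (F c) = ∑ b, g2 b b - ∑ b, ∑ c, F b * F c * g2 b c
      - ∑ b, ∑ c, N b * N c * g2 b c := by
    rw [← sum_sub_distrib, ← sum_sub_distrib]
    refine sum_congr rfl fun b _ => ?_
    have e5 : ∀ c, g2 b c * D b (F c) = (if b = c then g2 b c else 0) - F b * F c * g2 b c
        - N b * N c * g2 b c := by
      intro c
      rw [h.DF b c]
      split_ifs <;> ring
    simp only [e5, sum_sub_distrib, sum_ite_eq, mem_univ, if_true]
  rw [e3, e4, smul_smul, ← pow_two, smul_neg]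
  abel

end Vale.Agent.P224.Gap.Sys
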