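import Vale.Agent.P224.PM.Lap

namespace Vale.Agent.P224.PM

open Matrix MeasureTheory Module Function Set Vale.Agent.P224 Vale.Agent.P224.FV Vale.Agent.P224.Gap
open scoped RealInnerProductSpace Topology ContDiff Manifold

set_option linter.unusedSectionVars false

section

variable {V W M : Type*} [NormedAddCommGroup V] [InnerProductSpace ℝ V] [FiniteDimensional ℝ V]
  [NormedAddCommGroup W] [InnerProductSpace ℝ W] [FiniteDimensional ℝ W]
  [TopologicalSpace M] [ChartedSpace V M] [MeasurableSpace M] [BorelSpace M]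
  [IsManifold 𝓘(ℝ, V) ∞ M] [CompactSpace M] {μ : Measure M} [IsFiniteMeasure μ]

lemma smooth_U {F : M → W} (hF : SphImm V F) (j : ℕ) {w : M → ℝ} (hw : Continuous w) (r : ℝ) :
    ContMDiff 𝓘(ℝ, V) 𝓘(ℝ, ℝ) ∞ (fun q => U μ F j w (r • F q)) := by
  have h1 : ContDiff ℝ ∞ (fun y : W => U μ F j w (r • y)) :=
    (contDiff_U (μ := μ) hF.smooth.continuous hw j).comp (contDiff_const_smul r)
  exact h1.comp_contMDiff hF.smooth

variable (V) in
lemma dl_U {F : M → W} (hF : SphImm V F) (a : W) (j : ℕ) {w : M → ℝ} (hw : Continuous w) (r : ℝ)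
    (p : M) : dl V F a (fun q => U μ F j w (r • F q)) p
      = r * U μ F (j + 1) (fun x => w x * ⟪F x, dl V F a F p⟫) (r • F p) := by
  have hFp : rep (V := V) F p (chartAt V p p) = F p := by
    unfold rep; rw [(chartAt V p).left_inv (mem_chart_source _ p)]
  obtain ⟨D, hD, hv⟩ := U_deriv (μ := μ) hF.smooth.continuous hw j (r • F p)
  unfold dl
  have e : rep (V := V) (fun q => U μ F j w (r • F q)) p
      = (U μ F j w) ∘ fun u => r • rep (V := V) F p u := rfl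
  have h1 : HasFDerivAt (fun u => r • rep (V := V) F p u)
      (r • fderiv ℝ (rep (V := V) F p) (chartAt V p p)) (chartAt V p p) :=
    (rep_diff_self hF.smooth p).hasFDerivAt.const_smul r
  have h2 : HasFDerivAt (U μ F j w) D (r • rep (V := V) F p (chartAt V p p)) := by
    rw [hFp]; exact hD
  have h3 := h2.comp (chartAt V p p) h1
  rw [e, h3.fderiv]
  simp only [ContinuousLinearMap.comp_apply, _root_.smul_apply, map_smul, smul_eq_mul]
  rw [hv]

/-- as an element of the algebra of smooth functions -/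
noncomputable def Us (μ : Measure M) [IsFiniteMeasure μ] {F : M → W} (hF : SphImm V F) (j : ℕ)
    {w : M → ℝ} (hw : Continuous w) (r : ℝ) : SmAlg V M :=
  ⟨fun q => U μ F j w (r • F q), smooth_U hF j hw r⟩

lemma cont_w {F : M → W} (hF : SphImm V F) {w : M → ℝ} (hw : Continuous w) (b : W) :
    Continuous fun x => w x * ⟪F x, b⟫ :=
  hw.mul (hF.smooth.continuous.inner continuous_const)

lemma parseval_U {F : M → W} (hcF : Continuous F) {w : M → ℝ} (hw : Continuous w) {G : M → W}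
    (hG : Continuous G) (y : W) (j : ℕ) (Y : W) :
    ∑ b, ⟪y, stdOrthonormalBasis ℝ W b⟫
      * U μ F j (fun x => w x * ⟪G x, stdOrthonormalBasis ℝ W b⟫) Y
      = U μ F j (fun x => w x * ⟪G x, y⟫) Y := by
  simp only [← U_mul]
  rw [← U_sum _ hcF (fun i => by fun_prop)]
  refine U_congr (fun x => ?_) _ _
  rw [← (stdOrthonormalBasis ℝ W).sum_inner_mul_inner (G x) y, Finset.mul_sum]
  refine Finset.sum_congr rfl fun b _ => ?_
  rw [real_inner_comm y]
  ring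

lemma DM_Us {F : M → W} (hF : SphImm V F) (j : ℕ) {w : M → ℝ} (hw : Continuous w) (r : ℝ)
    (a : W) : DM hF a (Us μ hF j hw r)
      = r • ∑ b, DM hF a (cM hF.smooth (stdOrthonormalBasis ℝ W b))
        * Us μ hF (j + 1) (cont_w hF hw (stdOrthonormalBasis ℝ W b)) r := by
  ext p
  have h1 : (DM hF a (Us μ hF j hw r)).1 p
      = r * U μ F (j + 1) (fun x => w x * ⟪F x, dl V F a F p⟫) (r • F p) :=
    dl_U V hF a j hw r p
  rw [h1]
  have h2 : (r • ∑ b, DM hF a (cM hF.smooth (stdOrthonormalBasis ℝ W b))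
        * Us μ hF (j + 1) (cont_w hF hw (stdOrthonormalBasis ℝ W b)) r).1 p
      = r * (∑ b, DM hF a (cM hF.smooth (stdOrthonormalBasis ℝ W b))
        * Us μ hF (j + 1) (cont_w hF hw (stdOrthonormalBasis ℝ W b)) r).1 p := rfl
  rw [h2, sum_val]
  have h3 : ∀ b, (DM hF a (cM hF.smooth (stdOrthonormalBasis ℝ W b))
        * Us μ hF (j + 1) (cont_w hF hw (stdOrthonormalBasis ℝ W b)) r).1 p
      = ⟪dl V F a F p, stdOrthonormalBasis ℝ W b⟫
        * U μ F (j + 1) (fun x => w x * ⟪F x, stdOrthonormalBasis ℝ W b⟫) (r • F p) := by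
    intro b
    rw [mul_val]
    have : (DM hF a (cM hF.smooth (stdOrthonormalBasis ℝ W b))).1 p
        = ⟪dl V F a F p, stdOrthonormalBasis ℝ W b⟫ := dl_inner a hF.smooth _ p
    rw [this]
    rfl
  simp only [h3]
  rw [parseval_U hF.smooth.continuous hw hF.smooth.continuous]

lemma ev_natCast (p : M) (n : ℕ) : ((n : SmAlg V M)).1 p = (n : ℝ) := rfl

/-- the Laplacian of a parametric integral -/
theorem lap_U (hW : finrank ℝ W = finrank ℝ V + 2) {F : M → W}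
    (hF : SphImm V F) (hmin : ∀ x n, IsUnitNormal V F x n → meanCurv V F x n = 0)
    {N : M → W} (hNs : ContMDiff 𝓘(ℝ, V) 𝓘(ℝ, W) ∞ N)
    (hN : ∀ x, IsUnitNormal V F x (N x)) (j : ℕ) {w : M → ℝ} (hw : Continuous w) (r : ℝ) (p : M) :
    Lap V F (fun q => U μ F j w (r • F q)) p
      = r ^ 2 * (U μ F (j + 2) w (r • F p) - U μ F (j + 2) (fun x => w x * ⟪F x, F p⟫ ^ 2) (r • F p)
          - U μ F (j + 2) (fun x => w x * ⟪F x, N p⟫ ^ 2) (r • F p))
        - r * ((finrank ℝ V : ℝ) * U μ F (j + 1) (fun x => w x * ⟪F x, F p⟫) (r • F p)) := by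
  have hs := sysM hW hF hmin hNs hN
  have hL := Lap_val hF (Us μ hF j hw r) p
  have hcF : Continuous F := hF.smooth.continuous
  set e := stdOrthonormalBasis ℝ W with he
  have h1 := hs.lap_g (r := r) (g := Us μ hF j hw r)
    (g1 := fun b => Us μ hF (j + 1) (cont_w hF hw (e b)) r)
    (g2 := fun b c => Us μ hF (j + 1 + 1) (cont_w hF (cont_w hF hw (e b)) (e c)) r)
    (fun a => DM_Us hF j hw r (e a))
    (fun a b => DM_Us hF (j + 1) (cont_w hF hw (e b)) r (e a))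
  have h2 : Lap V F (fun q => U μ F j w (r • F q)) p = Lap V F (Us μ hF j hw r).1 p := rfl
  rw [h2, ← hL, h1, ← evM_apply, Fintype.card_fin]
  simp only [map_sub, map_smul, map_mul, map_sum, map_natCast, map_ofNat, smul_eq_mul]
  have k1 : ∀ b c, evM p (Us μ hF (j + 1 + 1) (cont_w hF (cont_w hF hw (e b)) (e c)) r)
      = U μ F (j + 2) (fun x => w x * ⟪F x, e b⟫ * ⟪F x, e c⟫) (r • F p) := fun b c => rfl
  have k2 : ∀ b, evM p (Us μ hF (j + 1) (cont_w hF hw (e b)) r)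
      = U μ F (j + 1) (fun x => w x * ⟪F x, e b⟫) (r • F p) := fun b => rfl
  have k3 : ∀ b, evM p (cM hF.smooth (e b)) = ⟪F p, e b⟫ := fun b => rfl
  have k4 : ∀ b, evM p (cM hNs (e b)) = ⟪N p, e b⟫ := fun b => rfl
  simp only [k1, k2, k3, k4]
  have quad : ∀ y : W, ∑ b, ∑ c, ⟪y, e b⟫ * ⟪y, e c⟫
        * U μ F (j + 2) (fun x => w x * ⟪F x, e b⟫ * ⟪F x, e c⟫) (r • F p)
      = U μ F (j + 2) (fun x => w x * ⟪F x, y⟫ ^ 2) (r • F p) := by
    intro y
    have q1 : ∀ b, ∑ c, ⟪y, e b⟫ * ⟪y, e c⟫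
        * U μ F (j + 2) (fun x => w x * ⟪F x, e b⟫ * ⟪F x, e c⟫) (r • F p)
        = ⟪y, e b⟫ * U μ F (j + 2) (fun x => (w x * ⟪F x, y⟫) * ⟪F x, e b⟫) (r • F p) := by
      intro b
      simp only [mul_assoc ⟪y, e b⟫]
      rw [← Finset.mul_sum, parseval_U hcF (by fun_prop) hcF]
      congr 1
      exact U_congr (fun x => by ring) _ _
    simp only [q1]
    rw [parseval_U hcF (by fun_prop) hcF]
    exact U_congr (fun x => by ring) _ _
  have tr : ∑ b, U μ F (j + 2) (fun x => w x * ⟪F x, e b⟫ * ⟪F x, e b⟫) (r • F p)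
      = U μ F (j + 2) w (r • F p) := by
    rw [← U_sum _ hcF (fun i => by fun_prop)]
    refine U_congr (fun x => ?_) _ _
    have h5 : ∑ b, ⟪F x, e b⟫ * ⟪e b, F x⟫ = 1 := by
      rw [e.sum_inner_mul_inner, real_inner_self_eq_norm_sq, hF.unit]; norm_num
    calc ∑ b, w x * ⟪F x, e b⟫ * ⟪F x, e b⟫ = w x * ∑ b, ⟪F x, e b⟫ * ⟪e b, F x⟫ := by
          rw [Finset.mul_sum]
          refine Finset.sum_congr rfl fun b _ => ?_
          rw [real_inner_comm (F x) (e b)]; ring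
      _ = w x := by rw [h5, mul_one]
  rw [quad, quad, tr, parseval_U hcF hw hcF, hW]
  push_cast
  ring

/-- the weighted integral in coordinates -/
lemma W_eq {F : M → W} (hF : SphImm V F) {N : M → W} (hNs : ContMDiff 𝓘(ℝ, V) 𝓘(ℝ, W) ∞ N)
    (j : ℕ) (r : ℝ) (hcb : ∀ b, Continuous fun x => ⟪N x, stdOrthonormalBasis ℝ W b⟫) :
    (fun q => U μ F j (fun x => ⟪N x, N q⟫) (r • F q))
      = (∑ b, cM hNs (stdOrthonormalBasis ℝ W b) * Us μ hF j (hcb b) r : SmAlg V M).1 := by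
  have hcF : Continuous F := hF.smooth.continuous
  have hcN : Continuous N := hNs.continuous
  funext q
  rw [sum_val]
  have h1 : ∀ b, (cM hNs (stdOrthonormalBasis ℝ W b) * Us μ hF j (hcb b) r).1 q
      = ⟪N q, stdOrthonormalBasis ℝ W b⟫
        * U μ F j (fun x => 1 * ⟪N x, stdOrthonormalBasis ℝ W b⟫) (r • F q) := fun b => by
    simp only [one_mul]
    rfl
  simp only [h1]
  rw [parseval_U hcF continuous_const hcN]
  exact U_congr (fun x => by rw [one_mul]) _ _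

lemma smooth_W {F : M → W} (hF : SphImm V F) {N : M → W} (hNs : ContMDiff 𝓘(ℝ, V) 𝓘(ℝ, W) ∞ N)
    (j : ℕ) (r : ℝ) :
    ContMDiff 𝓘(ℝ, V) 𝓘(ℝ, ℝ) ∞ (fun q => U μ F j (fun x => ⟪N x, N q⟫) (r • F q)) := by
  have hcN : Continuous N := hNs.continuous
  rw [W_eq hF hNs j r (fun b => by fun_prop)]
  exact (∑ b, cM hNs (stdOrthonormalBasis ℝ W b) * Us μ hF j _ r : SmAlg V M).2

/-- the Laplacian of the weighted integral -/
theorem lap_W (hW : finrank ℝ W = finrank ℝ V + 2) {F : M → W}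
    (hF : SphImm V F) (hmin : ∀ x n, IsUnitNormal V F x n → meanCurv V F x n = 0)
    {N : M → W} (hNs : ContMDiff 𝓘(ℝ, V) 𝓘(ℝ, W) ∞ N)
    (hN : ∀ x, IsUnitNormal V F x (N x)) (j : ℕ) (r : ℝ) (p : M) :
    Lap V F (fun q => U μ F j (fun x => ⟪N x, N q⟫) (r • F q)) p
      = - (normSqA V F p (N p) * U μ F j (fun x => ⟪N x, N p⟫) (r • F p))
        + 2 * ∑ a, ∑ b, ⟪dl V F (stdOrthonormalBasis ℝ W a) N p, stdOrthonormalBasis ℝ W b⟫
          * (r * U μ F (j + 1) (fun x => ⟪N x, stdOrthonormalBasis ℝ W b⟫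
              * ⟪F x, dl V F (stdOrthonormalBasis ℝ W a) F p⟫) (r • F p))
        + (r ^ 2 * (U μ F (j + 2) (fun x => ⟪N x, N p⟫) (r • F p)
          - U μ F (j + 2) (fun x => ⟪N x, N p⟫ * ⟪F x, F p⟫ ^ 2) (r • F p)
          - U μ F (j + 2) (fun x => ⟪N x, N p⟫ * ⟪F x, N p⟫ ^ 2) (r • F p))
        - r * ((finrank ℝ V : ℝ) * U μ F (j + 1) (fun x => ⟪N x, N p⟫ * ⟪F x, F p⟫) (r • F p))) := by
  have hcF : Continuous F := hF.smooth.continuous
  have hcN : Continuous N := hNs.continuous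
  set e := stdOrthonormalBasis ℝ W with he
  have hcb : ∀ b, Continuous fun x => ⟪N x, e b⟫ := fun b => by fun_prop
  have hfun : (fun q => U μ F j (fun x => ⟪N x, N q⟫) (r • F q))
      = (∑ b, cM hNs (e b) * Us μ hF j (hcb b) r : SmAlg V M).1 := W_eq (μ := μ) hF hNs j r hcb
  have hL := Lap_val hF (∑ b, cM hNs (e b) * Us μ hF j (hcb b) r) p
  rw [hfun, ← hL]
  -- product rule
  have e1 : ∑ a, DM hF (e a) (DM hF (e a) (∑ b, cM hNs (e b) * Us μ hF j (hcb b) r))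
      = (∑ b, (∑ a, DM hF (e a) (DM hF (e a) (cM hNs (e b)))) * Us μ hF j (hcb b) r)
        + 2 * (∑ a, ∑ b, DM hF (e a) (cM hNs (e b)) * DM hF (e a) (Us μ hF j (hcb b) r))
        + ∑ b, cM hNs (e b) * ∑ a, DM hF (e a) (DM hF (e a) (Us μ hF j (hcb b) r)) := by
    have e2 : ∀ a, DM hF (e a) (DM hF (e a) (∑ b, cM hNs (e b) * Us μ hF j (hcb b) r))
        = ∑ b, (DM hF (e a) (DM hF (e a) (cM hNs (e b))) * Us μ hF j (hcb b) r
          + 2 * (DM hF (e a) (cM hNs (e b)) * DM hF (e a) (Us μ hF j (hcb b) r))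
          + cM hNs (e b) * DM hF (e a) (DM hF (e a) (Us μ hF j (hcb b) r))) := by
      intro a
      simp only [map_sum, Derivation.leibniz, smul_eq_mul, map_add]
      refine Finset.sum_congr rfl fun b _ => ?_
      ring
    simp only [e2, Finset.sum_add_distrib, Finset.sum_mul, Finset.mul_sum]
    congr 1
    · congr 1
      rw [Finset.sum_comm]
    · rw [Finset.sum_comm]
  have e3 : ∀ b, (∑ a, DM hF (e a) (DM hF (e a) (Us μ hF j (hcb b) r))).1 p
      = r ^ 2 * (U μ F (j + 2) (fun x => ⟪N x, e b⟫) (r • F p)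
          - U μ F (j + 2) (fun x => ⟪N x, e b⟫ * ⟪F x, F p⟫ ^ 2) (r • F p)
          - U μ F (j + 2) (fun x => ⟪N x, e b⟫ * ⟪F x, N p⟫ ^ 2) (r • F p))
        - r * ((finrank ℝ V : ℝ) * U μ F (j + 1) (fun x => ⟪N x, e b⟫ * ⟪F x, F p⟫) (r • F p)) := by
    intro b
    rw [Lap_val hF (Us μ hF j (hcb b) r) p]
    exact lap_U hW hF hmin hNs hN j (hcb b) r p
  rw [e1, ← evM_apply]
  simp only [map_add, map_mul, map_sum, map_ofNat]
  have k0 : ∀ b, ∑ a, evM p (DM hF (e a) (DM hF (e a) (Us μ hF j (hcb b) r)))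
      = (∑ a, DM hF (e a) (DM hF (e a) (Us μ hF j (hcb b) r))).1 p := fun b => by
    rw [← map_sum]; rfl
  have k1 : ∀ b, ∑ a, evM p (DM hF (e a) (DM hF (e a) (cM hNs (e b))))
      = - normSqA V F p (N p) * ⟪N p, e b⟫ := fun b => by
    rw [← map_sum, ← lap_normal hW hF hmin hNs hN p (e b), evM_apply, Lap_val hF (cM hNs (e b)) p]
    rfl
  have k2 : ∀ b, evM p (Us μ hF j (hcb b) r) = U μ F j (fun x => 1 * ⟪N x, e b⟫) (r • F p) :=
    fun b => by
      simp only [one_mul]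
      rfl
  have k3 : ∀ b, evM p (cM hNs (e b)) = ⟪N p, e b⟫ := fun b => rfl
  have k4 : ∀ a b, evM p (DM hF (e a) (cM hNs (e b))) = ⟪dl V F (e a) N p, e b⟫ := fun a b =>
    dl_inner (e a) hNs (e b) p
  have k5 : ∀ a b, evM p (DM hF (e a) (Us μ hF j (hcb b) r))
      = r * U μ F (j + 1) (fun x => ⟪N x, e b⟫ * ⟪F x, dl V F (e a) F p⟫) (r • F p) := fun a b =>
    dl_U V hF (e a) j (hcb b) r p
  simp only [k0, k1, k2, k3, k4, k5, e3]
  have s1 : ∑ b, - normSqA V F p (N p) * ⟪N p, e b⟫ * U μ F j (fun x => 1 * ⟪N x, e b⟫) (r • F p)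
      = - (normSqA V F p (N p) * U μ F j (fun x => ⟪N x, N p⟫) (r • F p)) := by
    simp only [mul_assoc]
    rw [← Finset.mul_sum, parseval_U hcF continuous_const hcN]
    simp only [one_mul]
    ring
  have s2 : ∀ i (g : M → ℝ), Continuous g → ∑ b, ⟪N p, e b⟫
        * U μ F i (fun x => ⟪N x, e b⟫ * g x) (r • F p)
      = U μ F i (fun x => ⟪N x, N p⟫ * g x) (r • F p) := by
    intro i g hg
    have := parseval_U (μ := μ) hcF hg hcN (N p) i (r • F p)
    rw [U_congr (fun x => mul_comm ⟪N x, N p⟫ (g x)), ← this]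
    refine Finset.sum_congr rfl fun b _ => ?_
    rw [U_congr (fun x => mul_comm ⟪N x, e b⟫ (g x))]
  have s3 : ∑ b, ⟪N p, e b⟫ * U μ F (j + 2) (fun x => ⟪N x, e b⟫) (r • F p)
      = U μ F (j + 2) (fun x => ⟪N x, N p⟫) (r • F p) := by
    have := s2 (j + 2) (fun _ => 1) continuous_const
    simpa only [mul_one] using this
  have s4 : ∑ b, ⟪N p, e b⟫ * (r ^ 2 * (U μ F (j + 2) (fun x => ⟪N x, e b⟫) (r • F p)
          - U μ F (j + 2) (fun x => ⟪N x, e b⟫ * ⟪F x, F p⟫ ^ 2) (r • F p)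
          - U μ F (j + 2) (fun x => ⟪N x, e b⟫ * ⟪F x, N p⟫ ^ 2) (r • F p))
        - r * ((finrank ℝ V : ℝ) * U μ F (j + 1) (fun x => ⟪N x, e b⟫ * ⟪F x, F p⟫) (r • F p)))
      = r ^ 2 * (∑ b, ⟪N p, e b⟫ * U μ F (j + 2) (fun x => ⟪N x, e b⟫) (r • F p)
          - ∑ b, ⟪N p, e b⟫ * U μ F (j + 2) (fun x => ⟪N x, e b⟫ * ⟪F x, F p⟫ ^ 2) (r • F p)
          - ∑ b, ⟪N p, e b⟫ * U μ F (j + 2) (fun x => ⟪N x, e b⟫ * ⟪F x, N p⟫ ^ 2) (r • F p))
        - r * ((finrank ℝ V : ℝ)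
          * ∑ b, ⟪N p, e b⟫ * U μ F (j + 1) (fun x => ⟪N x, e b⟫ * ⟪F x, F p⟫) (r • F p)) := by
    simp only [Finset.mul_sum, ← Finset.sum_sub_distrib]
    refine Finset.sum_congr rfl fun b _ => ?_
    ring
  rw [s1, s4, s3, s2 (j + 2) (fun x => ⟪F x, F p⟫ ^ 2) (by fun_prop),
    s2 (j + 2) (fun x => ⟪F x, N p⟫ ^ 2) (by fun_prop), s2 (j + 1) (fun x => ⟪F x, F p⟫)
    (by fun_prop)]

end

end Vale.Agent.P224.PM
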