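import Vale.Agent.P224.PM.UFun
import Vale.Agent.P224.PM.Dens
import Vale.Agent.P224.FV.Limits
import Vale.Agent.P224.FV.Ident

/-! P224, PM: the Gaussian functional along rays: monotonicity, bounds, closeness of normals. -/

namespace Vale.Agent.P224.PM

open MeasureTheory Set Filter Topology Module Vale.Agent.P224 Vale.Agent.P224.FV
open scoped ContDiff RealInnerProductSpace Manifold

section

variable {V W M : Type*} [NormedAddCommGroup V] [InnerProductSpace ℝ V] [FiniteDimensional ℝ V]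
  [NormedAddCommGroup W] [InnerProductSpace ℝ W] [FiniteDimensional ℝ W]
  [TopologicalSpace M] [ChartedSpace V M]

/-- the square of the normal component of a fixed vector is continuous -/
theorem limit_cont_normal [IsManifold 𝓘(ℝ, V) ∞ M] (hW : finrank ℝ W = finrank ℝ V + 2)
    {F : M → W} (hF : SphImm V F) {N : M → W} (hN : ∀ x, IsUnitNormal V F x (N x)) (y : W) :
    Continuous fun x => ⟪N x, y⟫ ^ 2 := by
  have h1 : Continuous (dl V F y fun q => ⟪F q, y⟫) :=
    continuous_dl hF y (smooth_inner hF.smooth y)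
  have h2 : ∀ x, ⟪N x, y⟫ ^ 2 = ‖y‖ ^ 2 - ⟪F x, y⟫ ^ 2 - dl V F y (fun q => ⟪F q, y⟫) x := by
    intro x
    rw [dl_inner y hF.smooth, dl_F hW hF hN]
    simp only [inner_sub_left, real_inner_smul_left, real_inner_self_eq_norm_sq]
    rw [real_inner_comm (F x) y, real_inner_comm (N x) y]
    ring
  have h3 : Continuous fun x => ⟪F x, y⟫ := hF.smooth.continuous.inner continuous_const
  simp only [h2]
  exact (continuous_const.sub (h3.pow 2)).sub h1

variable [MeasurableSpace V] [BorelSpace V] [MeasurableSpace M] [BorelSpace M]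

/-- the identity behind the monotonicity -/
theorem limit_ident [IsManifold 𝓘(ℝ, V) ∞ M] [CompactSpace M] [T2Space M]
    (hm : 0 < finrank ℝ V) (hW : finrank ℝ W = finrank ℝ V + 2) {F : M → W}
    (hF : SphImm V F) (hmin : ∀ x n, IsUnitNormal V F x n → meanCurv V F x n = 0)
    (hV : VolChart V F) [IsFiniteMeasure (volM V F)] {N : M → W}
    (hN : ∀ x, IsUnitNormal V F x (N x)) (z : M) (r : ℝ) :
    U (volM V F) F (finrank ℝ V + 1) (fun x => 1 * ⟪F x, F z⟫) (r • F z) -
        r * U (volM V F) F (finrank ℝ V) (fun _ => 1) (r • F z) =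
      -r * ∫ x, ⟪N x, F z⟫ ^ 2 * K (finrank ℝ V) (r * ⟪F x, F z⟫) ∂(volM V F) := by
  obtain ⟨l, hl⟩ : ∃ l, finrank ℝ V = l + 1 := ⟨finrank ℝ V - 1, by omega⟩
  have hcF : Continuous F := hF.smooth.continuous
  have hcs : Continuous fun x => ⟪F x, F z⟫ := hcF.inner continuous_const
  have hKc : ∀ j, Continuous fun x => K j (r * ⟪F x, F z⟫) := fun j =>
    (contDiff_K j).continuous.comp (continuous_const.mul hcs)
  have hcn := limit_cont_normal hW hF hN (F z)
  have hw : ∀ t : ℝ, HasDerivAt (fun t : ℝ => K l (r * t)) (r * K (l + 1) (r * t)) t := by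
    intro t
    have h1 := (hasDerivAt_K l (r * t)).comp t ((hasDerivAt_id t).const_mul r)
    refine h1.congr_deriv ?_
    simp only [mul_one]
    ring
  have h1 := ident1 hW hF hmin hV hN (hF.unit z) (w := fun t => K l (r * t))
    (fun p => ((contDiff_K l).comp (contDiff_const.mul contDiff_id)).contDiffAt)
  have hd : ∀ t : ℝ, deriv (fun t : ℝ => K l (r * t)) t = r * K (l + 1) (r * t) := fun t =>
    (hw t).deriv
  simp only [hd] at h1
  rw [hl] at h1 ⊢
  unfold U
  simp only [real_inner_smul_right, one_mul]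
  have j1 : Integrable (fun x => ⟪F x, F z⟫ * K (l + 1 + 1) (r * ⟪F x, F z⟫)) (volM V F) :=
    integrable_of_cont _ (hcs.mul (hKc _))
  have j2 : Integrable (fun x => r * K (l + 1) (r * ⟪F x, F z⟫)) (volM V F) :=
    integrable_of_cont _ (continuous_const.mul (hKc _))
  rw [← integral_const_mul, ← integral_const_mul, ← integral_sub j1 j2]
  have e1 : ∀ x, ⟪F x, F z⟫ * K (l + 1 + 1) (r * ⟪F x, F z⟫) - r * K (l + 1) (r * ⟪F x, F z⟫) =
      -r * (⟪N x, F z⟫ ^ 2 * K (l + 1) (r * ⟪F x, F z⟫)) +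
      (((l + 1 : ℕ) : ℝ) * (⟪F x, F z⟫ * K l (r * ⟪F x, F z⟫)) -
        r * K (l + 1) (r * ⟪F x, F z⟫) * (1 - ⟪F x, F z⟫ ^ 2 - ⟪N x, F z⟫ ^ 2)) := by
    intro x
    rw [K_rec]
    push_cast
    ring
  simp only [e1]
  have i1 : Integrable (fun x => -r * (⟪N x, F z⟫ ^ 2 * K (l + 1) (r * ⟪F x, F z⟫)))
      (volM V F) := integrable_of_cont _ (continuous_const.mul (hcn.mul (hKc _)))
  have i2 : Integrable (fun x => ((l + 1 : ℕ) : ℝ) * (⟪F x, F z⟫ * K l (r * ⟪F x, F z⟫)))
      (volM V F) := integrable_of_cont _ (continuous_const.mul (hcs.mul (hKc _)))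
  have i3 : Integrable (fun x => r * K (l + 1) (r * ⟪F x, F z⟫) *
      (1 - ⟪F x, F z⟫ ^ 2 - ⟪N x, F z⟫ ^ 2)) (volM V F) :=
    integrable_of_cont _ ((continuous_const.mul (hKc _)).mul
      ((continuous_const.sub (hcs.pow 2)).sub hcn))
  have i4 : Integrable (fun x => ((l + 1 : ℕ) : ℝ) * (⟪F x, F z⟫ * K l (r * ⟪F x, F z⟫)) -
      r * K (l + 1) (r * ⟪F x, F z⟫) * (1 - ⟪F x, F z⟫ ^ 2 - ⟪N x, F z⟫ ^ 2)) (volM V F) :=
    i2.sub i3
  rw [integral_add i1 i4]
  have e2 : ∫ x, (((l + 1 : ℕ) : ℝ) * (⟪F x, F z⟫ * K l (r * ⟪F x, F z⟫)) -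
        r * K (l + 1) (r * ⟪F x, F z⟫) * (1 - ⟪F x, F z⟫ ^ 2 - ⟪N x, F z⟫ ^ 2)) ∂(volM V F) = 0 := by
    rw [integral_sub i2 i3, integral_const_mul, h1, sub_self]
  rw [e2, add_zero]

/-- derivative of the Gaussian functional along a ray -/
theorem limit_deriv [IsManifold 𝓘(ℝ, V) ∞ M] [CompactSpace M] [T2Space M]
    (hm : 0 < finrank ℝ V) (hW : finrank ℝ W = finrank ℝ V + 2) {F : M → W}
    (hF : SphImm V F) (hmin : ∀ x n, IsUnitNormal V F x n → meanCurv V F x n = 0)
    (hV : VolChart V F) [IsFiniteMeasure (volM V F)] {N : M → W}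
    (hN : ∀ x, IsUnitNormal V F x (N x)) (z : M) (r : ℝ) :
    HasDerivAt (fun r : ℝ => Real.exp (-r ^ 2 / 2) *
        U (volM V F) F (finrank ℝ V) (fun _ => 1) (r • F z))
      (-(r * (Real.exp (-r ^ 2 / 2) *
        ∫ x, ⟪N x, F z⟫ ^ 2 * K (finrank ℝ V) (r * ⟪F x, F z⟫) ∂(volM V F)))) r := by
  have h1 : HasDerivAt (fun r : ℝ => Real.exp (-r ^ 2 / 2)) (-r * Real.exp (-r ^ 2 / 2)) r := by
    have h2 : HasDerivAt (fun r : ℝ => -r ^ 2 / 2) (-r) r := by
      refine ((hasDerivAt_pow 2 r).neg.div_const 2).congr_deriv ?_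
      norm_num
      ring
    refine h2.exp.congr_deriv ?_
    ring
  have h2 := hasDerivAt_U_ray (μ := volM V F) hF.smooth.continuous
    (continuous_const : Continuous fun _ : M => (1 : ℝ)) (finrank ℝ V) (F z) r
  refine (h1.mul h2).congr_deriv ?_
  have h3 := limit_ident hm hW hF hmin hV hN z r
  have h4 : U (volM V F) F (finrank ℝ V + 1) (fun x => 1 * ⟪F x, F z⟫) (r • F z) =
      r * U (volM V F) F (finrank ℝ V) (fun _ => 1) (r • F z) +
      -r * ∫ x, ⟪N x, F z⟫ ^ 2 * K (finrank ℝ V) (r * ⟪F x, F z⟫) ∂(volM V F) := by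
    rw [← h3]
    ring
  rw [h4]
  ring

/-- the Gaussian functional is antitone along rays -/
theorem limit_antitone [IsManifold 𝓘(ℝ, V) ∞ M] [CompactSpace M] [T2Space M]
    (hm : 0 < finrank ℝ V) (hW : finrank ℝ W = finrank ℝ V + 2) {F : M → W}
    (hF : SphImm V F) (hmin : ∀ x n, IsUnitNormal V F x n → meanCurv V F x n = 0)
    (hV : VolChart V F) [IsFiniteMeasure (volM V F)] {N : M → W}
    (hN : ∀ x, IsUnitNormal V F x (N x)) (z : M) :
    AntitoneOn (fun r : ℝ => Real.exp (-r ^ 2 / 2) *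
        U (volM V F) F (finrank ℝ V) (fun _ => 1) (r • F z)) (Ici 0) := by
  have hd := limit_deriv hm hW hF hmin hV hN z
  refine antitoneOn_of_deriv_nonpos (convex_Ici 0)
    (fun r _ => (hd r).continuousAt.continuousWithinAt)
    (fun r _ => (hd r).differentiableAt.differentiableWithinAt) fun r hr => ?_
  rw [interior_Ici] at hr
  have hr0 : (0 : ℝ) < r := hr
  rw [(hd r).deriv]
  have h1 : 0 ≤ ∫ x, ⟪N x, F z⟫ ^ 2 * K (finrank ℝ V) (r * ⟪F x, F z⟫) ∂(volM V F) :=
    integral_nonneg fun x => mul_nonneg (sq_nonneg _) (K_pos _ _).le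
  have h2 : 0 ≤ r * (Real.exp (-r ^ 2 / 2) *
      ∫ x, ⟪N x, F z⟫ ^ 2 * K (finrank ℝ V) (r * ⟪F x, F z⟫) ∂(volM V F)) := by positivity
  linarith

/-- lower bound of the Gaussian functional -/
theorem V_ge [IsManifold 𝓘(ℝ, V) ∞ M] [CompactSpace M] [T2Space M]
    (hm : 0 < finrank ℝ V) (hW : finrank ℝ W = finrank ℝ V + 2) {F : M → W}
    (hF : SphImm V F) (hmin : ∀ x n, IsUnitNormal V F x n → meanCurv V F x n = 0)
    (hV : VolChart V F) [IsFiniteMeasure (volM V F)] {N : M → W}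
    (hN : ∀ x, IsUnitNormal V F x (N x)) (z : M) {r : ℝ} (hr : 0 < r) :
    sphereVol (finrank ℝ V) * K (finrank ℝ V) 0 ≤
      Real.exp (-r ^ 2 / 2) * U (volM V F) F (finrank ℝ V) (fun _ => 1) (r • F z) := by
  refine le_of_forall_sub_le fun ε hε => ?_
  have h1 := gauss_density hm hW hF z hε
  obtain ⟨R, hR1, hR2⟩ := (h1.and (eventually_ge_atTop r)).exists
  have h2 := limit_antitone hm hW hF hmin hV hN z (mem_Ici.2 hr.le)
    (mem_Ici.2 (hr.le.trans hR2)) hR2
  refine hR1.trans (le_trans (le_of_eq ?_) h2)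
  simp only [U, real_inner_smul_right, one_mul]

/-- upper bound of the Gaussian functional -/
theorem V_le [IsManifold 𝓘(ℝ, V) ∞ M] [CompactSpace M] [T2Space M]
    (hm : 0 < finrank ℝ V) (hW : finrank ℝ W = finrank ℝ V + 2) {F : M → W}
    (hF : SphImm V F) (hmin : ∀ x n, IsUnitNormal V F x n → meanCurv V F x n = 0)
    (hV : VolChart V F) [IsFiniteMeasure (volM V F)] {N : M → W}
    (hN : ∀ x, IsUnitNormal V F x (N x)) (z : M) {r : ℝ} (hr : 0 < r) :
    Real.exp (-r ^ 2 / 2) * U (volM V F) F (finrank ℝ V) (fun _ => 1) (r • F z) ≤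
      (volM V F).real univ * K (finrank ℝ V) 0 := by
  have h2 := limit_antitone hm hW hF hmin hV hN z (mem_Ici.2 le_rfl) (mem_Ici.2 hr.le) hr.le
  refine h2.trans (le_of_eq ?_)
  simp [U]

/-- the normals are close where the kernel is large -/
theorem W_close [IsManifold 𝓘(ℝ, V) ∞ M] [CompactSpace M] [T2Space M] {F : M → W}
    (hF : SphImm V F) [IsFiniteMeasure (volM V F)] {N : M → W}
    (hN : ∀ x, IsUnitNormal V F x (N x)) (hcN : Continuous N) (hinj : Function.Injective F)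
    {η : ℝ} (hη : 0 < η) (C : ℝ)
    (hC : ∀ᶠ r : ℝ in atTop, ∀ z, Real.exp (-r ^ 2 / 2) *
      U (volM V F) F (finrank ℝ V) (fun _ => 1) (r • F z) ≤ C) :
    ∀ᶠ r : ℝ in atTop, ∀ z, Real.exp (-r ^ 2 / 2) *
      U (volM V F) F (finrank ℝ V) (fun x => 1 - ⟪N x, N z⟫) (r • F z) ≤ η := by
  have hcF : Continuous F := hF.smooth.continuous
  let _ : MeasurableSpace W := borel W
  have : BorelSpace W := ⟨rfl⟩
  set C' : ℝ := max C 0 + 1 with hC'
  have hC'0 : 0 < C' := by have := le_max_right C 0; linarith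
  obtain ⟨δ, hδ, hclose⟩ := close_normals hcF hcN hinj hF.unit (fun x => (hN x).1)
    (η := η / (2 * C')) (by positivity)
  set A : ℝ := (volM V F).real univ with hA
  have hA0 : 0 ≤ A := measureReal_nonneg
  have hδ1 : 0 < min δ 1 := lt_min hδ one_pos
  have hsmall : ∀ᶠ r : ℝ in atTop, Real.exp (-r ^ 2 / 2) *
      K (finrank ℝ V) (r * (1 - min δ 1)) < η / (4 * (A + 1)) :=
    (K_small (finrank ℝ V) hδ1 (min_le_right _ _)).eventually_lt_const (by positivity)
  filter_upwards [hsmall, hC, eventually_gt_atTop 0] with r h1 h2 hr z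
  have hs : ∀ x, ⟪F x, F z⟫ = ⟪F x, F z⟫ := fun x => rfl
  set E : ℝ := Real.exp (-r ^ 2 / 2) with hE
  have hE0 : 0 < E := Real.exp_pos _
  set κ : ℝ := K (finrank ℝ V) (r * (1 - min δ 1)) with hκ
  have hκ0 : 0 < κ := K_pos _ _
  have hpt : ∀ x, (1 - ⟪N x, N z⟫) * K (finrank ℝ V) ⟪F x, r • F z⟫ ≤
      η / (2 * C') * (1 * K (finrank ℝ V) ⟪F x, r • F z⟫) + 2 * κ := by
    intro x
    have hk0 := (K_pos (finrank ℝ V) ⟪F x, r • F z⟫).le
    by_cases hx : 1 - δ < ⟪F x, F z⟫
    · have h3 := hclose x z hx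
      have h4 := mul_le_mul_of_nonneg_right h3.le hk0
      have h5 : 0 ≤ 2 * κ := by positivity
      linarith
    · have hx' : ⟪F x, F z⟫ ≤ 1 - min δ 1 := by
        have := min_le_left δ 1
        have := not_lt.mp hx
        linarith
      have h3 : K (finrank ℝ V) ⟪F x, r • F z⟫ ≤ κ := by
        rw [real_inner_smul_right]
        exact K_mono _ (mul_le_mul_of_nonneg_left hx' hr.le)
      have h4 : 1 - ⟪N x, N z⟫ ≤ 2 := by
        have h5 := abs_real_inner_le_norm (N x) (N z)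
        rw [(hN x).1, (hN z).1, mul_one] at h5
        have := (abs_le.mp h5).1
        linarith
      have h6 : 0 ≤ η / (2 * C') * (1 * K (finrank ℝ V) ⟪F x, r • F z⟫) := by positivity
      calc (1 - ⟪N x, N z⟫) * K (finrank ℝ V) ⟪F x, r • F z⟫
          ≤ 2 * κ := mul_le_mul h4 h3 hk0 (by norm_num)
        _ ≤ _ := by linarith
  have i1 : Integrable (fun x => (1 - ⟪N x, N z⟫) * K (finrank ℝ V) ⟪F x, r • F z⟫) (volM V F) :=
    ufun_int hcF (continuous_const.sub (hcN.inner continuous_const)) _ _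
  have i2 : Integrable (fun x => (1 : ℝ) * K (finrank ℝ V) ⟪F x, r • F z⟫) (volM V F) :=
    ufun_int hcF (continuous_const : Continuous fun _ : M => (1 : ℝ)) _ _
  have h3 : U (volM V F) F (finrank ℝ V) (fun x => 1 - ⟪N x, N z⟫) (r • F z) ≤
      η / (2 * C') * U (volM V F) F (finrank ℝ V) (fun _ => 1) (r • F z) + A * (2 * κ) := by
    unfold U
    calc _ ≤ ∫ x, (η / (2 * C') * (1 * K (finrank ℝ V) ⟪F x, r • F z⟫) + 2 * κ) ∂(volM V F) :=
          integral_mono i1 ((i2.const_mul _).add (integrable_const _)) hpt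
      _ = _ := by
          rw [integral_add (i2.const_mul _) (integrable_const _), integral_const_mul,
            integral_const, smul_eq_mul]
  have h4 := mul_le_mul_of_nonneg_left h3 hE0.le
  have h5 := h2 z
  have h6 : E * U (volM V F) F (finrank ℝ V) (fun _ => 1) (r • F z) ≤ C' := by
    have := le_max_left C 0
    linarith
  calc E * U (volM V F) F (finrank ℝ V) (fun x => 1 - ⟪N x, N z⟫) (r • F z)
      ≤ E * (η / (2 * C') * U (volM V F) F (finrank ℝ V) (fun _ => 1) (r • F z) + A * (2 * κ)) := h4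
    _ = η / (2 * C') * (E * U (volM V F) F (finrank ℝ V) (fun _ => 1) (r • F z)) +
        A * (2 * (E * κ)) := by ring
    _ ≤ η / (2 * C') * C' + (A + 1) * (2 * (η / (4 * (A + 1)))) := by
        gcongr
        linarith
    _ = η := by
        field_simp
        ring

end

end Vale.Agent.P224.PM
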