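import Vale.Agent.P224.Gap.Flat4
import Vale.Agent.P224.Charts

/-!
# P224: the starting point of the maximum principle

On a closed connected minimal hypersurface which is not totally geodesic, the total normal is
orthogonal to the normal at some point.
-/

namespace Vale.Agent.P224.PM

open Matrix MeasureTheory Module Function Set Vale.Agent.P224 Vale.Agent.P224.FV
open scoped RealInnerProductSpace Topology ContDiff Manifold

set_option linter.unusedSectionVars false

section

variable {V W M : Type*} [NormedAddCommGroup V] [InnerProductSpace ℝ V] [FiniteDimensional ℝ V]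
  [NormedAddCommGroup W] [InnerProductSpace ℝ W] [FiniteDimensional ℝ W]
  [TopologicalSpace M] [ChartedSpace V M]
  [MeasurableSpace V] [BorelSpace V] [MeasurableSpace M] [BorelSpace M]

/-- the integral of the Laplacian vanishes -/
theorem integral_Lap [IsManifold 𝓘(ℝ, V) ∞ M] [CompactSpace M] [T2Space M]
    (hW : finrank ℝ W = finrank ℝ V + 2) {F : M → W}
    (hF : SphImm V F) (hmin : ∀ x n, IsUnitNormal V F x n → meanCurv V F x n = 0)
    (hV : VolChart V F) [IsFiniteMeasure (volM V F)] {g : M → ℝ}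
    (hg : ContMDiff 𝓘(ℝ, V) 𝓘(ℝ, ℝ) ∞ g) :
    ∫ p, Lap V F g p ∂(volM V F) = 0 := by
  have h := green hW hF hmin hV (0 : W) (G := fun _ => 1) (fun _ => contDiffAt_const) hg
  simp only [deriv_const, zero_mul, integral_zero, one_mul] at h
  linarith

/-- there is a point whose normal is orthogonal to the total normal -/
theorem exists_start [IsManifold 𝓘(ℝ, V) ∞ M] [CompactSpace M] [T2Space M] [ConnectedSpace M]
    (hm : 0 < finrank ℝ V)
    (hW : finrank ℝ W = finrank ℝ V + 2) {F : M → W}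
    (hF : SphImm V F) (hmin : ∀ x n, IsUnitNormal V F x n → meanCurv V F x n = 0)
    (hV : VolChart V F) [IsFiniteMeasure (volM V F)] {N : M → W}
    (hNs : ContMDiff 𝓘(ℝ, V) 𝓘(ℝ, W) ∞ N) (hN : ∀ x, IsUnitNormal V F x (N x))
    (hA : ∃ x, normSqA V F x (N x) ≠ 0) :
    ∃ z, ∫ x, ⟪N x, N z⟫ ∂(volM V F) = 0 := by
  have hcN : Continuous N := hNs.continuous
  obtain ⟨G, hG⟩ : ∃ G, G = ∫ x, N x ∂(volM V F) := ⟨_, rfl⟩
  have hint : Integrable N (volM V F) := by
    obtain ⟨C, hC⟩ : ∃ C : ℝ, ∀ x, ‖N x‖ ≤ C := ⟨1, fun x => (hN x).1.le⟩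
    exact Integrable.of_bound hcN.aestronglyMeasurable C (Filter.Eventually.of_forall hC)
  have hz : ∀ z, ∫ x, ⟪N x, N z⟫ ∂(volM V F) = ⟪N z, G⟫ := by
    intro z
    rw [hG]
    have : ∀ x, ⟪N x, N z⟫ = ⟪N z, N x⟫ := fun x => real_inner_comm _ _
    simp only [this]
    exact integral_inner hint (N z)
  by_contra hcon
  push Not at hcon
  simp only [hz] at hcon
  have hu : Continuous fun z => ⟪N z, G⟫ := hcN.inner continuous_const
  have hS : Continuous fun x => normSqA V F x (N x) :=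
    (Gap.contMDiff_normSqA hW hF hNs hN).continuous
  have hS0 : ∀ x, 0 ≤ normSqA V F x (N x) := Gap.normSqA_nonneg hW hF hNs hN
  have h0 : ∫ x, normSqA V F x (N x) * ⟪N x, G⟫ ∂(volM V F) = 0 := by
    have h := integral_Lap hW hF hmin hV (smooth_inner hNs G)
    simp only [Gap.lap_normal hW hF hmin hNs hN] at h
    have e : ∀ x, -normSqA V F x (N x) * ⟪N x, G⟫ = -(normSqA V F x (N x) * ⟪N x, G⟫) := by
      intro x; ring
    simp only [e] at h
    rw [integral_neg] at h
    linarith
  have hop : (volM V F).IsOpenPosMeasure :=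
    ⟨fun U hU hne => (volM_pos_of_isOpen hW hF hU hne).ne'⟩
  obtain ⟨x₀, hx₀⟩ := hA
  have hsign : (∀ z, 0 < ⟪N z, G⟫) ∨ (∀ z, ⟪N z, G⟫ < 0) := by
    by_contra hc
    push Not at hc
    obtain ⟨⟨a, ha⟩, ⟨b, hb⟩⟩ := hc
    obtain ⟨c, hc⟩ := mem_range_of_exists_le_of_exists_ge hu ⟨a, ha⟩ ⟨b, hb⟩
    exact hcon c hc
  rcases hsign with h | h
  · have := (hS.mul hu).integral_pos_of_hasCompactSupport_nonneg_nonzero (μ := volM V F)
      (HasCompactSupport.of_compactSpace _) (fun x => mul_nonneg (hS0 x) (h x).le)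
      (x := x₀) (mul_ne_zero hx₀ (h x₀).ne')
    exact absurd h0 this.ne'
  · have h1 := (hS.mul hu).neg.integral_pos_of_hasCompactSupport_nonneg_nonzero (μ := volM V F)
      (HasCompactSupport.of_compactSpace _)
      (fun x => neg_nonneg.2 (mul_nonpos_of_nonneg_of_nonpos (hS0 x) (h x).le))
      (x := x₀) (neg_ne_zero.2 (mul_ne_zero hx₀ (h x₀).ne))
    have h2 : ∫ x, -(normSqA V F x (N x) * ⟪N x, G⟫) ∂(volM V F) = 0 := by
      rw [integral_neg, h0, neg_zero]
    exact absurd h2 h1.ne'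

end

end Vale.Agent.P224.PM
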