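import Vale.Agent.P224.PM.Contra
import Vale.Agent.P224.PM.Limit
import Vale.Agent.P224.PM.Start
import Vale.Agent.P224.PM.Asm

namespace Vale.Agent.P224.PM

open Matrix MeasureTheory Module Function Set Filter Vale.Agent.P224 Vale.Agent.P224.FV
  Vale.Agent.P224.Gap
open scoped RealInnerProductSpace Topology ContDiff Manifold

set_option linter.unusedSectionVars false

section

variable {V W M : Type*} [NormedAddCommGroup V] [InnerProductSpace ℝ V] [FiniteDimensional ℝ V]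
  [NormedAddCommGroup W] [InnerProductSpace ℝ W] [FiniteDimensional ℝ W]
  [TopologicalSpace M] [ChartedSpace V M]
  [MeasurableSpace V] [BorelSpace V] [MeasurableSpace M] [BorelSpace M]
  [IsManifold 𝓘(ℝ, V) ∞ M] [CompactSpace M] [T2Space M]

lemma cont_gV {F N : M → W} (hF : Continuous F) (hN : Continuous N) [IsFiniteMeasure (volM V F)] :
    Continuous fun q : M × ℝ => gφ V F N q.1 q.2 := by
  have h1 : ∀ w : M → ℝ, Continuous w →
      Continuous fun q : M × ℝ => U (volM V F) F (finrank ℝ V) w (q.2 • F q.1) := fun w hw =>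
    (contDiff_U (μ := volM V F) hF hw (finrank ℝ V)).continuous.comp
      (continuous_snd.smul (hF.comp continuous_fst))
  have h2 : Continuous fun q : M × ℝ =>
      U (volM V F) F (finrank ℝ V) (fun x => ⟪N x, N q.1⟫) (q.2 • F q.1) := by
    have h3 : (fun q : M × ℝ => U (volM V F) F (finrank ℝ V) (fun x => ⟪N x, N q.1⟫) (q.2 • F q.1))
        = fun q : M × ℝ => ∑ b, ⟪N q.1, stdOrthonormalBasis ℝ W b⟫
          * U (volM V F) F (finrank ℝ V) (fun x => 1 * ⟪N x, stdOrthonormalBasis ℝ W b⟫)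
            (q.2 • F q.1) := by
      funext q
      rw [parseval_U hF continuous_const hN]
      exact U_congr (fun x => (one_mul _).symm) _ _
    rw [h3]
    refine continuous_finsetSum _ fun b _ => ?_
    exact (((hN.comp continuous_fst).inner continuous_const)).mul (h1 _ (by fun_prop))
  unfold gφ gV
  have h4 : Continuous fun q : M × ℝ => Real.exp (-q.2 ^ 2 / 2) := by fun_prop
  exact ((h4.mul (h1 _ continuous_const)).pow 2).add
    (continuous_const.mul ((h4.mul h2).pow 2))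

lemma exists_eta {Z B : ℝ} (hZ0 : 0 < Z) (h : B < 36 / 25 * Z ^ 2) :
    ∃ η, 0 < η ∧ η ≤ Z ∧ B ≤ Z ^ 2 + 11 / 25 * (Z - η) ^ 2 := by
  have hδ0 : 0 < 36 / 25 * Z ^ 2 - B := by linarith
  refine ⟨min Z ((36 / 25 * Z ^ 2 - B) / (2 * Z)), lt_min hZ0 (by positivity), min_le_left _ _, ?_⟩
  have h1 : min Z ((36 / 25 * Z ^ 2 - B) / (2 * Z)) ≤ (36 / 25 * Z ^ 2 - B) / (2 * Z) :=
    min_le_right _ _
  generalize min Z ((36 / 25 * Z ^ 2 - B) / (2 * Z)) = t at h1
  rw [le_div_iff₀ (by positivity)] at h1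
  nlinarith [sq_nonneg t]

lemma near_zero {M : Type*} [TopologicalSpace M] {φ : M → ℝ → ℝ}
    (hc : Continuous fun q : M × ℝ => φ q.1 q.2) {z : M} {B : ℝ} (h0 : φ z 0 < B) :
    ∃ r ε, 0 < r ∧ 0 < ε ∧ φ z r + ε / r < B := by
  have hc' : Continuous (φ z) := hc.comp (continuous_const.prodMk continuous_id)
  obtain ⟨r, h4, h5⟩ : ∃ r, φ z r < B ∧ 0 < r := by
    have h2 : ∀ᶠ r in 𝓝[>] (0 : ℝ), φ z r < B :=
      ((hc'.tendsto 0).mono_left nhdsWithin_le_nhds).eventually_lt_const h0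
    exact (h2.and self_mem_nhdsWithin).exists
  have h6 : 0 < B - φ z r := by linarith
  refine ⟨r, (B - φ z r) * r / 2, h5, by positivity, ?_⟩
  have : (B - φ z r) * r / 2 / r = (B - φ z r) / 2 := by
    field_simp
  rw [this]
  linarith

lemma phi_nonneg {F N : M → W} (z : M) (r : ℝ) : 0 ≤ gφ V F N z r := by
  unfold gφ; positivity

lemma phi_zero {F N : M → W} {z₀ : M} [IsFiniteMeasure (volM V F)] :
    gφ V F N z₀ 0 = ((volM V F).real univ * K (finrank ℝ V) 0) ^ 2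
      + 11 / 25 * ((∫ x, ⟪N x, N z₀⟫ ∂(volM V F)) * K (finrank ℝ V) 0) ^ 2 := by
  have e1 : gV V F (fun _ => 1) z₀ 0 = (volM V F).real univ * K (finrank ℝ V) 0 := by
    simp [gV, U]
  have e2 : gV V F (fun x => ⟪N x, N z₀⟫) z₀ 0
      = (∫ x, ⟪N x, N z₀⟫ ∂(volM V F)) * K (finrank ℝ V) 0 := by
    simp only [gV, U, zero_smul, inner_zero_right]
    rw [integral_mul_const]
    simp
  unfold gφ
  rw [e1, e2]

lemma phi_inf (hm : 0 < finrank ℝ V) (hW : finrank ℝ W = finrank ℝ V + 2) {F : M → W}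
    (hF : SphImm V F) (hmin : ∀ x n, IsUnitNormal V F x n → meanCurv V F x n = 0)
    (hV : VolChart V F) [IsFiniteMeasure (volM V F)] {N : M → W} (hcN : Continuous N)
    (hN : ∀ x, IsUnitNormal V F x (N x)) (hinj : Function.Injective F) {Z B η : ℝ}
    (hZ0 : 0 < Z) (hVge : ∀ z r, 0 < r → Z ≤ gV V F (fun _ => 1) z r)
    (hη : 0 < η) (hηZ : η ≤ Z) (hηB : B ≤ Z ^ 2 + 11 / 25 * (Z - η) ^ 2) :
    ∀ᶠ r : ℝ in atTop, ∀ z, B ≤ gφ V F N z r := by
  have hcF : Continuous F := hF.smooth.continuous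
  have h1 := W_close hF hN hcN hinj hη ((volM V F).real univ * K (finrank ℝ V) 0)
    (by
      filter_upwards [eventually_gt_atTop 0] with r hr z
      exact V_le hm hW hF hmin hV hN z hr)
  filter_upwards [h1, eventually_gt_atTop 0] with r hr hr0 z
  have h2 := hr z
  rw [U_sub hcF continuous_const (by fun_prop), mul_sub] at h2
  have h3 : gV V F (fun _ => 1) z r - gV V F (fun x => ⟪N x, N z⟫) z r ≤ η := h2
  have h4 := hVge z r hr0
  have h5 : Z - η ≤ gV V F (fun x => ⟪N x, N z⟫) z r := by linarith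
  have h6 : (Z - η) ^ 2 ≤ gV V F (fun x => ⟪N x, N z⟫) z r ^ 2 :=
    pow_le_pow_left₀ (by linarith) h5 2
  have h7 : Z ^ 2 ≤ gV V F (fun _ => 1) z r ^ 2 := pow_le_pow_left₀ hZ0.le h4 2
  unfold gφ
  linarith

/-- the pointwise bound -/
theorem core_pt (hm2 : 2 ≤ finrank ℝ V)
    (hW : finrank ℝ W = finrank ℝ V + 2) {F : M → W}
    (hF : SphImm V F) (hmin : ∀ x n, IsUnitNormal V F x n → meanCurv V F x n = 0)
    (hV : VolChart V F) [IsFiniteMeasure (volM V F)] {N : M → W}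
    (hNs : ContMDiff 𝓘(ℝ, V) 𝓘(ℝ, W) ∞ N)
    (hN : ∀ x, IsUnitNormal V F x (N x)) (hinj : Function.Injective F) (z₀ : M) :
    36 / 25 * (sphereVol (finrank ℝ V) * K (finrank ℝ V) 0) ^ 2
      ≤ ((volM V F).real univ * K (finrank ℝ V) 0) ^ 2
        + 11 / 25 * ((∫ x, ⟪N x, N z₀⟫ ∂(volM V F)) * K (finrank ℝ V) 0) ^ 2 := by
  have hm : 0 < finrank ℝ V := by omega
  have hcF : Continuous F := hF.smooth.continuous
  have hcN : Continuous N := hNs.continuous
  have hZ0 : 0 < sphereVol (finrank ℝ V) * K (finrank ℝ V) 0 := mul_pos (sphereVol_pos' _) (K_pos _ _)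
  by_contra hcon
  push Not at hcon
  have hVge : ∀ z r, 0 < r → sphereVol (finrank ℝ V) * K (finrank ℝ V) 0
      ≤ gV V F (fun _ => 1) z r := fun z r hr =>
    V_ge hm hW hF hmin hV hN z hr
  obtain ⟨B, hB1, hB2⟩ := exists_between hcon
  obtain ⟨η, hη, hηZ, hηB⟩ := exists_eta hZ0 hB2
  have hinf := phi_inf hm hW hF hmin hV hcN hN hinj hZ0 hVge hη hηZ hηB
  have hc := cont_gV (V := V) hcF hcN
  have h00 : gφ V F N z₀ 0 < B := phi_zero.trans_lt hB1
  obtain ⟨r₀, ε, hr₀, hε0, hlt⟩ := near_zero (φ := gφ V F N) hc h00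
  obtain ⟨z, r, hr, hmn⟩ := exists_min (φ := gφ V F N) hc (fun z r => phi_nonneg z r) hε0
    ⟨z₀, r₀, hr₀, hlt⟩ hinf
  exact contra hm2 hW hF hmin hV hNs hN (fun z r hr => hZ0.trans_le (hVge z r hr)) hε0 z hr
    (fun z' r' hr' => hmn z' r' hr')

lemma cancel_K {A S I k : ℝ} (hk : 0 < k)
    (h : 36 / 25 * (S * k) ^ 2 ≤ (A * k) ^ 2 + 11 / 25 * (I * k) ^ 2) :
    36 * S ^ 2 ≤ 25 * A ^ 2 + 11 * I ^ 2 := by
  have h1 : k ^ 2 * (36 * S ^ 2) ≤ k ^ 2 * (25 * A ^ 2 + 11 * I ^ 2) := by linarith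
  exact le_of_mul_le_mul_left h1 (by positivity)

/-- the pointwise inequality for the total normal -/
theorem main_pt [ConnectedSpace M] (hm2 : 2 ≤ finrank ℝ V)
    (hW : finrank ℝ W = finrank ℝ V + 2) {F : M → W}
    (hF : SphImm V F) (hmin : ∀ x n, IsUnitNormal V F x n → meanCurv V F x n = 0)
    {N : M → W} (hNs : ContMDiff 𝓘(ℝ, V) 𝓘(ℝ, W) ∞ N)
    (hN : ∀ x, IsUnitNormal V F x (N x)) (z : M) :
    36 * sphereVol (finrank ℝ V) ^ 2
      ≤ 25 * (volM V F).real univ ^ 2 + 11 * (∫ x, ⟪N x, N z⟫ ∂(volM V F)) ^ 2 := by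
  have hfin : IsFiniteMeasure (volM V F) := isFiniteMeasure_volM hF
  by_cases hinj : Function.Injective F
  · exact cancel_K (K_pos (finrank ℝ V) 0)
      (core_pt hm2 hW hF hmin (volChart_of_sphImm hF) hNs hN hinj z)
  · have h2 : 2 * sphereVol (finrank ℝ V) ≤ (volM V F).real univ :=
      TwoSide.two_le (by omega) hW hF hmin hinj
    have hs := sphereVol_pos' (finrank ℝ V)
    have h3 : (2 * sphereVol (finrank ℝ V)) ^ 2 ≤ (volM V F).real univ ^ 2 :=
      pow_le_pow_left₀ (by positivity) h2 2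
    nlinarith [sq_nonneg (∫ x, ⟪N x, N z⟫ ∂(volM V F)), sq_nonneg (sphereVol (finrank ℝ V))]

/-- volume gap: six fifths -/
theorem main_six_fifths [ConnectedSpace M] (hm2 : 2 ≤ finrank ℝ V)
    (hW : finrank ℝ W = finrank ℝ V + 2) {F : M → W}
    (hF : SphImm V F) (hmin : ∀ x n, IsUnitNormal V F x n → meanCurv V F x n = 0)
    (hne : ¬ ∃ a : W, a ≠ 0 ∧ ∀ x, ⟪F x, a⟫ = 0) :
    ENNReal.ofReal (6 / 5 * sphereVol (finrank ℝ V)) ≤ volM V F univ := by
  have hfin : IsFiniteMeasure (volM V F) := isFiniteMeasure_volM hF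
  refine main_of_core hm2 hW hF hmin hne (K_pos (finrank ℝ V) 0) fun N hNs hN hinj hA => ?_
  obtain ⟨z₀, hz₀⟩ := exists_start (by omega) hW hF hmin (volChart_of_sphImm hF) hNs hN hA
  have h := core_pt hm2 hW hF hmin (volChart_of_sphImm hF) hNs hN hinj z₀
  rw [hz₀] at h
  simpa using h

end

end Vale.Agent.P224.PM
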